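import Vale.Agent.P297.H212.Cls
import Vale.Agent.P297.H72.Inv

/-!
Zero-cycles on a surface whose function field is contained in a tower of two quadratic extensions
of a rational field.
-/

set_option linter.unusedSectionVars false
set_option linter.style.haveILetI false

open CategoryTheory AlgebraicGeometry IntermediateField Polynomial

namespace Vale.Agent.P297.H212

open Vale.Agent.P297 Vale.Agent.P297.H572.Half Vale.Agent.P297.H124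

section Places

variable {E : Type} [Field E] [Algebra ℂ E] [IsFF ℂ E]

theorem evalAt_eq_iff {w : PlaceOver ℂ E} {x : E} (hx : x ∈ w.1.ring) {c : ℂ} :
    evalAt w ⟨x, hx⟩ = c ↔
      (x - algebraMap ℂ E c = 0 ∨ (x - algebraMap ℂ E c)⁻¹ ∉ w.1.ring) := by
  refine ⟨fun h => ?_, H72.evalAt_eq_of hx⟩
  by_contra hcon
  push Not at hcon
  obtain ⟨h1, h2⟩ := hcon
  have h3 : evalAt w (⟨x, hx⟩ - constTo w.1 w.2 c) = 0 := by
    rw [map_sub, evalAt_const, h, sub_self]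
  rw [evalAt_eq_zero_iff, IsLocalRing.mem_maximalIdeal, mem_nonunits_iff] at h3
  apply h3
  apply IsUnit.of_mul_eq_one ⟨(x - algebraMap ℂ E c)⁻¹, h2⟩
  apply Subtype.ext
  exact mul_inv_cancel₀ h1

/-- The value of a place as a homomorphism of algebras. -/
theorem exists_chi {A : Type} [CommRing A] [Algebra ℂ A] (w : PlaceOver ℂ E) (m : A →ₐ[ℂ] E)
    (hw : ∀ a, m a ∈ w.1.ring) : ∃ χ : A →ₐ[ℂ] ℂ, ∀ a, evalAt w ⟨m a, hw a⟩ = χ a := by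
  let ρ' : A →+* w.1.ring := m.toRingHom.codRestrict w.1.ring hw
  refine ⟨{ (evalAt w).comp ρ' with
      commutes' := by
        intro a
        change evalAt w ⟨m (algebraMap ℂ _ a), _⟩ = a
        have h1 : (⟨m (algebraMap ℂ _ a), hw _⟩ : w.1.ring) = constTo w.1 w.2 a :=
          Subtype.ext (m.commutes a)
        rw [h1, evalAt_const] }, fun a => rfl⟩

/-- A place over a point of the image. -/
theorem exists_place_point {A : Type} [CommRing A] [Algebra ℂ A] (m : A →ₐ[ℂ] E) (ξ : A →ₐ[ℂ] ℂ)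
    (hk : ∀ a, m a = 0 → ξ a = 0) (b : A) (hb : m b ≠ 0) (hξ : ξ b = 0) :
    ∃ w : PlaceOver ℂ E, ∃ hw : ∀ a, m a ∈ w.1.ring, ∀ a, evalAt w ⟨m a, hw a⟩ = ξ a := by
  obtain ⟨χ, hχ⟩ := exists_alg_lift m.rangeRestrict m.rangeRestrict_surjective ξ (by
    intro F hF
    apply hk
    exact congrArg Subtype.val hF)
  obtain ⟨w, hwD, hw⟩ := exists_place_dominating m.range χ (m.rangeRestrict b) (by
    intro h0
    exact hb (congrArg Subtype.val h0)) (by rw [hχ, hξ])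
  exact ⟨w, fun a => hwD (m.rangeRestrict a), fun a => (hw (m.rangeRestrict a)).trans (hχ a)⟩

end Places

section Conj

variable {K E : Type} [Field K] [Field E] [Algebra ℂ K] [Algebra ℂ E] [Algebra K E]
  [IsScalarTower ℂ K E] [IsFF ℂ K] [IsFF ℂ E] [FiniteDimensional K E]

/-- The conjugate of a place. -/
theorem exists_conj_place (τ : E ≃ₐ[K] E) (w : PlaceOver ℂ E) :
    ∃ w' : PlaceOver ℂ E, (∀ x, x ∈ w'.1.ring ↔ τ x ∈ w.1.ring) ∧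
      restrictPlace K w' = restrictPlace K w := by
  have hτc : ∀ a : ℂ, τ (algebraMap ℂ E a) = algebraMap ℂ E a := by
    intro a
    rw [IsScalarTower.algebraMap_apply ℂ K E, τ.commutes]
  obtain ⟨w', hw'⟩ := exists_place (k := ℂ) (w.1.ring.comap (τ : E →+* E)) (by
    intro a
    change τ (algebraMap ℂ E a) ∈ w.1.ring
    rw [hτc]
    exact w.2 a) (by
    intro htop
    apply w.1.ring_ne_top
    rw [eq_top_iff]
    intro x _
    have h1 : τ.symm x ∈ w.1.ring.comap (τ : E →+* E) := by rw [htop]; trivial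
    change τ (τ.symm x) ∈ w.1.ring at h1
    rwa [AlgEquiv.apply_symm_apply] at h1)
  have hmem : ∀ x, x ∈ w'.ring ↔ τ x ∈ w.1.ring := by
    intro x
    rw [hw']
    rfl
  refine ⟨⟨w', fun a => by rw [hmem, hτc]; exact w.2 a⟩, hmem, ?_⟩
  rw [restrictPlace_eq_iff]
  intro z
  change algebraMap K E z ∈ w'.ring ↔ _
  rw [hmem, τ.commutes]

theorem evalAt_conj {τ : E ≃ₐ[K] E} {w w' : PlaceOver ℂ E}
    (h : ∀ x, x ∈ w'.1.ring ↔ τ x ∈ w.1.ring) {x : E} (hx : x ∈ w'.1.ring) :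
    evalAt w' ⟨x, hx⟩ = evalAt w ⟨τ x, (h x).1 hx⟩ := by
  rw [evalAt_eq_iff hx]
  have h1 := (evalAt_eq_iff ((h x).1 hx)).1 rfl
  have h2 : τ x - algebraMap ℂ E (evalAt w ⟨τ x, (h x).1 hx⟩) =
      τ (x - algebraMap ℂ E (evalAt w ⟨τ x, (h x).1 hx⟩)) := by
    rw [map_sub, IsScalarTower.algebraMap_apply ℂ K E, τ.commutes]
  rw [h2] at h1
  rcases h1 with h1 | h1
  · left
    exact (map_eq_zero_iff τ τ.injective).1 h1
  · right
    rw [h, map_inv₀]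
    exact h1

end Conj

section Main

variable {N : Type} [Field N] [Algebra ℂ N] {A : Subalgebra ℂ N} {Z : N} {hZ : Z ^ 2 ∈ A}

/-- Homomorphisms to the complex numbers with the same restriction are conjugate. -/
theorem hom_or {σ : quadAlg A Z hZ →ₐ[ℂ] quadAlg A Z hZ}
    (hσ : ∀ a : A, σ ⟨a, le_quadAlg A Z hZ a.2⟩ = ⟨a, le_quadAlg A Z hZ a.2⟩)
    (hσZ : σ ⟨Z, self_quadAlg A Z hZ⟩ = -⟨Z, self_quadAlg A Z hZ⟩)
    {ξ χ : quadAlg A Z hZ →ₐ[ℂ] ℂ}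
    (h : ∀ a : A, χ ⟨a, le_quadAlg A Z hZ a.2⟩ = ξ ⟨a, le_quadAlg A Z hZ a.2⟩) :
    χ = ξ ∨ χ = ξ.comp σ := by
  have h1 : (χ ⟨Z, self_quadAlg A Z hZ⟩ - ξ ⟨Z, self_quadAlg A Z hZ⟩) *
      (χ ⟨Z, self_quadAlg A Z hZ⟩ + ξ ⟨Z, self_quadAlg A Z hZ⟩) = 0 := by
    have h2 : (⟨Z, self_quadAlg A Z hZ⟩ : quadAlg A Z hZ) ^ 2 =
        ⟨(⟨Z ^ 2, hZ⟩ : A), le_quadAlg A Z hZ hZ⟩ := rfl
    have h3 := congrArg χ h2
    have h4 := congrArg ξ h2
    rw [map_pow] at h3 h4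
    rw [h ⟨Z ^ 2, hZ⟩, ← h4] at h3
    linear_combination h3
  rcases mul_eq_zero.1 h1 with h2 | h2
  · left
    exact quad_hom_ext h (sub_eq_zero.1 h2)
  · right
    refine quad_hom_ext (fun a => ?_) ?_
    · rw [AlgHom.comp_apply, hσ]
      exact h a
    · rw [AlgHom.comp_apply, hσZ, map_neg]
      exact eq_neg_of_add_eq_zero_left h2

variable {S : Scheme.{0}} (f : S ⟶ Spec (.of ℂ)) [IsProper f] {C : Type} [CommRing C] [Algebra ℂ C]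
  (j : Spec (.of C) ⟶ S)
  (hj : j ≫ f = Spec.map (CommRingCat.ofHom (algebraMap ℂ C)))

/-- **The step on a curve.** -/
theorem curve_step (R : AddSubgroup (ZeroCycle S)) (hR : Rat f ≤ R)
    (hR2 : ∀ u v : closedPoints S,
      (2 : ℤ) • (Finsupp.single u (1 : ℤ) - Finsupp.single v 1) ∈ R)
    (N1 : IntermediateField ℂ N) (hA : ∀ a ∈ A, a ∈ N1) (hZN : Z ∉ N1)
    (hinv : (Z ^ 2)⁻¹ ∈ A)
    {σ : quadAlg A Z hZ →ₐ[ℂ] quadAlg A Z hZ}
    (hσ : ∀ a : A, σ ⟨a, le_quadAlg A Z hZ a.2⟩ = ⟨a, le_quadAlg A Z hZ a.2⟩)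
    (hσZ : σ ⟨Z, self_quadAlg A Z hZ⟩ = -⟨Z, self_quadAlg A Z hZ⟩)
    (ι : C →ₐ[ℂ] quadAlg A Z hZ)
    {E : Type} [Field E] [Algebra ℂ E] [IsFF ℂ E] (hE : HalfProp E) (m : A →ₐ[ℂ] E)
    (ξ : Fin 2 → (quadAlg A Z hZ →ₐ[ℂ] ℂ))
    (hk : ∀ i, ∀ a, m a = 0 → ξ i ⟨a, le_quadAlg A Z hZ a.2⟩ = 0)
    (hb : ∀ i, ∃ b, m b ≠ 0 ∧ ξ i ⟨b, le_quadAlg A Z hZ b.2⟩ = 0) :
    (QuotientAddGroup.mk' R (Finsupp.single (pt f j hj ((ξ 0).comp ι)) (1 : ℤ)) +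
      QuotientAddGroup.mk' R (Finsupp.single (pt f j hj ((ξ 0).comp (σ.comp ι))) (1 : ℤ)) =
    QuotientAddGroup.mk' R (Finsupp.single (pt f j hj ((ξ 1).comp ι)) (1 : ℤ)) +
      QuotientAddGroup.mk' R (Finsupp.single (pt f j hj ((ξ 1).comp (σ.comp ι))) (1 : ℤ))) ∧
    ((∀ i, QuotientAddGroup.mk' R (Finsupp.single (pt f j hj ((ξ i).comp ι)) (1 : ℤ)) =
      QuotientAddGroup.mk' R (Finsupp.single (pt f j hj ((ξ i).comp (σ.comp ι))) (1 : ℤ))) →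
    QuotientAddGroup.mk' R (Finsupp.single (pt f j hj ((ξ 0).comp ι)) (1 : ℤ)) =
      QuotientAddGroup.mk' R (Finsupp.single (pt f j hj ((ξ 1).comp ι)) (1 : ℤ))) := by
  classical
  obtain ⟨P, hP⟩ : ∃ P : (C →ₐ[ℂ] ℂ) → ZeroCycle S ⧸ R, ∀ χ, P χ =
    QuotientAddGroup.mk' R (Finsupp.single (pt f j hj χ) (1 : ℤ)) := ⟨_, fun _ => rfl⟩
  simp only [← hP]
  have hσσ : σ.comp σ = AlgHom.id ℂ _ := by
    refine quad_hom_ext (fun a => ?_) ?_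
    · rw [AlgHom.comp_apply, hσ, hσ]; rfl
    · rw [AlgHom.comp_apply, hσZ, map_neg, hσZ, neg_neg]; rfl
  by_cases hsq : IsSquare (m ⟨Z ^ 2, hZ⟩)
  · -- the split case
    obtain ⟨z, hz⟩ := hsq
    obtain ⟨m₂, hm₂, hm₂Z⟩ := quad_hom A N1 hA Z hZN hZ m z (by rw [hz, pow_two])
    obtain ⟨B₁, hB₁d, hB₁2, hB₁⟩ := exists_cls f j hj R hR hR2 (m₂.comp ι)
    obtain ⟨B₂, hB₂d, hB₂2, hB₂⟩ := exists_cls f j hj R hR hR2 (m₂.comp (σ.comp ι))
    have key : ∀ i, ∃ w : PlaceOver ℂ E,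
        (B₁ (Finsupp.single w 1) = P ((ξ i).comp ι) ∧
          B₂ (Finsupp.single w 1) = P ((ξ i).comp (σ.comp ι))) ∨
        (B₁ (Finsupp.single w 1) = P ((ξ i).comp (σ.comp ι)) ∧
          B₂ (Finsupp.single w 1) = P ((ξ i).comp ι)) := by
      intro i
      obtain ⟨b, hb1, hb2⟩ := hb i
      obtain ⟨w, hw, hwe⟩ := exists_place_point m
        ((ξ i).comp (Subalgebra.inclusion (le_quadAlg A Z hZ))) (hk i) b hb1 hb2
      have hw₂ : ∀ a, m₂ a ∈ w.1.ring := by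
        rintro ⟨x, a, ha, b, hb, rfl⟩
        have h3 : (⟨a + b * Z, ⟨a, ha, b, hb, rfl⟩⟩ : quadAlg A Z hZ) =
            ⟨a, le_quadAlg A Z hZ ha⟩ + ⟨b, le_quadAlg A Z hZ hb⟩ *
              ⟨Z, self_quadAlg A Z hZ⟩ := rfl
        rw [h3, map_add, map_mul, hm₂ ⟨a, ha⟩, hm₂ ⟨b, hb⟩, hm₂Z]
        refine add_mem (hw _) (mul_mem (hw _) (H72.mem_of_sq ?_))
        rw [pow_two, ← hz]
        exact hw _
      obtain ⟨χ, hχ⟩ := exists_chi w m₂ hw₂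
      have hχA : ∀ a : A, χ ⟨a, le_quadAlg A Z hZ a.2⟩ = ξ i ⟨a, le_quadAlg A Z hZ a.2⟩ := by
        intro a
        rw [← hχ]
        refine Eq.trans ?_ (hwe a)
        congr 1
        exact Subtype.ext (hm₂ a)
      have h1 := hB₁ w (fun c => hw₂ (ι c)) (χ.comp ι) (fun c => hχ (ι c))
      have h2 := hB₂ w (fun c => hw₂ (σ (ι c))) (χ.comp (σ.comp ι)) (fun c => hχ (σ (ι c)))
      rw [← hP] at h1 h2
      refine ⟨w, ?_⟩
      rcases hom_or hσ hσZ hχA with h3 | h3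
      · left
        rw [h1, h2, h3]
        exact ⟨rfl, rfl⟩
      · right
        rw [h1, h2, h3]
        refine ⟨rfl, ?_⟩
        have h4 : σ.comp (σ.comp ι) = ι := by rw [← AlgHom.comp_assoc, hσσ, AlgHom.id_comp]
        rw [AlgHom.comp_assoc, h4]
    obtain ⟨w₀, hw₀⟩ := key 0
    obtain ⟨w₁, hw₁⟩ := key 1
    have e1 := hE _ B₁ hB₁d hB₁2 w₀ w₁
    have e2 := hE _ B₂ hB₂d hB₂2 w₀ w₁
    constructor
    · rcases hw₀ with ⟨a1, a2⟩ | ⟨a1, a2⟩ <;> rcases hw₁ with ⟨b1, b2⟩ | ⟨b1, b2⟩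
      · rw [← a1, ← a2, ← b1, ← b2, e1, e2]
      · rw [← a1, ← a2, ← b1, ← b2, e1, e2, add_comm]
      · rw [← a1, ← a2, ← b1, ← b2, e1, e2, add_comm]
      · rw [← a1, ← a2, ← b1, ← b2, e1, e2]
    · intro h
      rcases hw₀ with ⟨a1, a2⟩ | ⟨a1, a2⟩ <;> rcases hw₁ with ⟨b1, b2⟩ | ⟨b1, b2⟩
      · rw [← a1, ← b1, e1]
      · rw [← a1, h 1, ← b1, e1]
      · rw [h 0, ← a1, ← b1, e1]
      · rw [h 0, h 1, ← a1, ← b1, e1]
  · -- the non-split case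
    obtain ⟨E₂, i1, i2, i3, i4, i5, i6, θ, hθ⟩ := exists_sqrt E _ hsq
    obtain ⟨τ, hτ, -⟩ := hθ.exists_conj
    obtain ⟨m₂, hm₂, hm₂Z⟩ := quad_hom A N1 hA Z hZN hZ
      ((IsScalarTower.toAlgHom ℂ E E₂).comp m) θ (by
        rw [hθ.sq]; rfl)
    have hm₂' : ∀ a : A, m₂ ⟨a, le_quadAlg A Z hZ a.2⟩ = algebraMap E E₂ (m a) := hm₂
    obtain ⟨B, hBd, hB2, hB⟩ := exists_cls f j hj R hR hR2 (m₂.comp ι)
    have key : ∀ i, ∃ w w' : PlaceOver ℂ E₂, w' ≠ w ∧ restrictPlace E w' = restrictPlace E w ∧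
        B (Finsupp.single w 1) = P ((ξ i).comp ι) ∧
        B (Finsupp.single w' 1) = P ((ξ i).comp (σ.comp ι)) := by
      intro i
      obtain ⟨b, hb1, hb2⟩ := hb i
      have hker : ∀ a, m₂ a = 0 → ξ i a = 0 := by
        rintro ⟨x, a, ha, b, hb, rfl⟩ h0
        have h3 : (⟨a + b * Z, ⟨a, ha, b, hb, rfl⟩⟩ : quadAlg A Z hZ) =
            ⟨a, le_quadAlg A Z hZ ha⟩ + ⟨b, le_quadAlg A Z hZ hb⟩ *
              ⟨Z, self_quadAlg A Z hZ⟩ := rfl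
        rw [h3, map_add, map_mul] at h0 ⊢
        rw [hm₂' ⟨a, ha⟩, hm₂' ⟨b, hb⟩, hm₂Z] at h0
        obtain ⟨h4, h5⟩ := hθ.indep h0
        rw [hk i _ h4, hk i _ h5]
        ring
      obtain ⟨w, hw, hwe⟩ := exists_place_point m₂ (ξ i) hker ⟨b, le_quadAlg A Z hZ b.2⟩ (by
        rw [hm₂']
        intro h0
        exact hb1 ((map_eq_zero _).1 h0)) hb2
      obtain ⟨w', hw', hres⟩ := exists_conj_place (K := E) τ w
      have hτm : ∀ a, τ (m₂ a) = m₂ (σ a) := by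
        rintro ⟨x, a, ha, b, hb, rfl⟩
        have h3 : (⟨a + b * Z, ⟨a, ha, b, hb, rfl⟩⟩ : quadAlg A Z hZ) =
            ⟨a, le_quadAlg A Z hZ ha⟩ + ⟨b, le_quadAlg A Z hZ hb⟩ *
              ⟨Z, self_quadAlg A Z hZ⟩ := rfl
        rw [h3, map_add, map_mul, map_add, map_mul, map_add, map_mul, hσ ⟨a, ha⟩, hσ ⟨b, hb⟩, hσZ,
          map_add, map_mul, map_neg, hm₂' ⟨a, ha⟩, hm₂' ⟨b, hb⟩, hm₂Z, τ.commutes, τ.commutes, hτ]
      have hw₂' : ∀ a, m₂ a ∈ w'.1.ring := fun a => by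
        rw [hw', hτm]
        exact hw _
      have hwe' : ∀ a, evalAt w' ⟨m₂ a, hw₂' a⟩ = ξ i (σ a) := by
        intro a
        rw [evalAt_conj hw', ← hwe (σ a)]
        congr 1
        exact Subtype.ext (hτm a)
      have h1 := hB w (fun c => hw (ι c)) ((ξ i).comp ι) (fun c => hwe (ι c))
      have h2 := hB w' (fun c => hw₂' (ι c)) ((ξ i).comp (σ.comp ι)) (fun c => hwe' (ι c))
      rw [← hP] at h1 h2
      refine ⟨w, w', ?_, hres, h1, h2⟩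
      rintro rfl
      have h3 : ξ i ⟨Z, self_quadAlg A Z hZ⟩ = ξ i (σ ⟨Z, self_quadAlg A Z hZ⟩) := by
        rw [← hwe, ← hwe']
      rw [hσZ, map_neg] at h3
      have h4 : ξ i ⟨Z, self_quadAlg A Z hZ⟩ = 0 := by linear_combination h3 / 2
      have hZ0 : Z ≠ 0 := fun h0 => hZN (h0 ▸ N1.zero_mem)
      have h5 : (⟨Z, self_quadAlg A Z hZ⟩ : quadAlg A Z hZ) * (⟨Z, self_quadAlg A Z hZ⟩ *
          ⟨(Z ^ 2)⁻¹, le_quadAlg A Z hZ hinv⟩) = 1 := by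
        apply Subtype.ext
        change Z * (Z * (Z ^ 2)⁻¹) = 1
        field_simp
      have h6 := congrArg (ξ i) h5
      rw [map_mul, h4, zero_mul, map_one] at h6
      exact zero_ne_one h6
    obtain ⟨w₀, w₀', hne₀, hr₀, a1, a2⟩ := key 0
    obtain ⟨w₁, w₁', hne₁, hr₁, b1, b2⟩ := key 1
    obtain ⟨c, -, hc, -⟩ := pair_const hθ.finrank_eq hE B hBd hB2
    constructor
    · rw [← a1, ← a2, ← b1, ← b2, hc _ _ hne₀ hr₀, hc _ _ hne₁ hr₁]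
    · intro h
      rw [← a1, ← b1]
      refine half_const_quad hθ hE B hBd hB2 w₀ ?_ w₀ w₁
      intro x hx
      by_cases hxw : x = w₀
      · rw [hxw]
      · have h3 := hc _ _ hxw hx
        rw [← hc _ _ hne₀ hr₀] at h3
        rw [add_left_cancel h3, a2, a1, h 0]

end Main

end Vale.Agent.P297.H212
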