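import Vale.Agent.P297.H212.Tower

/-!
Zero-cycles on a surface whose function field is contained in a tower of two quadratic extensions
of a rational field: the cycles of `N`-valued points.
-/

set_option linter.unusedSectionVars false
set_option linter.style.haveILetI false

open CategoryTheory AlgebraicGeometry IntermediateField Polynomial

namespace Vale.Agent.P297.H212

open Vale.Agent.P297 Vale.Agent.P297.H572.Half Vale.Agent.P297.H124

section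

variable {N : Type} [Field N] [Algebra ℂ N]

/-- The algebra on which the curves through two points exist. -/
theorem exists_big {σ : Type} [Finite σ] (x : σ → N) (hx : AlgebraicIndependent ℂ x) (Y : N)
    (p r : MvPolynomial σ ℂ) (hp : Irreducible p) (hpr : ¬ p ∣ r)
    (hY : Y ^ 2 = MvPolynomial.aeval x (p * r))
    (hYL : Y ∉ IntermediateField.adjoin ℂ (Set.range x)) (N1 : IntermediateField ℂ N)
    (hN1 : ∀ z, z ∈ N1 ↔ ∃ a ∈ IntermediateField.adjoin ℂ (Set.range x),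
      ∃ b ∈ IntermediateField.adjoin ℂ (Set.range x), z = a + b * Y) (Z : N) (hZ : Z ^ 2 ∈ N1)
    (T : Finset N) (hT : ∀ y ∈ T, ∃ a ∈ N1, ∃ b ∈ N1, y = a + b * Z) :
    ∃ (A : Subalgebra ℂ N) (_ : A.FG) (_ : ∀ a ∈ A, a ∈ N1) (hZA : Z ^ 2 ∈ A)
      (_ : (Z ^ 2)⁻¹ ∈ A), (∀ y ∈ T, y ∈ quadAlg A Z hZA) ∧
      ∀ ξ₁ ξ₂ : A →ₐ[ℂ] ℂ, ∃ (E : Type) (_ : Field E) (_ : Algebra ℂ E) (_ : IsFF ℂ E),
        HalfProp E ∧ ∃ m : A →ₐ[ℂ] E, (∀ a, m a = 0 → ξ₁ a = 0) ∧ (∀ a, m a = 0 → ξ₂ a = 0) ∧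
          (∃ b, m b ≠ 0 ∧ ξ₁ b = 0) ∧ (∃ b, m b ≠ 0 ∧ ξ₂ b = 0) := by
  classical
  choose! a ha b hb hab using hT
  obtain ⟨A, hA, hTA, hAs, hc⟩ := double_curve x hx Y p r hp hpr hY hYL
    (T.image a ∪ T.image b ∪ {Z ^ 2, (Z ^ 2)⁻¹}) (by
      intro y hy
      rw [← hN1]
      rw [Finset.mem_union, Finset.mem_union, Finset.mem_image, Finset.mem_image,
        Finset.mem_insert, Finset.mem_singleton] at hy
      rcases hy with (⟨t, ht, rfl⟩ | ⟨t, ht, rfl⟩) | rfl | rfl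
      · exact ha t ht
      · exact hb t ht
      · exact hZ
      · exact N1.inv_mem hZ)
  have hZA : Z ^ 2 ∈ A := hTA _ (by simp)
  refine ⟨A, hA, fun y hy => (hN1 y).2 (hAs y hy), hZA, hTA _ (by simp), fun y hy => ?_, hc⟩
  refine ⟨a y, hTA _ ?_, b y, hTA _ ?_, hab y hy⟩
  · rw [Finset.mem_union, Finset.mem_union]
    exact Or.inl (Or.inl (Finset.mem_image_of_mem a hy))
  · rw [Finset.mem_union, Finset.mem_union]
    exact Or.inl (Or.inr (Finset.mem_image_of_mem b hy))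

variable {S : Scheme.{0}} (f : S ⟶ Spec (.of ℂ)) [IsProper f] {C : Type} [CommRing C] [Algebra ℂ C]
  [Algebra.FiniteType ℂ C]
  (j : Spec (.of C) ⟶ S)
  (hj : j ≫ f = Spec.map (CommRingCat.ofHom (algebraMap ℂ C)))

/-- Everything at once. -/
theorem tower_aux (R : AddSubgroup (ZeroCycle S)) (hR : Rat f ≤ R)
    (hR2 : ∀ u v : closedPoints S,
      (2 : ℤ) • (Finsupp.single u (1 : ℤ) - Finsupp.single v 1) ∈ R)
    {σ : Type} [Finite σ] (x : σ → N) (hx : AlgebraicIndependent ℂ x) (Y : N)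
    (p r : MvPolynomial σ ℂ) (hp : Irreducible p) (hpr : ¬ p ∣ r)
    (hY : Y ^ 2 = MvPolynomial.aeval x (p * r))
    (hYL : Y ∉ IntermediateField.adjoin ℂ (Set.range x)) (N1 : IntermediateField ℂ N)
    (hN1 : ∀ z, z ∈ N1 ↔ ∃ a ∈ IntermediateField.adjoin ℂ (Set.range x),
      ∃ b ∈ IntermediateField.adjoin ℂ (Set.range x), z = a + b * Y) (Z : N) (hZ : Z ^ 2 ∈ N1)
    (hZN : Z ∉ N1) (g : N →ₐ[ℂ] N) (hg : ∀ z ∈ N1, g z = z) (hgZ : g Z = -Z)
    (ι : C →ₐ[ℂ] N) (hι : ∀ c, ∃ a ∈ N1, ∃ b ∈ N1, ι c = a + b * Z)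
    (T : Finset N) (hT : ∀ y ∈ T, ∃ a ∈ N1, ∃ b ∈ N1, y = a + b * Z) :
    ∃ (B : Subalgebra ℂ N) (_ : B.FG) (h1 : ∀ c, ι c ∈ B) (h2 : ∀ c, g.comp ι c ∈ B)
      (_ : ∀ y ∈ T, y ∈ B),
      ∀ ξ : Fin 2 → (B →ₐ[ℂ] ℂ),
      (QuotientAddGroup.mk' R (Finsupp.single (pt f j hj ((ξ 0).comp (ι.codRestrict B h1))) (1 : ℤ)) +
      QuotientAddGroup.mk' R
        (Finsupp.single (pt f j hj ((ξ 0).comp ((g.comp ι).codRestrict B h2))) (1 : ℤ)) =
      QuotientAddGroup.mk' R (Finsupp.single (pt f j hj ((ξ 1).comp (ι.codRestrict B h1))) (1 : ℤ)) +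
      QuotientAddGroup.mk' R
        (Finsupp.single (pt f j hj ((ξ 1).comp ((g.comp ι).codRestrict B h2))) (1 : ℤ))) ∧
      ((∀ i, QuotientAddGroup.mk' R
        (Finsupp.single (pt f j hj ((ξ i).comp (ι.codRestrict B h1))) (1 : ℤ)) =
        QuotientAddGroup.mk' R
        (Finsupp.single (pt f j hj ((ξ i).comp ((g.comp ι).codRestrict B h2))) (1 : ℤ))) →
      QuotientAddGroup.mk' R (Finsupp.single (pt f j hj ((ξ 0).comp (ι.codRestrict B h1))) (1 : ℤ)) =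
      QuotientAddGroup.mk' R
        (Finsupp.single (pt f j hj ((ξ 1).comp (ι.codRestrict B h1))) (1 : ℤ))) := by
  classical
  obtain ⟨G, hG⟩ := (inferInstance : Algebra.FiniteType ℂ C).out
  obtain ⟨A, hA, hAN, hZA, hinv, hTB, hcurve⟩ := exists_big x hx Y p r hp hpr hY hYL N1 hN1 Z hZ
    (G.image ι ∪ T) (by
      intro y hy
      rw [Finset.mem_union, Finset.mem_image] at hy
      rcases hy with ⟨c, -, rfl⟩ | hy
      · exact hι c
      · exact hT y hy)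
  have h1 : ∀ c, ι c ∈ quadAlg A Z hZA := by
    intro c
    have h3 : c ∈ Algebra.adjoin ℂ (G : Set C) := by rw [hG]; trivial
    have h4 : Algebra.adjoin ℂ (G : Set C) ≤ (quadAlg A Z hZA).comap ι := by
      rw [Algebra.adjoin_le_iff]
      intro y hy
      exact hTB _ (Finset.mem_union_left _ (Finset.mem_image_of_mem ι hy))
    exact h4 h3
  have hgB : ∀ y ∈ quadAlg A Z hZA, g y ∈ quadAlg A Z hZA := by
    rintro _ ⟨a, ha, b, hb, rfl⟩
    refine ⟨a, ha, -b, A.neg_mem hb, ?_⟩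
    rw [map_add, map_mul, hg a (hAN a ha), hg b (hAN b hb), hgZ]
    ring
  have h2 : ∀ c, g.comp ι c ∈ quadAlg A Z hZA := fun c => hgB _ (h1 c)
  let s : quadAlg A Z hZA →ₐ[ℂ] quadAlg A Z hZA :=
    (g.comp (quadAlg A Z hZA).val).codRestrict _ (fun y => hgB _ y.2)
  have hs : ∀ a : A, s ⟨a, le_quadAlg A Z hZA a.2⟩ = ⟨a, le_quadAlg A Z hZA a.2⟩ := by
    intro a
    apply Subtype.ext
    exact hg a (hAN a a.2)
  have hsZ : s ⟨Z, self_quadAlg A Z hZA⟩ = -⟨Z, self_quadAlg A Z hZA⟩ := by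
    apply Subtype.ext
    exact hgZ
  have hsι : s.comp (ι.codRestrict _ h1) = (g.comp ι).codRestrict _ h2 := AlgHom.ext fun c => rfl
  refine ⟨quadAlg A Z hZA, quadAlg_fg hA Z hZA, h1, h2,
    fun y hy => hTB y (Finset.mem_union_right _ hy), fun ξ => ?_⟩
  obtain ⟨E, i1, i2, i3, hE, m, hk₁, hk₂, hb₁, hb₂⟩ := hcurve
    ((ξ 0).comp (Subalgebra.inclusion (le_quadAlg A Z hZA)))
    ((ξ 1).comp (Subalgebra.inclusion (le_quadAlg A Z hZA)))
  rw [← hsι]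
  refine curve_step f j hj R hR hR2 N1 hAN hZN hinv hs hsZ (ι.codRestrict _ h1) hE m ξ ?_ ?_
  · intro i
    fin_cases i
    · exact hk₁
    · exact hk₂
  · intro i
    fin_cases i
    · exact hb₁
    · exact hb₂

variable {f j hj}

theorem pair_add_eq {B : Subalgebra ℂ N} {ι κ : C →ₐ[ℂ] N} (h1 : ∀ c, ι c ∈ B)
    (h2 : ∀ c, κ c ∈ B) {D : Subalgebra ℂ N} (hD : B ≤ D) (ξ : D →ₐ[ℂ] ℂ) :
    pair f j hj D ξ (Finsupp.single ι (1 : ℤ) + Finsupp.single κ 1) =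
      Finsupp.single (pt f j hj ((ξ.comp (Subalgebra.inclusion hD)).comp (ι.codRestrict B h1)))
        (1 : ℤ) +
      Finsupp.single (pt f j hj ((ξ.comp (Subalgebra.inclusion hD)).comp (κ.codRestrict B h2)))
        (1 : ℤ) := by
  rw [map_add, pair_single, pair_single, one_smul, one_smul,
    cyc_of_mem f j hj D ξ ι (fun c => hD (h1 c)), cyc_of_mem f j hj D ξ κ (fun c => hD (h2 c))]
  rfl

theorem pair_single_eq {B : Subalgebra ℂ N} {ι : C →ₐ[ℂ] N} (h1 : ∀ c, ι c ∈ B)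
    {D : Subalgebra ℂ N} (hD : B ≤ D) (ξ : D →ₐ[ℂ] ℂ) :
    pair f j hj D ξ (Finsupp.single ι (1 : ℤ)) =
      Finsupp.single (pt f j hj ((ξ.comp (Subalgebra.inclusion hD)).comp (ι.codRestrict B h1)))
        (1 : ℤ) := by
  rw [pair_single, one_smul, cyc_of_mem f j hj D ξ ι (fun c => hD (h1 c))]
  rfl

/-- **(A)** The sum of a point and its conjugate. -/
theorem tower_sum (R : AddSubgroup (ZeroCycle S)) (hR : Rat f ≤ R)
    (hR2 : ∀ u v : closedPoints S,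
      (2 : ℤ) • (Finsupp.single u (1 : ℤ) - Finsupp.single v 1) ∈ R)
    {σ : Type} [Finite σ] (x : σ → N) (hx : AlgebraicIndependent ℂ x) (Y : N)
    (p r : MvPolynomial σ ℂ) (hp : Irreducible p) (hpr : ¬ p ∣ r)
    (hY : Y ^ 2 = MvPolynomial.aeval x (p * r))
    (hYL : Y ∉ IntermediateField.adjoin ℂ (Set.range x)) (N1 : IntermediateField ℂ N)
    (hN1 : ∀ z, z ∈ N1 ↔ ∃ a ∈ IntermediateField.adjoin ℂ (Set.range x),
      ∃ b ∈ IntermediateField.adjoin ℂ (Set.range x), z = a + b * Y) (Z : N) (hZ : Z ^ 2 ∈ N1)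
    (hZN : Z ∉ N1) (g : N →ₐ[ℂ] N) (hg : ∀ z ∈ N1, g z = z) (hgZ : g Z = -Z)
    (ι : C →ₐ[ℂ] N) (hι : ∀ c, ∃ a ∈ N1, ∃ b ∈ N1, ι c = a + b * Z) :
    Finsupp.single ι (1 : ℤ) + Finsupp.single (g.comp ι) 1 ∈ Good f j hj R N := by
  obtain ⟨B, hB, h1, h2, -, h⟩ := tower_aux f j hj R hR hR2 x hx Y p r hp hpr hY hYL N1 hN1 Z hZ
    hZN g hg hgZ ι hι ∅ (by simp)
  refine ⟨B, hB, fun D hD ξ₁ ξ₂ => ?_⟩
  rw [pair_add_eq h1 h2 hD ξ₁, pair_add_eq h1 h2 hD ξ₂, ← QuotientAddGroup.eq_iff_sub_mem,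
    ← QuotientAddGroup.mk'_apply, ← QuotientAddGroup.mk'_apply, map_add, map_add]
  exact (h ![ξ₁.comp (Subalgebra.inclusion hD), ξ₂.comp (Subalgebra.inclusion hD)]).1

/-- **(B)** The point itself. -/
theorem tower_good (R : AddSubgroup (ZeroCycle S)) (hR : Rat f ≤ R)
    (hR2 : ∀ u v : closedPoints S,
      (2 : ℤ) • (Finsupp.single u (1 : ℤ) - Finsupp.single v 1) ∈ R)
    {σ : Type} [Finite σ] (x : σ → N) (hx : AlgebraicIndependent ℂ x) (Y : N)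
    (p r : MvPolynomial σ ℂ) (hp : Irreducible p) (hpr : ¬ p ∣ r)
    (hY : Y ^ 2 = MvPolynomial.aeval x (p * r))
    (hYL : Y ∉ IntermediateField.adjoin ℂ (Set.range x)) (N1 : IntermediateField ℂ N)
    (hN1 : ∀ z, z ∈ N1 ↔ ∃ a ∈ IntermediateField.adjoin ℂ (Set.range x),
      ∃ b ∈ IntermediateField.adjoin ℂ (Set.range x), z = a + b * Y) (Z : N) (hZ : Z ^ 2 ∈ N1)
    (hZN : Z ∉ N1) (g : N →ₐ[ℂ] N) (hg : ∀ z ∈ N1, g z = z) (hgZ : g Z = -Z)
    (ι : C →ₐ[ℂ] N) (hι : ∀ c, ∃ a ∈ N1, ∃ b ∈ N1, ι c = a + b * Z)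
    (hinj : Function.Injective ι)
    (halg : ∀ y : N, ∃ q : C[X], q ≠ 0 ∧ q.eval₂ ι.toRingHom y = 0)
    (h0 : HasVal f j hj R N (Finsupp.single ι (1 : ℤ) - Finsupp.single (g.comp ι) 1) 0) :
    Finsupp.single ι (1 : ℤ) ∈ Good f j hj R N := by
  classical
  obtain ⟨A', hA', hval⟩ := h0
  let D₀ : Subalgebra ℂ N := ι.range ⊔ (g.comp ι).range
  have hD₀ : D₀.FG := by
    apply Subalgebra.FG.sup
    · rw [← Algebra.map_top]
      exact (Algebra.FiniteType.out).map ι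
    · rw [← Algebra.map_top]
      exact (Algebra.FiniteType.out).map (g.comp ι)
  have hι₀ : ∀ c, ι c ∈ D₀ := fun c => (le_sup_left : ι.range ≤ D₀) ⟨c, rfl⟩
  have hg₀ : ∀ c, g.comp ι c ∈ D₀ := fun c => (le_sup_right : (g.comp ι).range ≤ D₀) ⟨c, rfl⟩
  have hQ : D₀ ≤ (quadField N1 Z hZ).toSubalgebra := by
    apply sup_le
    · rintro _ ⟨c, rfl⟩
      exact hι c
    · rintro _ ⟨c, rfl⟩
      obtain ⟨a, ha, b, hb, hab⟩ := hι c
      refine ⟨a, ha, -b, N1.neg_mem hb, ?_⟩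
      change g (ι c) = _
      rw [hab, map_add, map_mul, hg a ha, hg b hb, hgZ]
      ring
  obtain ⟨b, hb0, hb⟩ := exists_extend D₀.val Subtype.val_injective (by
    intro y
    obtain ⟨q, hq0, hq⟩ := halg y
    refine ⟨q.map (ι.codRestrict D₀ hι₀).toRingHom, ?_, ?_⟩
    · rw [Ne, Polynomial.map_eq_zero_iff]
      · exact hq0
      · intro c d hcd
        apply hinj
        exact congrArg Subtype.val hcd
    · rw [Polynomial.eval₂_map]
      exact hq) (D₀ ⊔ A') (hD₀.sup hA') (fun c => (le_sup_left : D₀ ≤ D₀ ⊔ A') c.2)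
  obtain ⟨B, hB, h1, h2, hTB, h⟩ := tower_aux f j hj R hR hR2 x hx Y p r hp hpr hY hYL N1 hN1 Z hZ
    hZN g hg hgZ ι hι {(b : N)⁻¹} (by
      intro y hy
      rw [Finset.mem_singleton.1 hy]
      exact (quadField N1 Z hZ).inv_mem (hQ b.2))
  have hbB : (b : N)⁻¹ ∈ B := hTB _ (Finset.mem_singleton_self _)
  have hDB : D₀ ≤ B := by
    apply sup_le
    · rintro _ ⟨c, rfl⟩
      exact h1 c
    · rintro _ ⟨c, rfl⟩
      exact h2 c
  have hb0' : (b : N) ≠ 0 := fun h0 => hb0 (Subtype.ext h0)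
  have key : ∀ ξ : B →ₐ[ℂ] ℂ,
      QuotientAddGroup.mk' R (Finsupp.single (pt f j hj (ξ.comp (ι.codRestrict B h1))) (1 : ℤ)) =
      QuotientAddGroup.mk' R
        (Finsupp.single (pt f j hj (ξ.comp ((g.comp ι).codRestrict B h2))) (1 : ℤ)) := by
    intro ξ
    obtain ⟨χ, hχ⟩ := hb (ξ.comp (Subalgebra.inclusion hDB)) (by
      intro h3
      have h4 : (Subalgebra.inclusion hDB b) * ⟨(b : N)⁻¹, hbB⟩ = 1 := by
        apply Subtype.ext
        exact mul_inv_cancel₀ hb0'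
      have h5 := congrArg ξ h4
      rw [AlgHom.comp_apply] at h3
      rw [map_mul, h3, zero_mul, map_one] at h5
      exact zero_ne_one h5)
    have h3 := hval (D₀ ⊔ A') le_sup_right χ
    rw [map_sub, map_sub, sub_eq_zero, pair_single_eq hι₀ le_sup_left χ,
      pair_single_eq hg₀ le_sup_left χ] at h3
    have h4 : χ.comp (Subalgebra.inclusion (le_sup_left : D₀ ≤ D₀ ⊔ A')) =
        ξ.comp (Subalgebra.inclusion hDB) := AlgHom.ext fun c => hχ c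
    rw [h4] at h3
    exact h3
  refine ⟨B, hB, fun D hD ξ₁ ξ₂ => ?_⟩
  rw [pair_single_eq h1 hD ξ₁, pair_single_eq h1 hD ξ₂, ← QuotientAddGroup.eq_iff_sub_mem,
    ← QuotientAddGroup.mk'_apply, ← QuotientAddGroup.mk'_apply]
  exact (h ![ξ₁.comp (Subalgebra.inclusion hD), ξ₂.comp (Subalgebra.inclusion hD)]).2
    (fun i => key _)

end

end Vale.Agent.P297.H212
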