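import Vale.Agent.P297.H212.ZBase

/-!
The plane cubic of the twins of the surfaces with `ℤ/3`-torsion.
-/

set_option linter.unusedVariables false
set_option linter.unusedSectionVars false

open IntermediateField Polynomial

namespace Vale.Agent.P297.H212.Z

open Vale.Agent.P297 Vale.Agent.P297.H839 Vale.Agent.P297.H160 Vale.Agent.P297.Z3

section maps

variable {R S : Type} [CommRing R] [CommRing S] (f : R →+* S)

theorem map_zg (v l c t k s : R) (i : Fin 10) :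
    f (zg v l c t k s i) = zg (f v) (f l) (f c) (f t) (f k) (f s) i := by
  fin_cases i <;>
    simp [zg, zfa, zfb, zfb2, zf4, zf5, zf7, zf8, zfh, zfh1, map_ofNat f]

theorem map_zP0 (a b b2 f4 f5 f7 f8 h h1 : R) : f (zP0 a b b2 f4 f5 f7 f8 h h1) =
    zP0 (f a) (f b) (f b2) (f f4) (f f5) (f f7) (f f8) (f h) (f h1) := by
  simp [zP0, map_ofNat f]

theorem map_zP1 (a b b2 f4 f5 f7 f8 h h1 : R) : f (zP1 a b b2 f4 f5 f7 f8 h h1) =
    zP1 (f a) (f b) (f b2) (f f4) (f f5) (f f7) (f f8) (f h) (f h1) := by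
  simp [zP1, map_ofNat f]

theorem map_zP2 (a b b2 f4 f5 f7 f8 h h1 : R) : f (zP2 a b b2 f4 f5 f7 f8 h h1) =
    zP2 (f a) (f b) (f b2) (f f4) (f f5) (f f7) (f f8) (f h) (f h1) := by
  simp [zP2, map_ofNat f]

theorem map_zQ0 (a b b2 f4 f5 f7 f8 h h1 : R) : f (zQ0 a b b2 f4 f5 f7 f8 h h1) =
    zQ0 (f a) (f b) (f b2) (f f4) (f f5) (f f7) (f f8) (f h) (f h1) := by
  simp [zQ0, map_ofNat f]

theorem map_zQ1 (a b b2 f4 f5 f7 f8 h h1 : R) : f (zQ1 a b b2 f4 f5 f7 f8 h h1) =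
    zQ1 (f a) (f b) (f b2) (f f4) (f f5) (f f7) (f f8) (f h) (f h1) := by
  simp [zQ1, map_ofNat f]

theorem map_zQ2 (a b b2 f4 f5 f7 f8 h h1 : R) : f (zQ2 a b b2 f4 f5 f7 f8 h h1) =
    zQ2 (f a) (f b) (f b2) (f f4) (f f5) (f f7) (f f8) (f h) (f h1) := by
  simp [zQ2, map_ofNat f]

theorem map_zQ3 (a b b2 f4 f5 f7 f8 h h1 : R) : f (zQ3 a b b2 f4 f5 f7 f8 h h1) =
    zQ3 (f a) (f b) (f b2) (f f4) (f f5) (f f7) (f f8) (f h) (f h1) := by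
  simp [zQ3, map_ofNat f]

end maps

/-- the plane cubic with coefficients in `ℂ[s]` -/
noncomputable def zF (v l c t k : ℂ) : Fin 10 → ℂ[X] := zg (C v) (C l) (C c) (C t) (C k) X

theorem zF_eq (v l c t k : ℂ) : zF v l c t k = zgen (C (zfa v c t)) (C (zfb v c t))
    (C (zfb2 v l c t k)) (C (zf4 v l c t)) (C (zf5 v l c t k)) (C (zf7 c t k)) (C (zf8 l c t k))
    (C (zfh l c t k)) (C (zfh1 l c t)) X := by
  have h2 : (C (2 : ℂ) : ℂ[X]) = 2 := rfl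
  have h3 : (C (3 : ℂ) : ℂ[X]) = 3 := rfl
  have h4 : (C (4 : ℂ) : ℂ[X]) = 4 := rfl
  have h6 : (C (6 : ℂ) : ℂ[X]) = 6 := rfl
  have h9 : (C (9 : ℂ) : ℂ[X]) = 9 := rfl
  unfold zF zg zgen
  simp only [zfa, zfb, zfb2, zf4, zf5, zf7, zf8, zfh, zfh1, map_add, map_sub, map_mul, map_neg,
    map_pow, h2, h3, h4, h6, h9]

section inv

variable (v l c t k : ℂ)

/-- the coefficients of `c₄` -/
def cP0 : ℂ := zP0 (zfa v c t) (zfb v c t) (zfb2 v l c t k) (zf4 v l c t) (zf5 v l c t k)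
  (zf7 c t k) (zf8 l c t k) (zfh l c t k) (zfh1 l c t)

/-- the coefficients of `c₄` -/
def cP1 : ℂ := zP1 (zfa v c t) (zfb v c t) (zfb2 v l c t k) (zf4 v l c t) (zf5 v l c t k)
  (zf7 c t k) (zf8 l c t k) (zfh l c t k) (zfh1 l c t)

/-- the coefficients of `c₄` -/
def cP2 : ℂ := zP2 (zfa v c t) (zfb v c t) (zfb2 v l c t k) (zf4 v l c t) (zf5 v l c t k)
  (zf7 c t k) (zf8 l c t k) (zfh l c t k) (zfh1 l c t)

/-- the coefficients of `c₆` -/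
def cQ0 : ℂ := zQ0 (zfa v c t) (zfb v c t) (zfb2 v l c t k) (zf4 v l c t) (zf5 v l c t k)
  (zf7 c t k) (zf8 l c t k) (zfh l c t k) (zfh1 l c t)

/-- the coefficients of `c₆` -/
def cQ1 : ℂ := zQ1 (zfa v c t) (zfb v c t) (zfb2 v l c t k) (zf4 v l c t) (zf5 v l c t k)
  (zf7 c t k) (zf8 l c t k) (zfh l c t k) (zfh1 l c t)

/-- the coefficients of `c₆` -/
def cQ2 : ℂ := zQ2 (zfa v c t) (zfb v c t) (zfb2 v l c t k) (zf4 v l c t) (zf5 v l c t k)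
  (zf7 c t k) (zf8 l c t k) (zfh l c t k) (zfh1 l c t)

/-- the coefficients of `c₆` -/
def cQ3 : ℂ := zQ3 (zfa v c t) (zfb v c t) (zfb2 v l c t k) (zf4 v l c t) (zf5 v l c t k)
  (zf7 c t k) (zf8 l c t k) (zfh l c t k) (zfh1 l c t)

theorem zF_c4 : c4 (zF v l c t k) = X ^ 4 * (C (cP0 v l c t k) + C (cP1 v l c t k) * X +
    C (cP2 v l c t k) * X ^ 2) := by
  rw [zF_eq, zgen_c4]
  unfold cP0 cP1 cP2
  rw [map_zP0 C, map_zP1 C, map_zP2 C]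

theorem zF_c6 : c6 (zF v l c t k) = X ^ 6 * (C (cQ0 v l c t k) + C (cQ1 v l c t k) * X +
    C (cQ2 v l c t k) * X ^ 2 + C (cQ3 v l c t k) * X ^ 3) := by
  rw [zF_eq, zgen_c6]
  unfold cQ0 cQ1 cQ2 cQ3
  rw [map_zQ0 C, map_zQ1 C, map_zQ2 C, map_zQ3 C]

theorem zfa_eq : zfa v c t = (c + t ^ 2) ^ 2 * (-2 * (v ^ 2 + c)) := by
  unfold zfa
  ring

theorem zfb_eq : zfb v c t = (c + t ^ 2) * -(v ^ 2 - 2 * v * t + 3 * c) := by
  unfold zfb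
  ring

theorem zfb2_eq : zfb2 v l c t k =
    (c + t ^ 2) ^ 2 * (3 * v ^ 2 + 4 * v * l - 2 * v * t + 2 * v * k + 9 * c) := rfl

theorem zf4_eq : zf4 v l c t = (c + t ^ 2) * (2 * (v * l - v * t - l * t + 3 * c)) := by
  unfold zf4
  ring

theorem zf5_eq : zf5 v l c t k = (c + t ^ 2) ^ 2 *
    (2 * (-3 * v * l + v * t - v * k - l ^ 2 + l * t - l * k - 6 * c)) := by
  unfold zf5
  ring

theorem zf7_eq : zf7 c t k = 2 * t * k - 3 * (c + t ^ 2) := rfl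

theorem zf8_eq : zf8 l c t k =
    (c + t ^ 2) * (k ^ 2 - l ^ 2 + 2 * l * t + 3 * t ^ 2 - 4 * t * k) := rfl

theorem zfh_eq : zfh l c t k = (c + t ^ 2) ^ 2 * -(l + t - k) ^ 2 := by
  unfold zfh
  ring

theorem zfh1_eq : zfh1 l c t = (c + t ^ 2) ^ 2 * (4 * (l ^ 2 + c)) := by
  unfold zfh1
  ring

theorem cP2_eq : cP2 v l c t k =
    16 * (c + t ^ 2) ^ 4 * zI c (dd v l c t k) (v - l - k) (ee v l c t) (gg v l c t) := by
  unfold cP2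
  rw [zfb_eq, zfb2_eq, zf7_eq, zf8_eq, zfh_eq, zP2_scale, rP2_eq]
  ring

theorem cQ3_eq : cQ3 v l c t k =
    32 * (c + t ^ 2) ^ 6 * zJ c (dd v l c t k) (v - l - k) (ee v l c t) (gg v l c t) := by
  unfold cQ3
  rw [zfb_eq, zfb2_eq, zf7_eq, zf8_eq, zfh_eq, zQ3_scale, rQ3_eq]
  ring

theorem cP_sum : cP0 v l c t k + cP1 v l c t k + cP2 v l c t k =
    16 * (c + t ^ 2) ^ 4 * (dd v l c t k ^ 2 - 4 * c * dd v l c t k -
      3 * c * (v - l - k) ^ 2 + 4 * c ^ 2) ^ 2 := by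
  have h := rP_sum v l c t k
  unfold cP0 cP1 cP2
  rw [zfa_eq, zfb_eq, zfb2_eq, zf4_eq, zf5_eq, zf7_eq, zf8_eq, zfh_eq, zfh1_eq, zP0_scale,
    zP1_scale, zP2_scale, ← mul_add, ← mul_add, h]
  generalize dd v l c t k ^ 2 - 4 * c * dd v l c t k - 3 * c * (v - l - k) ^ 2 + 4 * c ^ 2 = A
  generalize c + t ^ 2 = B
  ring

theorem c0_aux (S a b m : ℂ) : S ^ 12 *
    (-1728 * (S * (-2 * a) * (4 * b)) * ((2 * m) ^ 3 + 27 * (S * (-2 * a) * (4 * b))) ^ 3) =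
    7077888 * S ^ 12 * (S * a * b) * (m ^ 3 - 27 * (S * a * b)) ^ 3 := by
  ring

theorem c0_aux' (S p q : ℂ) : (S ^ 4 * p) ^ 3 - (S ^ 6 * q) ^ 2 = S ^ 12 * (p ^ 3 - q ^ 2) := by
  ring

theorem c0_disc : cP0 v l c t k ^ 3 - cQ0 v l c t k ^ 2 =
    7077888 * (c + t ^ 2) ^ 12 * (c * gg v l c t ^ 2 + ee v l c t ^ 2) *
      ((4 * c - gg v l c t) ^ 3 - 27 * (c * gg v l c t ^ 2 + ee v l c t ^ 2)) ^ 3 := by
  have hg : 4 * c - gg v l c t = v * l - v * t - l * t + 3 * c := by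
    unfold gg
    ring
  unfold cP0 cQ0
  rw [zfa_eq, zfb_eq, zfb2_eq, zf4_eq, zf5_eq, zf7_eq, zf8_eq, zfh_eq, zfh1_eq, zP0_scale,
    zQ0_scale, base_norm, hg, c0_aux', r0_disc, c0_aux]

end inv

theorem six_diff (P0 P1 P2 Q0 Q1 Q2 Q3 : ℂ)
    (h : ∀ s : ℂ, s ≠ 0 → (P0 + P1 * s + P2 * s ^ 2) ^ 3 =
      (Q0 + Q1 * s + Q2 * s ^ 2 + Q3 * s ^ 3) ^ 2) : P2 ^ 3 = Q3 ^ 2 := by
  have h1 := h 1 (by norm_num)
  have h2 := h 2 (by norm_num)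
  have h3 := h 3 (by norm_num)
  have h4 := h 4 (by norm_num)
  have h5 := h 5 (by norm_num)
  have h6 := h 6 (by norm_num)
  have h7 := h 7 (by norm_num)
  linear_combination (1 / 720 : ℂ) * (h7 - 6 * h6 + 15 * h5 - 20 * h4 + 15 * h3 - 6 * h2 + h1)

theorem zero_diff (P0 P1 P2 Q0 Q1 Q2 Q3 : ℂ)
    (h : ∀ s : ℂ, s ≠ 0 → (P0 + P1 * s + P2 * s ^ 2) ^ 3 =
      (Q0 + Q1 * s + Q2 * s ^ 2 + Q3 * s ^ 3) ^ 2) : P0 ^ 3 = Q0 ^ 2 := by
  have h1 := h 1 (by norm_num)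
  have h2 := h 2 (by norm_num)
  have h3 := h 3 (by norm_num)
  have h4 := h 4 (by norm_num)
  have h5 := h 5 (by norm_num)
  have h6 := h 6 (by norm_num)
  have h7 := h 7 (by norm_num)
  linear_combination 7 * h1 - 21 * h2 + 35 * h3 - 35 * h4 + 21 * h5 - 7 * h6 + h7

theorem zF_ne (v l c t k : ℂ) (hS : c + t ^ 2 ≠ 0)
    (hK : c * gg v l c t ^ 2 + ee v l c t ^ 2 ≠ 0)
    (h : (4 * c - gg v l c t) ^ 3 ≠ 27 * (c * gg v l c t ^ 2 + ee v l c t ^ 2) ∨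
      4 * zI c (dd v l c t k) (v - l - k) (ee v l c t) (gg v l c t) ^ 3 ≠
        zJ c (dd v l c t k) (v - l - k) (ee v l c t) (gg v l c t) ^ 2) :
    c4 (zF v l c t k) ^ 3 ≠ c6 (zF v l c t k) ^ 2 := by
  intro h0
  rw [zF_c4, zF_c6] at h0
  have h1 : ∀ s : ℂ, s ≠ 0 → (cP0 v l c t k + cP1 v l c t k * s + cP2 v l c t k * s ^ 2) ^ 3 =
      (cQ0 v l c t k + cQ1 v l c t k * s + cQ2 v l c t k * s ^ 2 +
        cQ3 v l c t k * s ^ 3) ^ 2 := by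
    intro s hs
    have h2 := congrArg (eval s) h0
    simp only [eval_pow, eval_mul, eval_add, eval_X, eval_C] at h2
    have h3 : s ^ 12 ≠ 0 := pow_ne_zero 12 hs
    apply mul_left_cancel₀ h3
    linear_combination h2
  have hS12 : (c + t ^ 2) ^ 12 ≠ 0 := pow_ne_zero 12 hS
  rcases h with h | h
  · have h2 := zero_diff _ _ _ _ _ _ _ h1
    have h3 := c0_disc v l c t k
    rw [h2, sub_self] at h3
    exact (mul_ne_zero (mul_ne_zero (mul_ne_zero (by norm_num) hS12) hK)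
      (pow_ne_zero 3 (sub_ne_zero.2 h))) h3.symm
  · have h2 := six_diff _ _ _ _ _ _ _ h1
    rw [cP2_eq, cQ3_eq] at h2
    apply h
    have h3 : (1024 : ℂ) * (c + t ^ 2) ^ 12 ≠ 0 := mul_ne_zero (by norm_num) hS12
    apply mul_left_cancel₀ h3
    generalize zI c (dd v l c t k) (v - l - k) (ee v l c t) (gg v l c t) = I at h2 ⊢
    generalize zJ c (dd v l c t k) (v - l - k) (ee v l c t) (gg v l c t) = J at h2 ⊢
    generalize c + t ^ 2 = S at h2 ⊢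
    linear_combination h2

theorem tc_smul {R : Type} [CommRing R] (s : R) (f g : Fin 10 → R) (h : ∀ i, g i = s * f i)
    (x y z : R) : tc g x y z = s * tc f x y z := by
  unfold tc
  simp only [h]
  ring

theorem aeval_zF {N : Type} [Field N] [Algebra ℂ N] (v l c t k : ℂ) (s : N) (i : Fin 10) :
    aeval s (zF v l c t k i) = zg (algebraMap ℂ N v) (algebraMap ℂ N l) (algebraMap ℂ N c)
      (algebraMap ℂ N t) (algebraMap ℂ N k) s i := by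
  have h := map_zg ((aeval s : ℂ[X] →ₐ[ℂ] N) : ℂ[X] →+* N) (C v) (C l) (C c) (C t) (C k) X i
  simp only [RingHom.coe_coe, aeval_C, aeval_X] at h
  exact h

/-- **The plane cubic of the twin.** -/
theorem z3_cubic' (c d₁ d₂ e g : ℂ) (hA : c * g ^ 2 + e ^ 2 ≠ 0) (hE : d₂ ≠ 0)
    (hC : d₁ ^ 2 - 4 * c * d₁ - 3 * c * d₂ ^ 2 + 4 * c ^ 2 ≠ 0)
    (hD : zI c d₁ d₂ e g ≠ 0 ∨ zJ c d₁ d₂ e g ≠ 0)
    (hB : (4 * c - g) ^ 3 ≠ 27 * (c * g ^ 2 + e ^ 2) ∨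
      4 * zI c d₁ d₂ e g ^ 3 ≠ zJ c d₁ d₂ e g ^ 2) :
    ∃ (F : Fin 10 → ℂ[X]) (p₀ p₁ p₂ q₀ q₁ q₂ q₃ : ℂ),
      c4 F = C (-48) * X ^ 4 * (C p₀ + C p₁ * X + C p₂ * X ^ 2) ∧
      c6 F = C (-864) * X ^ 6 * (C q₀ + C q₁ * X + C q₂ * X ^ 2 + C q₃ * X ^ 3) ∧
      c4 F ^ 3 ≠ c6 F ^ 2 ∧ (p₂ ≠ 0 ∨ q₃ ≠ 0) ∧
      (p₀ + p₁ + p₂ ≠ 0 ∨ q₀ + q₁ + q₂ + q₃ ≠ 0) ∧
      ∀ (N : Type) [Field N] [Algebra ℂ N] (V L η : N), AlgebraicIndependent ℂ ![V, L] →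
        η ^ 2 * (z3phi (algebraMap ℂ N c) (algebraMap ℂ N d₁) (algebraMap ℂ N d₂)
            (algebraMap ℂ N e) (algebraMap ℂ N g) V *
          z3C (algebraMap ℂ N c) (algebraMap ℂ N d₁) (algebraMap ℂ N d₂) (algebraMap ℂ N e)
            (algebraMap ℂ N g) V L ^ 2) =
          z3phi (algebraMap ℂ N c) (algebraMap ℂ N d₁) (algebraMap ℂ N d₂)
            (algebraMap ℂ N e) (algebraMap ℂ N g) V *
          z3C (algebraMap ℂ N c) (algebraMap ℂ N d₁) (algebraMap ℂ N d₂) (algebraMap ℂ N e)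
            (algebraMap ℂ N g) V L ^ 2 -
          4 * z3D (algebraMap ℂ N c) (algebraMap ℂ N e) (algebraMap ℂ N g) V L ^ 3 →
        ∃ X Y : N, tc (fun i => aeval (1 - η ^ 2) (F i)) X Y 1 = 0 ∧
          IntermediateField.adjoin ℂ {η, X, Y} = IntermediateField.adjoin ℂ {V, L, η} ∧
          AlgebraicIndependent ℂ ![η, X] := by
  obtain ⟨v, l, t, k, h2, h1, he, hg, hN, hS, hk, hvl⟩ := exists_base c d₁ d₂ e g hA hE hC hD
  subst h2 h1 he hg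
  have hS' : (c + t ^ 2) ≠ 0 := hS
  refine ⟨zF v l c t k, -cP0 v l c t k / 48, -cP1 v l c t k / 48, -cP2 v l c t k / 48,
    -cQ0 v l c t k / 864, -cQ1 v l c t k / 864, -cQ2 v l c t k / 864, -cQ3 v l c t k / 864,
    ?_, ?_, zF_ne v l c t k hS hA hB, ?_, ?_, ?_⟩
  · rw [zF_c4]
    have h48 : ∀ z : ℂ, C z = C (-48) * C (-z / 48) := by
      intro z
      rw [← C_mul]
      congr 1
      ring
    rw [h48 (cP0 v l c t k), h48 (cP1 v l c t k), h48 (cP2 v l c t k)]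
    ring
  · rw [zF_c6]
    have h864 : ∀ z : ℂ, C z = C (-864) * C (-z / 864) := by
      intro z
      rw [← C_mul]
      congr 1
      ring
    rw [h864 (cQ0 v l c t k), h864 (cQ1 v l c t k), h864 (cQ2 v l c t k),
      h864 (cQ3 v l c t k)]
    ring
  · rcases hD with h | h
    · left
      rw [cP2_eq]
      refine div_ne_zero (neg_ne_zero.2 (mul_ne_zero (mul_ne_zero (by norm_num)
        (pow_ne_zero 4 hS)) h)) (by norm_num)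
    · right
      rw [cQ3_eq]
      refine div_ne_zero (neg_ne_zero.2 (mul_ne_zero (mul_ne_zero (by norm_num)
        (pow_ne_zero 6 hS)) h)) (by norm_num)
  · left
    have h1 : -cP0 v l c t k / 48 + -cP1 v l c t k / 48 + -cP2 v l c t k / 48 =
        -(cP0 v l c t k + cP1 v l c t k + cP2 v l c t k) / 48 := by ring
    rw [h1, cP_sum]
    refine div_ne_zero (neg_ne_zero.2 (mul_ne_zero (mul_ne_zero (by norm_num)
      (pow_ne_zero 4 hS)) (pow_ne_zero 2 hC))) (by norm_num)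
  · intro N _ _ V L η hind hη
    obtain ⟨X, Y, hs, hcub, hadj, hind2⟩ := twin_cubic v l c t k hN hS hk hvl hind hη
    refine ⟨X, Y, ?_, hadj, hind2⟩
    rw [tc_smul (1 - η ^ 2) _ _ (fun i => (aeval_zF v l c t k (1 - η ^ 2) i).trans
      (zg_eq _ _ _ _ _ (1 - η ^ 2) (1 - η ^ 2)⁻¹ (mul_inv_cancel₀ hs) i))]
    have h1 : tc (zf (algebraMap ℂ N v) (algebraMap ℂ N l) (algebraMap ℂ N c)
        (algebraMap ℂ N t) (algebraMap ℂ N k) (1 - η ^ 2) (1 - η ^ 2)⁻¹) X Y 1 = 0 := hcub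
    rw [h1, mul_zero]

/-- The plane cubic of the twin, with the condition that the quartic `Ψ` is square-free. -/
theorem z3_cubic (c d₁ d₂ e g : ℂ) (hA : c * g ^ 2 + e ^ 2 ≠ 0) (hE : d₂ ≠ 0)
    (hC : d₁ ^ 2 - 4 * c * d₁ - 3 * c * d₂ ^ 2 + 4 * c ^ 2 ≠ 0)
    (hD : 4 * zI c d₁ d₂ e g ^ 3 ≠ zJ c d₁ d₂ e g ^ 2) :
    ∃ (F : Fin 10 → ℂ[X]) (p₀ p₁ p₂ q₀ q₁ q₂ q₃ : ℂ),
      c4 F = C (-48) * X ^ 4 * (C p₀ + C p₁ * X + C p₂ * X ^ 2) ∧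
      c6 F = C (-864) * X ^ 6 * (C q₀ + C q₁ * X + C q₂ * X ^ 2 + C q₃ * X ^ 3) ∧
      c4 F ^ 3 ≠ c6 F ^ 2 ∧ (p₂ ≠ 0 ∨ q₃ ≠ 0) ∧
      (p₀ + p₁ + p₂ ≠ 0 ∨ q₀ + q₁ + q₂ + q₃ ≠ 0) ∧
      ∀ (N : Type) [Field N] [Algebra ℂ N] (V L η : N), AlgebraicIndependent ℂ ![V, L] →
        η ^ 2 * (z3phi (algebraMap ℂ N c) (algebraMap ℂ N d₁) (algebraMap ℂ N d₂)
            (algebraMap ℂ N e) (algebraMap ℂ N g) V *
          z3C (algebraMap ℂ N c) (algebraMap ℂ N d₁) (algebraMap ℂ N d₂) (algebraMap ℂ N e)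
            (algebraMap ℂ N g) V L ^ 2) =
          z3phi (algebraMap ℂ N c) (algebraMap ℂ N d₁) (algebraMap ℂ N d₂)
            (algebraMap ℂ N e) (algebraMap ℂ N g) V *
          z3C (algebraMap ℂ N c) (algebraMap ℂ N d₁) (algebraMap ℂ N d₂) (algebraMap ℂ N e)
            (algebraMap ℂ N g) V L ^ 2 -
          4 * z3D (algebraMap ℂ N c) (algebraMap ℂ N e) (algebraMap ℂ N g) V L ^ 3 →
        ∃ X Y : N, tc (fun i => aeval (1 - η ^ 2) (F i)) X Y 1 = 0 ∧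
          IntermediateField.adjoin ℂ {η, X, Y} = IntermediateField.adjoin ℂ {V, L, η} ∧
          AlgebraicIndependent ℂ ![η, X] := by
  refine z3_cubic' c d₁ d₂ e g hA hE hC ?_ (Or.inr hD)
  by_contra hcon
  push Not at hcon
  apply hD
  rw [hcon.1, hcon.2]
  ring

end Vale.Agent.P297.H212.Z
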