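import Vale.Agent.P297.H212.ZCubic
import Vale.Agent.P297.H160.ThreeTwin
import Vale.Agent.P297.H572.Z3.Defs

/-!
The plane cubic attached to a base point of the pencil: generation and independence.
-/

set_option linter.unusedSectionVars false

open IntermediateField Polynomial

namespace Vale.Agent.P297.H212.Z

open Vale.Agent.P297 Vale.Agent.P297.H839 Vale.Agent.P297.H160

section ring

variable {R : Type} [CommRing R]

/-- the cofactor of `V - v` in `φ` -/
def zphi1 (v l c t k V : R) : R :=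
  V ^ 3 + (l + k) * V ^ 2 + (3 * c + 2 * l * t) * V +
    (v * (3 * c + 2 * l * t) - 2 * ee v l c t - c * (v - l - k))

theorem zphi_eq (v l c t k V : R) :
    zphi c (dd v l c t k) (v - l - k) (ee v l c t) (gg v l c t) V =
      (V - v) * zphi1 v l c t k V := by
  unfold zphi zphi1 dd ee gg
  ring

theorem zD_at (v l c t V : R) :
    zD c (ee v l c t) (gg v l c t) V l = (l ^ 2 + c) * (V - v) * (V + t) := by
  unfold zD ee gg
  ring

theorem zCC_at (v l c t k V : R) :
    zCC c (dd v l c t k) (v - l - k) (ee v l c t) (gg v l c t) V l =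
      (l ^ 2 + c) * (V - v) * (l + t - k) := by
  unfold zCC dd ee gg
  ring

/-- `y D` -/
def yN (v l c t k V L : R) : R :=
  zD c (ee v l c t) (gg v l c t) V L *
    (t ^ 2 + zkap c (dd v l c t k) (v - l - k) (gg v l c t) V - (t - v) * (V + l + k)) -
    zphi1 v l c t k V * ((V - t) * (L ^ 2 + c) + gg v l c t * L - ee v l c t)

theorem yN_eq (v l c t k V L : R) :
    (V - v) * (yN v l c t k V L - t ^ 2 * zD c (ee v l c t) (gg v l c t) V L) =
      ((V - t) * zkap c (dd v l c t k) (v - l - k) (gg v l c t) V +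
        (t - v) * (3 * c + 2 * l * t)) * zD c (ee v l c t) (gg v l c t) V L -
      zphi c (dd v l c t k) (v - l - k) (ee v l c t) (gg v l c t) V *
        ((V - t) * (L ^ 2 + c) + gg v l c t * L - ee v l c t) := by
  rw [zphi_eq]
  unfold yN zkap dd ee gg
  ring

theorem yN_at (v l c t k V : R) :
    yN v l c t k V l = (c + t ^ 2) * (l + t - k) * (l ^ 2 + c) * (V - v) := by
  unfold yN zD zphi1 zkap dd ee gg
  ring

/-- `p D` -/
def pN (v l c t k V L : R) : R :=
  (l + t) * yN v l c t k V L +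
    (c + t ^ 2) * (k - l - t) * zD c (ee v l c t) (gg v l c t) V L

theorem pN_at (v l c t k V : R) :
    pN v l c t k V l = (c + t ^ 2) * (l + t - k) * (l - V) * (l ^ 2 + c) * (V - v) := by
  unfold pN
  rw [yN_at, zD_at]
  ring

/-- `2 X D²` -/
def xN (v l c t k V L : R) : R :=
  zphi1 v l c t k V * zCC c (dd v l c t k) (v - l - k) (ee v l c t) (gg v l c t) V L * (L - l)

/-- `4 w D³` -/
def wN (v l c t k V L : R) : R :=
  zphi c (dd v l c t k) (v - l - k) (ee v l c t) (gg v l c t) V *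
    zCC c (dd v l c t k) (v - l - k) (ee v l c t) (gg v l c t) V L ^ 2

/-- `4 Δ D⁵` -/
def delN (v l c t k V L : R) : R :=
  (c + t ^ 2) * xN v l c t k V L ^ 2 * (pN v l c t k V L - (l - v) * (yN v l c t k V L -
    3 * (c + t ^ 2) * zD c (ee v l c t) (gg v l c t) V L)) -
    wN v l c t k V L * (pN v l c t k V L * yN v l c t k V L +
      (c + t ^ 2) ^ 2 * (l - v) * xN v l c t k V L)

theorem delN_at (v l c t k V : R) :
    delN v l c t k V l = -(wN v l c t k V l * (pN v l c t k V l * yN v l c t k V l)) := by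
  unfold delN xN
  ring

end ring

/-- a point in general position -/
theorem exists_pt (v l c t k : ℂ) :
    ∃ V : ℂ, V ≠ v ∧ V + t ≠ 0 ∧ V ≠ l ∧ zphi1 v l c t k V ≠ 0 := by
  set P : ℂ[X] := (X - C v) * (X + C t) * (X - C l) *
    (X ^ 3 + C (l + k) * X ^ 2 + C (3 * c + 2 * l * t) * X +
      C (v * (3 * c + 2 * l * t) - 2 * ee v l c t - c * (v - l - k))) with hP
  have h1 : (X ^ 3 + C (l + k) * X ^ 2 + C (3 * c + 2 * l * t) * X +
      C (v * (3 * c + 2 * l * t) - 2 * ee v l c t - c * (v - l - k)) : ℂ[X]).Monic := by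
    monicity!
  have h2 : P ≠ 0 := by
    rw [hP]
    refine mul_ne_zero (mul_ne_zero (mul_ne_zero (X_sub_C_ne_zero v) (X_add_C_ne_zero t))
      (X_sub_C_ne_zero l)) h1.ne_zero
  obtain ⟨V, hV⟩ : ∃ V : ℂ, V ∉ P.roots.toFinset := Infinite.exists_notMem_finset _
  rw [Multiset.mem_toFinset, Polynomial.mem_roots h2, Polynomial.IsRoot.def] at hV
  rw [hP] at hV
  simp only [eval_mul, eval_sub, eval_add, eval_X, eval_C, eval_pow] at hV
  refine ⟨V, ?_, ?_, ?_, ?_⟩
  · rintro rfl
    apply hV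
    ring
  · intro h
    apply hV
    rw [h]
    ring
  · rintro rfl
    apply hV
    ring
  · intro h
    apply hV
    unfold zphi1 at h
    rw [h, mul_zero]

section maps

variable {R S : Type} [CommRing R] [CommRing S] (f : R →+* S)

theorem map_gg (v l c t : R) : f (gg v l c t) = gg (f v) (f l) (f c) (f t) := by
  simp [gg]

theorem map_ee (v l c t : R) : f (ee v l c t) = ee (f v) (f l) (f c) (f t) := by
  simp [ee]

theorem map_dd (v l c t k : R) : f (dd v l c t k) = dd (f v) (f l) (f c) (f t) (f k) := by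
  simp [dd, map_ofNat f]

theorem map_zphi (c d1 d2 e g v : R) :
    f (zphi c d1 d2 e g v) = zphi (f c) (f d1) (f d2) (f e) (f g) (f v) := by
  simp [zphi, map_ofNat f]

theorem map_zD (c e g v l : R) :
    f (zD c e g v l) = zD (f c) (f e) (f g) (f v) (f l) := by
  simp [zD]

theorem map_zCC (c d1 d2 e g v l : R) :
    f (zCC c d1 d2 e g v l) = zCC (f c) (f d1) (f d2) (f e) (f g) (f v) (f l) := by
  simp [zCC, map_ofNat f]

theorem map_zkap (c d1 d2 g v : R) :
    f (zkap c d1 d2 g v) = zkap (f c) (f d1) (f d2) (f g) (f v) := by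
  simp [zkap, map_ofNat f]

theorem map_zphi1 (v l c t k V : R) :
    f (zphi1 v l c t k V) = zphi1 (f v) (f l) (f c) (f t) (f k) (f V) := by
  simp [zphi1, map_ee, map_ofNat f]

theorem map_yN (v l c t k V L : R) :
    f (yN v l c t k V L) = yN (f v) (f l) (f c) (f t) (f k) (f V) (f L) := by
  simp [yN, map_zD, map_zkap, map_zphi1, map_ee, map_gg, map_dd]

theorem map_pN (v l c t k V L : R) :
    f (pN v l c t k V L) = pN (f v) (f l) (f c) (f t) (f k) (f V) (f L) := by
  simp [pN, map_yN, map_zD, map_ee, map_gg]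

theorem map_xN (v l c t k V L : R) :
    f (xN v l c t k V L) = xN (f v) (f l) (f c) (f t) (f k) (f V) (f L) := by
  simp [xN, map_zphi1, map_zCC, map_ee, map_gg, map_dd]

theorem map_wN (v l c t k V L : R) :
    f (wN v l c t k V L) = wN (f v) (f l) (f c) (f t) (f k) (f V) (f L) := by
  simp [wN, map_zphi, map_zCC, map_ee, map_gg, map_dd]

theorem map_delN (v l c t k V L : R) :
    f (delN v l c t k V L) = delN (f v) (f l) (f c) (f t) (f k) (f V) (f L) := by
  simp [delN, map_xN, map_pN, map_yN, map_wN, map_zD, map_ee, map_gg, map_ofNat f]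

theorem map_zf (v l c t k s u : R) (i : Fin 10) :
    f (zf v l c t k s u i) = zf (f v) (f l) (f c) (f t) (f k) (f s) (f u) i := by
  unfold zf
  fin_cases i <;> simp [map_ofNat f]

end maps

section ne

variable {N : Type} [Field N] [Algebra ℂ N]

theorem ne_of_pt {V L : N} (hind : AlgebraicIndependent ℂ ![V, L]) (v l c t k a : ℂ)
    (G : ∀ (R : Type) [CommRing R], R → R → R → R → R → R → R → R)
    (hG : ∀ (R S : Type) [CommRing R] [CommRing S] (f : R →+* S) (v l c t k V L : R),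
      f (G R v l c t k V L) = G S (f v) (f l) (f c) (f t) (f k) (f V) (f L))
    (h : G ℂ v l c t k a l ≠ 0) :
    G N (algebraMap ℂ N v) (algebraMap ℂ N l) (algebraMap ℂ N c) (algebraMap ℂ N t)
      (algebraMap ℂ N k) V L ≠ 0 := by
  refine nz2 hind (G _ (MvPolynomial.C v) (MvPolynomial.C l) (MvPolynomial.C c)
    (MvPolynomial.C t) (MvPolynomial.C k) (MvPolynomial.X 0) (MvPolynomial.X 1)) ?_ ⟨a, l, ?_⟩
  · have h1 := hG _ _ ((MvPolynomial.aeval ![V, L] : MvPolynomial (Fin 2) ℂ →ₐ[ℂ] N) :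
      MvPolynomial (Fin 2) ℂ →+* N) (MvPolynomial.C v) (MvPolynomial.C l) (MvPolynomial.C c)
      (MvPolynomial.C t) (MvPolynomial.C k) (MvPolynomial.X 0) (MvPolynomial.X 1)
    simpa using h1
  · have h1 := hG _ _ ((MvPolynomial.aeval ![a, l] : MvPolynomial (Fin 2) ℂ →ₐ[ℂ] ℂ) :
      MvPolynomial (Fin 2) ℂ →+* ℂ) (MvPolynomial.C v) (MvPolynomial.C l) (MvPolynomial.C c)
      (MvPolynomial.C t) (MvPolynomial.C k) (MvPolynomial.X 0) (MvPolynomial.X 1)
    simp only [RingHom.coe_coe, MvPolynomial.algHom_C, Algebra.algebraMap_self, RingHom.id_apply,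
      MvPolynomial.aeval_X, Matrix.cons_val_zero, Matrix.cons_val_one] at h1
    rw [h1]
    exact h

/-- All the functions of the plane cubic are different from zero. -/
structure Ne (v l c t k V L : N) : Prop where
  hV : V - v ≠ 0
  hL : L - l ≠ 0
  hphi1 : zphi1 v l c t k V ≠ 0
  hD : zD c (ee v l c t) (gg v l c t) V L ≠ 0
  hCC : zCC c (dd v l c t k) (v - l - k) (ee v l c t) (gg v l c t) V L ≠ 0
  hp : pN v l c t k V L ≠ 0
  hdel : delN v l c t k V L ≠ 0

theorem ne_all {V L : N} (hind : AlgebraicIndependent ℂ ![V, L]) (v l c t k : ℂ)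
    (hN : l ^ 2 + c ≠ 0) (hS : c + t ^ 2 ≠ 0) (hk : l + t - k ≠ 0) :
    Ne (algebraMap ℂ N v) (algebraMap ℂ N l) (algebraMap ℂ N c) (algebraMap ℂ N t)
      (algebraMap ℂ N k) V L := by
  obtain ⟨a, ha1, ha2, ha3, ha4⟩ := exists_pt v l c t k
  have hav : a - v ≠ 0 := sub_ne_zero.2 ha1
  have hla : l - a ≠ 0 := sub_ne_zero.2 (Ne.symm ha3)
  have hCC : zCC c (dd v l c t k) (v - l - k) (ee v l c t) (gg v l c t) a l ≠ 0 := by
    rw [zCC_at]
    exact mul_ne_zero (mul_ne_zero hN hav) hk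
  have hp : pN v l c t k a l ≠ 0 := by
    rw [pN_at]
    exact mul_ne_zero (mul_ne_zero (mul_ne_zero (mul_ne_zero hS hk) hla) hN) hav
  have hy : yN v l c t k a l ≠ 0 := by
    rw [yN_at]
    exact mul_ne_zero (mul_ne_zero (mul_ne_zero hS hk) hN) hav
  refine ⟨?_, ?_, ?_, ?_, ?_, ?_, ?_⟩
  · exact ne_of_pt hind v l c t k a (fun R _ v l c t k V L => V - v)
      (fun R S _ _ f v l c t k V L => by simp) hav
  · refine nz2 hind (MvPolynomial.X 1 - MvPolynomial.C l) (by simp) ⟨0, l + 1, by simp⟩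
  · exact ne_of_pt hind v l c t k a (fun R _ v l c t k V L => zphi1 v l c t k V)
      (fun R S _ _ f v l c t k V L => map_zphi1 f v l c t k V) ha4
  · refine ne_of_pt hind v l c t k a
      (fun R _ v l c t k V L => zD c (ee v l c t) (gg v l c t) V L)
      (fun R S _ _ f v l c t k V L => by simp [map_zD, map_ee, map_gg]) ?_
    rw [zD_at]
    exact mul_ne_zero (mul_ne_zero hN hav) ha2
  · exact ne_of_pt hind v l c t k a
      (fun R _ v l c t k V L => zCC c (dd v l c t k) (v - l - k) (ee v l c t) (gg v l c t) V L)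
      (fun R S _ _ f v l c t k V L => by simp [map_zCC, map_ee, map_gg, map_dd]) hCC
  · exact ne_of_pt hind v l c t k a (fun R _ v l c t k V L => pN v l c t k V L)
      (fun R S _ _ f v l c t k V L => map_pN f v l c t k V L) hp
  · refine ne_of_pt hind v l c t k a (fun R _ v l c t k V L => delN v l c t k V L)
      (fun R S _ _ f v l c t k V L => map_delN f v l c t k V L) ?_
    rw [delN_at]
    refine neg_ne_zero.2 (mul_ne_zero ?_ (mul_ne_zero hp hy))
    unfold wN
    rw [zphi_eq]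
    exact mul_ne_zero (mul_ne_zero hav ha4) (pow_ne_zero 2 hCC)

end ne

section build

variable {N : Type} [Field N] [CharZero N] {v l c t k V L m w Q r X y : N}

theorem Pt.xN (h : Pt v l c t k V L m w Q r X y) :
    X * (2 * zD c (ee v l c t) (gg v l c t) V L ^ 2) = xN v l c t k V L := by
  have hV : V - v ≠ 0 := sub_ne_zero.2 h.hV
  apply mul_left_cancel₀ hV
  have h1 := h.six.hm
  rw [zphi_eq] at h1
  unfold Z.xN
  linear_combination (2 * zD c (ee v l c t) (gg v l c t) V L ^ 2) * h.hX + (L - l) * h1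

theorem Pt.wN (h : Pt v l c t k V L m w Q r X y) :
    w * (4 * zD c (ee v l c t) (gg v l c t) V L ^ 3) = wN v l c t k V L := h.six.hw

theorem Pt.yN (h : Pt v l c t k V L m w Q r X y) :
    y * zD c (ee v l c t) (gg v l c t) V L = yN v l c t k V L := by
  have hV : V - v ≠ 0 := sub_ne_zero.2 h.hV
  apply mul_left_cancel₀ hV
  have h1 := yN_eq v l c t k V L
  linear_combination (zD c (ee v l c t) (gg v l c t) V L) * h.hy - h1 + h.six.hr +
    (V - t) * h.six.hQ

theorem Pt.pN (h : Pt v l c t k V L m w Q r X y) :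
    ((l + t) * y + (c + t ^ 2) * (k - l - t)) * zD c (ee v l c t) (gg v l c t) V L =
      pN v l c t k V L := by
  unfold Z.pN
  linear_combination (l + t) * h.yN

theorem Pt.delN (h : Pt v l c t k V L m w Q r X y) :
    ((c + t ^ 2) * X ^ 2 * (((l + t) * y + (c + t ^ 2) * (k - l - t)) -
      (l - v) * (y - 3 * (c + t ^ 2))) - w * (((l + t) * y + (c + t ^ 2) * (k - l - t)) * y +
        2 * (c + t ^ 2) ^ 2 * (l - v) * X)) * (4 * zD c (ee v l c t) (gg v l c t) V L ^ 5) =
      delN v l c t k V L := by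
  unfold Z.delN
  rw [← h.xN, ← h.wN, ← h.yN, ← h.pN]
  ring

theorem Pt.ofNe (h : Ne v l c t k V L) : ∃ m w Q r X y : N, Pt v l c t k V L m w Q r X y := by
  have hD := h.hD
  have hV := h.hV
  have h2 : (2 : N) ≠ 0 := two_ne_zero
  have h4 : (4 : N) ≠ 0 := by norm_num
  obtain ⟨φ, hφ⟩ : ∃ φ, φ = zphi c (dd v l c t k) (v - l - k) (ee v l c t) (gg v l c t) V :=
    ⟨_, rfl⟩
  obtain ⟨C, hC⟩ : ∃ C, C = zCC c (dd v l c t k) (v - l - k) (ee v l c t) (gg v l c t) V L :=
    ⟨_, rfl⟩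
  obtain ⟨D, hD'⟩ : ∃ D, D = zD c (ee v l c t) (gg v l c t) V L := ⟨_, rfl⟩
  obtain ⟨κ, hκ⟩ : ∃ κ, κ = zkap c (dd v l c t k) (v - l - k) (gg v l c t) V := ⟨_, rfl⟩
  rw [← hD'] at hD
  refine ⟨φ * C / (2 * D ^ 2), φ * C ^ 2 / (4 * D ^ 3), κ - (L ^ 2 + c) * φ / D,
    V * (κ - (L ^ 2 + c) * φ / D) - (gg v l c t * L - ee v l c t) * φ / D -
      (2 * ee v l c t + c * (v - l - k)),
    (L * (φ * C / (2 * D ^ 2)) - l * (φ * C / (2 * D ^ 2))) / (V - v),
    t ^ 2 + ((V * (κ - (L ^ 2 + c) * φ / D) - (gg v l c t * L - ee v l c t) * φ / D -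
      (2 * ee v l c t + c * (v - l - k))) - t * (κ - (L ^ 2 + c) * φ / D) +
      (2 * ee v l c t + c * (v - l - k)) + (t - v) * (3 * c + 2 * l * t)) / (V - v),
      ⟨?_, ?_, ?_, ?_, ?_⟩, ?_, ?_, ?_⟩
  · rw [← hD']
    exact hD
  · rw [← hD', ← hφ, ← hC]
    field_simp
  · rw [← hD', ← hφ, ← hC]
    field_simp
  · rw [← hD', ← hφ, ← hκ]
    field_simp
  · rw [← hD', ← hφ]
    field_simp
  · exact sub_ne_zero.1 hV
  · field_simp
  · field_simp
    ring

/-- `V` as a function of `w`, `X`, `y` -/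
theorem Pt.V_eq (h : Pt v l c t k V L m w Q r X y) :
    V * ((c + t ^ 2) * X ^ 2 * (((l + t) * y + (c + t ^ 2) * (k - l - t)) -
      (l - v) * (y - 3 * (c + t ^ 2))) - w * (((l + t) * y + (c + t ^ 2) * (k - l - t)) * y +
        2 * (c + t ^ 2) ^ 2 * (l - v) * X)) =
      -((c + t ^ 2) * (l - v) * v * X ^ 2 * (y - 3 * (c + t ^ 2)) +
        2 * (c + t ^ 2) ^ 2 * (l - v) * l * X * w -
        ((l + t) * y + (c + t ^ 2) * (k - l - t)) * (c + t ^ 2) * v * X ^ 2 -
        ((l + t) * y + (c + t ^ 2) * (k - l - t)) * w * t * y +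
        ((l + t) * y + (c + t ^ 2) * (k - l - t)) * w * (c + t ^ 2) * (t + l - k)) := by
  linear_combination ((l + t) * y + (c + t ^ 2) * (k - l - t)) * h.e5 -
    (c + t ^ 2) * (l - v) * X * h.e3

end build

section mem

variable {N : Type} [Field N] [Algebra ℂ N] {V L m w Q r X y : N}

/-- The functions `w`, `X`, `y` generate. -/
theorem Pt.mem (v l c t k : ℂ) (h : Pt (algebraMap ℂ N v) (algebraMap ℂ N l) (algebraMap ℂ N c)
    (algebraMap ℂ N t) (algebraMap ℂ N k) V L m w Q r X y)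
    (hne : Ne (algebraMap ℂ N v) (algebraMap ℂ N l) (algebraMap ℂ N c) (algebraMap ℂ N t)
      (algebraMap ℂ N k) V L) (F : IntermediateField ℂ N) (hw : w ∈ F) (hX : X ∈ F)
    (hy : y ∈ F) : V ∈ F ∧ L ∈ F := by
  have : CharZero N := charZero_of_injective_algebraMap (algebraMap ℂ N).injective
  have hD := hne.hD
  have h4 : (4 : N) ≠ 0 := by norm_num
  have hcF : ∀ z : ℂ, algebraMap ℂ N z ∈ F := fun z => F.algebraMap_mem z
  have h2F : (2 : N) ∈ F := ofNat_mem F 2
  have h3F : (3 : N) ∈ F := ofNat_mem F 3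
  have hp0 : (algebraMap ℂ N l + algebraMap ℂ N t) * y + (algebraMap ℂ N c +
      algebraMap ℂ N t ^ 2) * (algebraMap ℂ N k - algebraMap ℂ N l - algebraMap ℂ N t) ≠ 0 := by
    intro h0
    apply hne.hp
    rw [← h.pN, h0, zero_mul]
  have hd0 : _ ≠ _ := fun h0 => hne.hdel (by rw [← h.delN]; exact mul_eq_zero_of_left h0 _)
  have hV := h.V_eq
  have e3 := h.e3
  have hpF : (algebraMap ℂ N l + algebraMap ℂ N t) * y + (algebraMap ℂ N c +
      algebraMap ℂ N t ^ 2) * (algebraMap ℂ N k - algebraMap ℂ N l - algebraMap ℂ N t) ∈ F :=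
    add_mem (mul_mem (add_mem (hcF _) (hcF _)) hy) (mul_mem (add_mem (hcF _) (pow_mem (hcF _) 2))
      (sub_mem (sub_mem (hcF _) (hcF _)) (hcF _)))
  generalize hpdef : (algebraMap ℂ N l + algebraMap ℂ N t) * y + (algebraMap ℂ N c +
      algebraMap ℂ N t ^ 2) * (algebraMap ℂ N k - algebraMap ℂ N l - algebraMap ℂ N t) = p
    at hp0 hd0 hV e3 hpF
  have hSF : algebraMap ℂ N c + algebraMap ℂ N t ^ 2 ∈ F := add_mem (hcF _) (pow_mem (hcF _) 2)
  generalize algebraMap ℂ N c + algebraMap ℂ N t ^ 2 = S at hd0 hV e3 hSF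
  have hyS : y - 3 * S ∈ F := sub_mem hy (mul_mem h3F hSF)
  have hlv : algebraMap ℂ N l - algebraMap ℂ N v ∈ F := sub_mem (hcF _) (hcF _)
  have hVF : V ∈ F := by
    rw [← eq_div_iff hd0] at hV
    rw [hV]
    refine div_mem (neg_mem ?_) ?_
    · refine add_mem (sub_mem (sub_mem (add_mem ?_ ?_) ?_) ?_) ?_
      · exact mul_mem (mul_mem (mul_mem (mul_mem hSF hlv) (hcF _)) (pow_mem hX 2)) hyS
      · exact mul_mem (mul_mem (mul_mem (mul_mem (mul_mem h2F (pow_mem hSF 2)) hlv) (hcF _)) hX) hw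
      · exact mul_mem (mul_mem (mul_mem hpF hSF) (hcF _)) (pow_mem hX 2)
      · exact mul_mem (mul_mem (mul_mem hpF hw) (hcF _)) hy
      · exact mul_mem (mul_mem (mul_mem hpF hw) hSF)
          (sub_mem (add_mem (hcF _) (hcF _)) (hcF _))
    · refine sub_mem (mul_mem (mul_mem hSF (pow_mem hX 2)) (sub_mem hpF (mul_mem hlv hyS)))
        (mul_mem hw (add_mem (mul_mem hpF hy)
          (mul_mem (mul_mem (mul_mem h2F (pow_mem hSF 2)) hlv) hX)))
  have hm0 : m ≠ 0 := by
    intro h0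
    have h1 := h.six.hm
    rw [h0, zero_mul, zphi_eq] at h1
    exact (mul_ne_zero (mul_ne_zero hne.hV hne.hphi1) hne.hCC) h1.symm
  have hmF : m ∈ F := by
    have h1 : m = -((V - algebraMap ℂ N v) * X * (y - 3 * S) +
        2 * S * (V - algebraMap ℂ N l) * w) / p := by
      rw [eq_div_iff hp0]
      linear_combination e3
    rw [h1]
    exact div_mem (neg_mem (add_mem (mul_mem (mul_mem (sub_mem hVF (hcF _)) hX) hyS)
      (mul_mem (mul_mem (mul_mem h2F hSF) (sub_mem hVF (hcF _))) hw))) hpF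
  refine ⟨hVF, ?_⟩
  have h1 : L = (X * (V - algebraMap ℂ N v) + algebraMap ℂ N l * m) / m := by
    rw [eq_div_iff hm0]
    linear_combination (-1 : N) * h.hX
  rw [h1]
  exact div_mem (add_mem (mul_mem hX (sub_mem hVF (hcF _))) (mul_mem (hcF _) hmF)) hmF

theorem mem_of_map (F : IntermediateField ℂ N) (v l c t k : ℂ) (hV : V ∈ F) (hL : L ∈ F)
    (G : ∀ (R : Type) [CommRing R], R → R → R → R → R → R → R → R)
    (hG : ∀ (R S : Type) [CommRing R] [CommRing S] (f : R →+* S) (v l c t k V L : R),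
      f (G R v l c t k V L) = G S (f v) (f l) (f c) (f t) (f k) (f V) (f L)) :
    G N (algebraMap ℂ N v) (algebraMap ℂ N l) (algebraMap ℂ N c) (algebraMap ℂ N t)
      (algebraMap ℂ N k) V L ∈ F := by
  have h1 := hG F N (F.val : F →+* N) (algebraMap ℂ F v) (algebraMap ℂ F l) (algebraMap ℂ F c)
    (algebraMap ℂ F t) (algebraMap ℂ F k) ⟨V, hV⟩ ⟨L, hL⟩
  have h2 : G N (algebraMap ℂ N v) (algebraMap ℂ N l) (algebraMap ℂ N c) (algebraMap ℂ N t)
      (algebraMap ℂ N k) V L = (F.val : F →+* N) (G F (algebraMap ℂ F v) (algebraMap ℂ F l)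
        (algebraMap ℂ F c) (algebraMap ℂ F t) (algebraMap ℂ F k) ⟨V, hV⟩ ⟨L, hL⟩) := h1.symm
  rw [h2]
  exact SetLike.coe_mem _

theorem Pt.mem' (v l c t k : ℂ) (h : Pt (algebraMap ℂ N v) (algebraMap ℂ N l) (algebraMap ℂ N c)
    (algebraMap ℂ N t) (algebraMap ℂ N k) V L m w Q r X y)
    (F : IntermediateField ℂ N) (hV : V ∈ F) (hL : L ∈ F) : X ∈ F ∧ y ∈ F := by
  have : CharZero N := charZero_of_injective_algebraMap (algebraMap ℂ N).injective
  have hD := h.six.hD
  have hDF := mem_of_map F v l c t k hV hL (fun R _ v l c t k V L =>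
    zD c (ee v l c t) (gg v l c t) V L) (fun R S _ _ f v l c t k V L => by
      simp [map_zD, map_ee, map_gg])
  have hxF := mem_of_map F v l c t k hV hL (fun R _ v l c t k V L => Z.xN v l c t k V L)
    (fun R S _ _ f v l c t k V L => map_xN f v l c t k V L)
  have hyF := mem_of_map F v l c t k hV hL (fun R _ v l c t k V L => Z.yN v l c t k V L)
    (fun R S _ _ f v l c t k V L => map_yN f v l c t k V L)
  have h1 := h.xN
  have h2 := h.yN
  rw [← eq_div_iff hD] at h2
  rw [← eq_div_iff (mul_ne_zero two_ne_zero (pow_ne_zero 2 hD))] at h1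
  rw [h1, h2]
  exact ⟨div_mem hxF (mul_mem (ofNat_mem F 2) (pow_mem hDF 2)), div_mem hyF hDF⟩

theorem zf_mem (F : IntermediateField ℂ N) (v l c t k : ℂ) {s : N} (hs : s ∈ F) (i : Fin 10) :
    zf (algebraMap ℂ N v) (algebraMap ℂ N l) (algebraMap ℂ N c) (algebraMap ℂ N t)
      (algebraMap ℂ N k) s s⁻¹ i ∈ F := by
  have h1 := map_zf (F.val : F →+* N) (algebraMap ℂ F v) (algebraMap ℂ F l) (algebraMap ℂ F c)
    (algebraMap ℂ F t) (algebraMap ℂ F k) (⟨s, hs⟩ : F) (⟨s, hs⟩ : F)⁻¹ i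
  have h2 : zf (algebraMap ℂ N v) (algebraMap ℂ N l) (algebraMap ℂ N c) (algebraMap ℂ N t)
      (algebraMap ℂ N k) s s⁻¹ i = (F.val : F →+* N) (zf (algebraMap ℂ F v) (algebraMap ℂ F l)
      (algebraMap ℂ F c) (algebraMap ℂ F t) (algebraMap ℂ F k) (⟨s, hs⟩ : F)
      (⟨s, hs⟩ : F)⁻¹ i) := by
    rw [h1, map_inv₀]
    rfl
  rw [h2]
  exact SetLike.coe_mem _

open Vale.Agent.P297.Z3 in
/-- **The plane cubic.** The field of functions of the twin is generated by `η` and a point of an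
explicit plane cubic over `ℂ(1 - η²)`. -/
theorem twin_cubic (v l c t k : ℂ) (hN : l ^ 2 + c ≠ 0) (hS : c + t ^ 2 ≠ 0)
    (hk : l + t - k ≠ 0) (hvl : v ≠ l) {V L η : N} (hind : AlgebraicIndependent ℂ ![V, L])
    (hη : η ^ 2 * (zphi (algebraMap ℂ N c) (algebraMap ℂ N (dd v l c t k))
        (algebraMap ℂ N (v - l - k)) (algebraMap ℂ N (ee v l c t))
        (algebraMap ℂ N (gg v l c t)) V *
        zCC (algebraMap ℂ N c) (algebraMap ℂ N (dd v l c t k)) (algebraMap ℂ N (v - l - k))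
          (algebraMap ℂ N (ee v l c t)) (algebraMap ℂ N (gg v l c t)) V L ^ 2) =
      zphi (algebraMap ℂ N c) (algebraMap ℂ N (dd v l c t k))
        (algebraMap ℂ N (v - l - k)) (algebraMap ℂ N (ee v l c t))
        (algebraMap ℂ N (gg v l c t)) V *
        zCC (algebraMap ℂ N c) (algebraMap ℂ N (dd v l c t k)) (algebraMap ℂ N (v - l - k))
          (algebraMap ℂ N (ee v l c t)) (algebraMap ℂ N (gg v l c t)) V L ^ 2 -
      4 * zD (algebraMap ℂ N c) (algebraMap ℂ N (ee v l c t)) (algebraMap ℂ N (gg v l c t))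
        V L ^ 3) :
    ∃ X y : N, 1 - η ^ 2 ≠ 0 ∧
      tv (zf (algebraMap ℂ N v) (algebraMap ℂ N l) (algebraMap ℂ N c) (algebraMap ℂ N t)
        (algebraMap ℂ N k) (1 - η ^ 2) (1 - η ^ 2)⁻¹) ![X, y, 1] = 0 ∧
      IntermediateField.adjoin ℂ {η, X, y} = IntermediateField.adjoin ℂ {V, L, η} ∧
      AlgebraicIndependent ℂ ![η, X] := by
  have : CharZero N := charZero_of_injective_algebraMap (algebraMap ℂ N).injective
  have hne := ne_all hind v l c t k hN hS hk
  obtain ⟨m, w, Q, r, X, y, h⟩ := Pt.ofNe hne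
  refine ⟨X, y, ?_⟩
  rw [map_gg (algebraMap ℂ N), map_ee (algebraMap ℂ N), map_dd (algebraMap ℂ N), map_sub, map_sub]
    at hη
  have hw0 : w ≠ 0 := by
    intro h0
    have h1 := h.six.hw
    rw [h0, zero_mul, zphi_eq] at h1
    exact (mul_ne_zero (mul_ne_zero hne.hV hne.hphi1) (pow_ne_zero 2 hne.hCC)) h1.symm
  have hX0 : X ≠ 0 := by
    intro h0
    have h1 := h.xN
    rw [h0, zero_mul] at h1
    exact (mul_ne_zero (mul_ne_zero hne.hphi1 hne.hCC) hne.hL) h1.symm
  have hvl' : algebraMap ℂ N v ≠ algebraMap ℂ N l := by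
    intro h0
    exact hvl ((algebraMap ℂ N).injective h0)
  have hsw : (1 - η ^ 2) * w = 1 := by
    have h1 := h.six.hw
    have h2 : (zphi (algebraMap ℂ N c) (dd (algebraMap ℂ N v) (algebraMap ℂ N l)
        (algebraMap ℂ N c) (algebraMap ℂ N t) (algebraMap ℂ N k))
        (algebraMap ℂ N v - algebraMap ℂ N l - algebraMap ℂ N k)
        (ee (algebraMap ℂ N v) (algebraMap ℂ N l) (algebraMap ℂ N c) (algebraMap ℂ N t))
        (gg (algebraMap ℂ N v) (algebraMap ℂ N l) (algebraMap ℂ N c) (algebraMap ℂ N t)) V *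
        zCC (algebraMap ℂ N c) (dd (algebraMap ℂ N v) (algebraMap ℂ N l)
        (algebraMap ℂ N c) (algebraMap ℂ N t) (algebraMap ℂ N k))
        (algebraMap ℂ N v - algebraMap ℂ N l - algebraMap ℂ N k)
        (ee (algebraMap ℂ N v) (algebraMap ℂ N l) (algebraMap ℂ N c) (algebraMap ℂ N t))
        (gg (algebraMap ℂ N v) (algebraMap ℂ N l) (algebraMap ℂ N c) (algebraMap ℂ N t)) V L ^ 2)
        ≠ 0 := by
      rw [zphi_eq]
      exact mul_ne_zero (mul_ne_zero hne.hV hne.hphi1) (pow_ne_zero 2 hne.hCC)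
    apply mul_left_cancel₀ h2
    linear_combination h1 - w * hη
  have hs0 : 1 - η ^ 2 ≠ 0 := by
    intro h0
    rw [h0, zero_mul] at hsw
    exact zero_ne_one hsw
  have hwinv : (1 - η ^ 2)⁻¹ = w := inv_eq_of_mul_eq_one_right hsw
  have hcub : tv (zf (algebraMap ℂ N v) (algebraMap ℂ N l) (algebraMap ℂ N c)
      (algebraMap ℂ N t) (algebraMap ℂ N k) (1 - η ^ 2) (1 - η ^ 2)⁻¹) ![X, y, 1] = 0 := by
    have h1 := h.cubic hX0 hw0 hvl'
    rw [hwinv]
    simp only [tv, tc, zf, Matrix.cons_val]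
    apply mul_left_cancel₀ hw0
    rw [mul_zero]
    linear_combination h1 + (-2 * (algebraMap ℂ N c + algebraMap ℂ N t ^ 2) ^ 2 *
      (algebraMap ℂ N v ^ 2 + algebraMap ℂ N c) * X ^ 3 -
      (algebraMap ℂ N c + algebraMap ℂ N t ^ 2) * (algebraMap ℂ N v ^ 2 -
        2 * algebraMap ℂ N v * algebraMap ℂ N t + 3 * algebraMap ℂ N c) * X ^ 2 * y +
      (algebraMap ℂ N c + algebraMap ℂ N t ^ 2) ^ 2 * (3 * algebraMap ℂ N v ^ 2 +
        4 * algebraMap ℂ N v * algebraMap ℂ N l - 2 * algebraMap ℂ N v * algebraMap ℂ N t +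
        2 * algebraMap ℂ N v * algebraMap ℂ N k + 9 * algebraMap ℂ N c) * X ^ 2) * hsw
  refine ⟨hs0, hcub, ?_, ?_⟩
  · apply le_antisymm
    · have hV : V ∈ IntermediateField.adjoin ℂ {V, L, η} :=
        IntermediateField.subset_adjoin _ _ (by simp)
      have hL : L ∈ IntermediateField.adjoin ℂ {V, L, η} :=
        IntermediateField.subset_adjoin _ _ (by simp)
      obtain ⟨h1, h2⟩ := h.mem' v l c t k _ hV hL
      rw [IntermediateField.adjoin_le_iff]
      rintro a (ha | ha | ha)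
      · rw [ha]
        exact IntermediateField.subset_adjoin _ _ (by simp)
      · rw [ha]
        exact h1
      · rw [Set.mem_singleton_iff.1 ha]
        exact h2
    · have hηF : η ∈ IntermediateField.adjoin ℂ {η, X, y} :=
        IntermediateField.subset_adjoin _ _ (by simp)
      have hXF : X ∈ IntermediateField.adjoin ℂ {η, X, y} :=
        IntermediateField.subset_adjoin _ _ (by simp)
      have hyF : y ∈ IntermediateField.adjoin ℂ {η, X, y} :=
        IntermediateField.subset_adjoin _ _ (by simp)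
      have hwF : w ∈ IntermediateField.adjoin ℂ {η, X, y} := by
        rw [← hwinv]
        exact inv_mem (sub_mem (one_mem _) (pow_mem hηF 2))
      obtain ⟨h1, h2⟩ := h.mem v l c t k hne _ hwF hXF hyF
      rw [IntermediateField.adjoin_le_iff]
      rintro a (ha | ha | ha)
      · rw [ha]
        exact h1
      · rw [ha]
        exact h2
      · rw [Set.mem_singleton_iff.1 ha]
        exact hηF
  · apply indep_of_algebraic hind
    set F := IntermediateField.adjoin ℂ (Set.range ![η, X]) with hF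
    have hηF : η ∈ F := by
      rw [hF, range_pair]
      exact IntermediateField.subset_adjoin _ _ (by simp)
    have hXF : X ∈ F := by
      rw [hF, range_pair]
      exact IntermediateField.subset_adjoin _ _ (by simp)
    have hwF : w ∈ F := by
      rw [← hwinv]
      exact inv_mem (sub_mem (one_mem _) (pow_mem hηF 2))
    have hcF : ∀ z : ℂ, algebraMap ℂ N z ∈ F := fun z => F.algebraMap_mem z
    have hyalg : IsAlgebraic F y := by
      have hsF : 1 - η ^ 2 ∈ F := sub_mem (one_mem _) (pow_mem hηF 2)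
      have hzF := zf_mem F v l c t k hsF
      have h6 : zf (algebraMap ℂ N v) (algebraMap ℂ N l) (algebraMap ℂ N c) (algebraMap ℂ N t)
        (algebraMap ℂ N k) (1 - η ^ 2) (1 - η ^ 2)⁻¹ 6 = 1 := rfl
      have h3 : zf (algebraMap ℂ N v) (algebraMap ℂ N l) (algebraMap ℂ N c) (algebraMap ℂ N t)
        (algebraMap ℂ N k) (1 - η ^ 2) (1 - η ^ 2)⁻¹ 3 = 0 := rfl
      generalize zf (algebraMap ℂ N v) (algebraMap ℂ N l) (algebraMap ℂ N c) (algebraMap ℂ N t)
        (algebraMap ℂ N k) (1 - η ^ 2) (1 - η ^ 2)⁻¹ = f at hzF h6 h3 hcub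
      have ha : f 7 ∈ F := hzF 7
      have hb : f 1 * X ^ 2 + f 4 * X + f 8 ∈ F :=
        add_mem (add_mem (mul_mem (hzF 1) (pow_mem hXF 2)) (mul_mem (hzF 4) hXF)) (hzF 8)
      have hc : f 0 * X ^ 3 + f 2 * X ^ 2 + f 5 * X + f 9 ∈ F :=
        add_mem (add_mem (add_mem (mul_mem (hzF 0) (pow_mem hXF 3))
          (mul_mem (hzF 2) (pow_mem hXF 2))) (mul_mem (hzF 5) hXF)) (hzF 9)
      refine ⟨Polynomial.X ^ 3 + Polynomial.C ⟨_, ha⟩ * Polynomial.X ^ 2 +
        Polynomial.C ⟨_, hb⟩ * Polynomial.X + Polynomial.C ⟨_, hc⟩, ?_, ?_⟩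
      · apply Monic.ne_zero
        monicity!
      · simp only [map_add, map_pow, aeval_X, map_mul, aeval_C]
        change y ^ 3 + f 7 * y ^ 2 + (f 1 * X ^ 2 + f 4 * X + f 8) * y +
          (f 0 * X ^ 3 + f 2 * X ^ 2 + f 5 * X + f 9) = 0
        simp only [tv, tc, Matrix.cons_val] at hcub
        rw [h6, h3] at hcub
        linear_combination hcub
    have hle : ∀ z ∈ IntermediateField.adjoin ℂ {η, X, y}, IsAlgebraic F z := by
      have h1 : IntermediateField.adjoin ℂ {η, X, y} ≤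
          (algebraicClosure F N).restrictScalars ℂ := by
        rw [IntermediateField.adjoin_le_iff]
        rintro a (ha | ha | ha)
        · rw [ha]
          exact mem_algebraicClosure_iff.2 (isAlgebraic_mem _ _ hηF)
        · rw [ha]
          exact mem_algebraicClosure_iff.2 (isAlgebraic_mem _ _ hXF)
        · rw [Set.mem_singleton_iff.1 ha]
          exact mem_algebraicClosure_iff.2 hyalg
      intro z hz
      exact mem_algebraicClosure_iff.1 (h1 hz)
    have hηG : η ∈ IntermediateField.adjoin ℂ {η, X, y} :=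
      IntermediateField.subset_adjoin _ _ (by simp)
    have hwG : w ∈ IntermediateField.adjoin ℂ {η, X, y} := by
      rw [← hwinv]
      exact inv_mem (sub_mem (one_mem _) (pow_mem hηG 2))
    obtain ⟨h1, h2⟩ := h.mem v l c t k hne (IntermediateField.adjoin ℂ {η, X, y}) hwG
      (IntermediateField.subset_adjoin _ _ (by simp))
      (IntermediateField.subset_adjoin _ _ (by simp))
    intro i
    fin_cases i
    · exact hle _ h1
    · exact hle _ h2

end mem

end Vale.Agent.P297.H212.Z
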