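import Vale.Agent.P297.H212.Tab

/-!
The discriminant of the quartic equation.
-/

set_option linter.unusedSimpArgs false

namespace Vale.Agent.P297.H212

open Vale.Agent.P297.H160

/-- table -/
def tP1 : List (List Co) :=
   [[(-1, 0, -3), (-29, 8, 9), (75, 31, -40), (-28, -80, 34), (10, 10, 3)],
    [(-5, 1, 4), (0, 36, -30), (-65, -27, 13), (58, 38, -28), (-13, -13, 8)]]

/-- table -/
def tBet : List (List Co) :=
   [[(0, 0, 0), (0, -4, 8), (5, 2, -3)],
    [(0, 0, 0), (10, -30, 20), (2, 4, 12)],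
    [(1, 0, 0), (30, -64, 58), (-3, -7, 9)],
    [(0, -4, 2), (42, -86, 76), (0, -4, 2)],
    [(-3, -7, 9), (30, -64, 58), (1, 0, 0)],
    [(2, 4, 12), (10, -30, 20), (0, 0, 0)],
    [(5, 2, -3), (0, -4, 8), (0, 0, 0)]]

section

variable {A : Type*} [CommRing A]

variable (c q x x' y y' : A) (f : ℕ → A) (k : ℕ) (st : List A)

theorem bP1 : (rg c q f k).bih 4 tP1 x 1 y 1 = Vale.Agent.P297.H600.pp1 c x y := by
  simp only [Al.bih, Al.dot, Al.lin, Al.monos, Al.powers, rg, tP1, List.map, List.zipWith,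
    List.length, List.reverse, List.reverseAux, zero_add, Nat.reduceAdd, Nat.reduceSub, Vale.Agent.P297.H600.pp1]
  push_cast
  ring

theorem bBet : (rg c q f k).bih 2 tBet x 1 y 1 = Vale.Agent.P297.H600.bet c x y := by
  simp only [Al.bih, Al.dot, Al.lin, Al.monos, Al.powers, rg, tBet, List.map, List.zipWith,
    List.length, List.reverse, List.reverseAux, zero_add, Nat.reduceAdd, Nat.reduceSub, Vale.Agent.P297.H600.bet]
  push_cast
  ring

theorem bPP : (rg c q f k).bih 6 tP x 1 y 1 = Vale.Agent.P297.H600.pp0 c x y := by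
  simp only [Al.bih, Al.dot, Al.lin, Al.monos, Al.powers, rg, tP, List.map, List.zipWith,
    List.length, List.reverse, List.reverseAux, zero_add, Nat.reduceAdd, Nat.reduceSub, Vale.Agent.P297.H600.pp0]
  push_cast
  ring

theorem bHH : (rg c q f k).bih 3 tH x 1 y 1 = Vale.Agent.P297.H600.hh c x y := by
  simp only [Al.bih, Al.dot, Al.lin, Al.monos, Al.powers, rg, tH, List.map, List.zipWith,
    List.length, List.reverse, List.reverseAux, zero_add, Nat.reduceAdd, Nat.reduceSub, Vale.Agent.P297.H600.hh]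
  push_cast
  ring

end

variable {A : Type*} [CommRing A]

/-- program -/
def progE : List Ex :=
  [.sub (.sub (.pow (.app 6 tP (.v 0) k1 (.v 1) k1) 2)
    (.mul (.app 6 tGam (.v 0) k1 (.v 1) k1) (.pow (.app 3 tH (.v 0) k1 (.v 1) k1) 2)))
    (.mul (.mul (.k 4 0 0) (.pow (.app 4 tP1 (.v 0) k1 (.v 1) k1) 2))
      (.app 2 tBet (.v 0) k1 (.v 1) k1))]

theorem checkE : check (.k 0 0 0) (.k 0 0 0) progE [40, 600] = true := by
  decide +kernel

theorem disc_id {c : A} (hc : c ^ 3 = c ^ 2 - 1) (m r : A) :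
    Vale.Agent.P297.H600.pp0 c m r ^ 2 -
      Vale.Agent.P297.H600.gam c m r * Vale.Agent.P297.H600.hh c m r ^ 2 =
      4 * Vale.Agent.P297.H600.pp1 c m r ^ 2 * Vale.Agent.P297.H600.bet c m r := by
  obtain ⟨l, hl⟩ := check0 checkE (two m r) hc
  simp only [progE, List.length, zero_add, Nat.reduceAdd, run_cons, run_nil, ev_app, ev_add,
    ev_sub, ev_mul, ev_pow, ev_k1, ev_v0, ev_v1, ev_r0, ev_r1, ev_r2, ev_r3, ev_k, bP1, bBet,
    bPP, bHH, bGam, List.cons.injEq] at hl
  have h := hl.1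
  push_cast at h
  linear_combination h

end Vale.Agent.P297.H212
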