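import Vale.Agent.P297.H212.Side
import Vale.Agent.P297.H212.Disc
import Vale.Agent.P297.H600.Quartic

/-!
Assembly: a field generated by `m`, `r`, `θ` with the quartic equation of the Craighero-Gattazzo
surface has the property that all points on its proper models are rationally equivalent.
-/

set_option linter.unusedSectionVars false

open IntermediateField

namespace Vale.Agent.P297.H212

open Vale.Agent.P297 Vale.Agent.P297.H600 Vale.Agent.P297.H839 Vale.Agent.P297.H109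

/-- a square root of a polynomial in the fraction field is a polynomial -/
theorem sqrt_poly (p : MvPolynomial (Fin 2) ℂ) (x : FractionRing (MvPolynomial (Fin 2) ℂ))
    (h : x ^ 2 = algebraMap (MvPolynomial (Fin 2) ℂ) _ p) :
    ∃ q : MvPolynomial (Fin 2) ℂ, q ^ 2 = p := by
  have h1 : IsIntegral (MvPolynomial (Fin 2) ℂ) x := by
    refine IsIntegral.of_pow two_pos ?_
    rw [h]
    exact isIntegral_algebraMap
  obtain ⟨q, hq⟩ := IsIntegrallyClosed.isIntegral_iff.1 h1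
  refine ⟨q, ?_⟩
  apply IsFractionRing.injective (MvPolynomial (Fin 2) ℂ) (FractionRing (MvPolynomial (Fin 2) ℂ))
  rw [map_pow, hq, h]

/-- a quadratic polynomial with nonzero discriminant is not a square -/
theorem quad_not_sq (a b d : ℂ) (ha : a ≠ 0) (hD : b ^ 2 - 4 * a * d ≠ 0) (P : Polynomial ℂ) :
    P ^ 2 ≠ Polynomial.C a * Polynomial.X ^ 2 + Polynomial.C b * Polynomial.X +
      Polynomial.C d := by
  intro h
  obtain ⟨δ, hδ⟩ := IsAlgClosed.exists_pow_nat_eq (b ^ 2 - 4 * a * d) (n := 2) two_pos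
  have h2a : 2 * a ≠ 0 := mul_ne_zero two_ne_zero ha
  obtain ⟨x, hx⟩ : ∃ x : ℂ, x = (-b + δ) / (2 * a) := ⟨_, rfl⟩
  have hx2 : 2 * a * x = -b + δ := by
    rw [hx, mul_div_cancel₀ _ h2a]
  have h4 : 4 * a * (a * x ^ 2 + b * x + d) = 0 := by
    linear_combination (2 * a * x + b + δ) * hx2 + hδ
  have h5 : a * x ^ 2 + b * x + d = 0 :=
    (mul_eq_zero.1 h4).resolve_left (mul_ne_zero (by norm_num) ha)
  have h6 := congrArg (Polynomial.eval x) h
  simp only [Polynomial.eval_pow, Polynomial.eval_add, Polynomial.eval_mul, Polynomial.eval_C,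
    Polynomial.eval_X] at h6
  rw [h5] at h6
  have h7 : Polynomial.eval x P = 0 := pow_eq_zero_iff two_ne_zero |>.1 h6
  have h8 := congrArg (fun p => Polynomial.eval x (Polynomial.derivative p)) h
  simp only [Polynomial.derivative_pow, Polynomial.derivative_add, Polynomial.derivative_mul,
    Polynomial.derivative_C, Polynomial.derivative_X, Polynomial.eval_add, Polynomial.eval_mul,
    Polynomial.eval_C, Polynomial.eval_X, Polynomial.eval_pow, h7] at h8
  have h9 : 2 * a * x + b = 0 := by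
    simp at h8
    linear_combination -h8
  apply hD
  rw [← hδ]
  have h10 : δ = 0 := by linear_combination h9 - hx2
  rw [h10]
  ring

/-- `γ` is not the square of a polynomial -/
theorem gam_not_sq_poly {c : ℂ} (hc : c ^ 3 - c ^ 2 + 1 = 0) (q : MvPolynomial (Fin 2) ℂ) :
    q ^ 2 ≠ gam (MvPolynomial.C c) (MvPolynomial.X 0) (MvPolynomial.X 1) := by
  intro h
  have hA : -69 + 31 * c + 29 * c ^ 2 ≠ 0 := by
    convert lin_ne hc (-69) 31 29 (by norm_num) using 1
    push_cast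
    ring
  have hD : (6 - 98 * c + 138 * c ^ 2) ^ 2 - 4 * (-69 + 31 * c + 29 * c ^ 2) *
      (-69 + 31 * c + 29 * c ^ 2) ≠ 0 := by
    convert lin_ne hc (-448) 256 4864 (by norm_num) using 1
    push_cast
    linear_combination (15680 * c - 18560) * hc
  obtain ⟨P, hP⟩ : ∃ P : Polynomial ℂ, P = MvPolynomial.aeval ![1, Polynomial.X] q := ⟨_, rfl⟩
  refine quad_not_sq _ _ _ hA hD P ?_
  have h2 := congrArg ((MvPolynomial.aeval ![1, Polynomial.X] :
    MvPolynomial (Fin 2) ℂ →ₐ[ℂ] Polynomial ℂ) :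
    MvPolynomial (Fin 2) ℂ →+* Polynomial ℂ) h
  rw [map_gam, map_pow] at h2
  have h3 : ((MvPolynomial.aeval ![1, Polynomial.X] :
    MvPolynomial (Fin 2) ℂ →ₐ[ℂ] Polynomial ℂ) :
    MvPolynomial (Fin 2) ℂ →+* Polynomial ℂ) q = P := hP.symm
  rw [h3] at h2
  rw [h2]
  simp only [RingHom.coe_coe, MvPolynomial.aeval_X]
  simp [gam, map_ofNat]
  ring

section

variable {K : Type} [Field K] [Algebra ℂ K]

/-- `h² / γ` is not a square in `ℂ(m, r)` -/
theorem not_sq {c : ℂ} (hc : c ^ 3 - c ^ 2 + 1 = 0) {m r : K}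
    (hmr : AlgebraicIndependent ℂ ![m, r]) (L : IntermediateField ℂ K)
    (hL : L = IntermediateField.adjoin ℂ (Set.range ![m, r])) (a : L)
    (ha : gam (algebraMap ℂ K c) m r * (a : K) ^ 2 = hh (algebraMap ℂ K c) m r ^ 2) : False := by
  obtain ⟨e, he⟩ := exists_fraction_equiv ![m, r] hmr L hL
  let R := MvPolynomial (Fin 2) ℂ
  let F := FractionRing R
  let Ψ : F →+* K := (algebraMap L K).comp (e : F →+* L)
  have hΨC : Ψ (algebraMap R F (MvPolynomial.C c)) = algebraMap ℂ K c := by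
    change ((e (algebraMap R F (MvPolynomial.C c)) : L) : K) = algebraMap ℂ K c
    have h1 : algebraMap R F (MvPolynomial.C c) = algebraMap ℂ F c := by
      rw [IsScalarTower.algebraMap_apply ℂ R F, MvPolynomial.algebraMap_eq]
    rw [h1, e.commutes]
    rfl
  have hΨ0 : Ψ (algebraMap R F (MvPolynomial.X 0)) = m := he 0
  have hΨ1 : Ψ (algebraMap R F (MvPolynomial.X 1)) = r := he 1
  have hg : Ψ (algebraMap R F (gam (MvPolynomial.C c) (MvPolynomial.X 0) (MvPolynomial.X 1))) =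
      gam (algebraMap ℂ K c) m r := by
    rw [map_gam, map_gam, hΨC, hΨ0, hΨ1]
  have hh' : Ψ (algebraMap R F (hh (MvPolynomial.C c) (MvPolynomial.X 0) (MvPolynomial.X 1))) =
      hh (algebraMap ℂ K c) m r := by
    rw [map_hh, map_hh, hΨC, hΨ0, hΨ1]
  have ha' : Ψ (e.symm a) = a := by
    change ((e (e.symm a) : L) : K) = a
    rw [e.apply_symm_apply]
  have hgam := gam_ne (c := c) hmr
  have hhh := hh_ne (c := c) hmr
  have ha0 : (a : K) ≠ 0 := by
    intro h0
    apply hhh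
    rw [h0] at ha
    exact pow_eq_zero_iff two_ne_zero |>.1 (by rw [← ha]; ring)
  have hsq : (algebraMap R F (hh (MvPolynomial.C c) (MvPolynomial.X 0) (MvPolynomial.X 1)) /
      e.symm a) ^ 2 =
      algebraMap R F (gam (MvPolynomial.C c) (MvPolynomial.X 0) (MvPolynomial.X 1)) := by
    apply Ψ.injective
    rw [map_pow, map_div₀, hh', ha', hg, div_pow, ← ha]
    field_simp
  obtain ⟨q, hq⟩ := sqrt_poly _ _ hsq
  exact gam_not_sq_poly hc q hq

end

section

variable {A : Type*} [CommRing A]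

/-- constant coefficient of `β` in `m` -/
def be0 (c r : A) : A :=
  (1) * r ^ 2 + (-4 * c + 2 * c ^ 2) * r ^ 3 + (-3 - 7 * c + 9 * c ^ 2) * r ^ 4 +
    (2 + 4 * c + 12 * c ^ 2) * r ^ 5 + (5 + 2 * c - 3 * c ^ 2) * r ^ 6

/-- linear coefficient of `β` in `m` -/
def be1 (c r : A) : A :=
  (-4 * c + 8 * c ^ 2) + (10 - 30 * c + 20 * c ^ 2) * r + (30 - 64 * c + 58 * c ^ 2) * r ^ 2 +
    (42 - 86 * c + 76 * c ^ 2) * r ^ 3 + (30 - 64 * c + 58 * c ^ 2) * r ^ 4 +
    (10 - 30 * c + 20 * c ^ 2) * r ^ 5 + (-4 * c + 8 * c ^ 2) * r ^ 6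

/-- quadratic coefficient of `β` in `m` -/
def be2 (c r : A) : A :=
  (5 + 2 * c - 3 * c ^ 2) + (2 + 4 * c + 12 * c ^ 2) * r + (-3 - 7 * c + 9 * c ^ 2) * r ^ 2 +
    (-4 * c + 2 * c ^ 2) * r ^ 3 + (1) * r ^ 4

end

section

variable {A B : Type*} [CommRing A] [CommRing B] (φ : A →+* B) (c m r : A)

theorem bet_eq : bet c m r = be2 c r * m ^ 2 + be1 c r * m + be0 c r := by
  unfold bet be0 be1 be2
  ring

theorem map_be0 : φ (be0 c r) = be0 (φ c) (φ r) := by simp [map_ofNat, be0]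
theorem map_be1 : φ (be1 c r) = be1 (φ c) (φ r) := by simp [map_ofNat, be1]
theorem map_be2 : φ (be2 c r) = be2 (φ c) (φ r) := by simp [map_ofNat, be2]
theorem map_pp1 : φ (pp1 c m r) = pp1 (φ c) (φ m) (φ r) := by simp [map_ofNat, pp1]

end

section

variable {K : Type} [Field K] [Algebra ℂ K]

theorem be_disc_ne {c : ℂ} (hc : c ^ 3 - c ^ 2 + 1 = 0) {m r : K}
    (hmr : AlgebraicIndependent ℂ ![m, r]) :
    be1 (algebraMap ℂ K c) r ^ 2 - 4 * be2 (algebraMap ℂ K c) r * be0 (algebraMap ℂ K c) r ≠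
      0 := by
  refine nz2 hmr (be1 (MvPolynomial.C c) (MvPolynomial.X 1) ^ 2 -
    4 * be2 (MvPolynomial.C c) (MvPolynomial.X 1) * be0 (MvPolynomial.C c) (MvPolynomial.X 1)) 0 1
    (w0 := be1 c 1 ^ 2 - 4 * be2 c 1 * be0 c 1)
    (by simp only [map_sub, map_mul, map_pow, map_ofNat, map_be0, map_be1, map_be2]; simp)
    (by simp only [map_sub, map_mul, map_pow, map_ofNat, map_be0, map_be1, map_be2]; simp) ?_
  convert lin_ne hc 93952 (-128512) 59968 (by norm_num) using 1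
  unfold be0 be1 be2
  push_cast
  linear_combination (59904 * c - 79168) * hc

theorem pp1_ne {c : ℂ} (hc : c ^ 3 - c ^ 2 + 1 = 0) {m r : K}
    (hmr : AlgebraicIndependent ℂ ![m, r]) : pp1 (algebraMap ℂ K c) m r ≠ 0 := by
  refine nz2 hmr (pp1 (MvPolynomial.C c) (MvPolynomial.X 0) (MvPolynomial.X 1)) 0 0
    (w0 := pp1 c 0 0) (by rw [map_pp1]; simp) (by rw [map_pp1]; simp) ?_
  convert lin_ne hc (-1) 0 (-3) (by norm_num) using 1
  unfold pp1
  push_cast
  ring

theorem be0_mem (F : IntermediateField ℂ K) (c : ℂ) {r : K} (hr : r ∈ F) :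
    be0 (algebraMap ℂ K c) r ∈ F :=
  mem_of_map F _ (map_be0 (algebraMap F K) (algebraMap ℂ F c) ⟨r, hr⟩)

theorem be1_mem (F : IntermediateField ℂ K) (c : ℂ) {r : K} (hr : r ∈ F) :
    be1 (algebraMap ℂ K c) r ∈ F :=
  mem_of_map F _ (map_be1 (algebraMap F K) (algebraMap ℂ F c) ⟨r, hr⟩)

theorem be2_mem (F : IntermediateField ℂ K) (c : ℂ) {r : K} (hr : r ∈ F) :
    be2 (algebraMap ℂ K c) r ∈ F :=
  mem_of_map F _ (map_be2 (algebraMap F K) (algebraMap ℂ F c) ⟨r, hr⟩)

theorem pp1_mem (F : IntermediateField ℂ K) (c : ℂ) {m r : K} (hm : m ∈ F) (hr : r ∈ F) :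
    pp1 (algebraMap ℂ K c) m r ∈ F :=
  mem_of_map F _ (map_pp1 (algebraMap F K) (algebraMap ℂ F c) ⟨m, hm⟩ ⟨r, hr⟩)

/-- The field generated over `ℂ(m, r)` by `θ²` is rational. -/
theorem sq_rational {c : ℂ} (hc : c ^ 3 - c ^ 2 + 1 = 0) (m r θ : K)
    (hmr : AlgebraicIndependent ℂ ![m, r])
    (hθ : gam (algebraMap ℂ K c) m r * θ ^ 4 - 2 * pp0 (algebraMap ℂ K c) m r * θ ^ 2 +
      hh (algebraMap ℂ K c) m r ^ 2 = 0) :
    IsRational (IntermediateField.adjoin ℂ {m, r} ⊔ IntermediateField.adjoin ℂ {θ ^ 2} :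
      IntermediateField ℂ K) := by
  have hgam := gam_ne (c := c) hmr
  have hp1 := pp1_ne hc hmr
  have hC := map_rel (T := K) hc
  have htwo : (2 : K) ≠ 0 := by
    have : algebraMap ℂ K 2 ≠ 0 := by
      rw [Ne, FaithfulSMul.algebraMap_eq_zero_iff]
      exact two_ne_zero
    simpa [map_ofNat] using this
  have hdisc := disc_id hC m r
  have hmG : m ∈ IntermediateField.adjoin ℂ {m, r} :=
    IntermediateField.subset_adjoin _ _ (by simp)
  have hrG : r ∈ IntermediateField.adjoin ℂ {m, r} :=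
    IntermediateField.subset_adjoin _ _ (by simp)
  have hpp1G : pp1 (algebraMap ℂ K c) m r ∈ IntermediateField.adjoin ℂ {m, r} :=
    pp1_mem _ c hmG hrG
  obtain ⟨z, hz⟩ : ∃ z : K, z = (gam (algebraMap ℂ K c) m r * θ ^ 2 -
    pp0 (algebraMap ℂ K c) m r) / (2 * pp1 (algebraMap ℂ K c) m r) := ⟨_, rfl⟩
  have hzm : z * (2 * pp1 (algebraMap ℂ K c) m r) = gam (algebraMap ℂ K c) m r * θ ^ 2 -
      pp0 (algebraMap ℂ K c) m r := by
    rw [hz, div_mul_cancel₀ _ (mul_ne_zero htwo hp1)]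
  have hz2 : z ^ 2 = bet (algebraMap ℂ K c) m r := by
    apply mul_right_cancel₀ (pow_ne_zero 2 (mul_ne_zero htwo hp1))
    rw [← mul_pow, hzm]
    linear_combination gam (algebraMap ℂ K c) m r * hθ + hdisc
  have hconic : IsConicType (IntermediateField.adjoin ℂ {r, m}) z := by
    have hrr := IntermediateField.mem_adjoin_simple_self ℂ r
    refine ⟨r, m, be2 (algebraMap ℂ K c) r, be1 (algebraMap ℂ K c) r, be0 (algebraMap ℂ K c) r, 1,
      indep_swap hmr, rfl, ?_, ?_, ?_, be_disc_ne hc hmr, one_mem _, one_ne_zero, ?_⟩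
    · exact be2_mem _ c hrr
    · exact be1_mem _ c hrr
    · exact be0_mem _ c hrr
    · rw [one_mul, hz2, bet_eq]
  have hrat := conic_rational hconic
  have hEq : (IntermediateField.adjoin ℂ {m, r} ⊔ IntermediateField.adjoin ℂ {θ ^ 2} :
      IntermediateField ℂ K) =
      IntermediateField.adjoin ℂ {r, m} ⊔ IntermediateField.adjoin ℂ {z} := by
    rw [Set.pair_comm r m]
    apply le_antisymm
    · refine sup_adjoin_le le_sup_left ?_
      have h1 : θ ^ 2 = (z * (2 * pp1 (algebraMap ℂ K c) m r) + pp0 (algebraMap ℂ K c) m r) /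
          gam (algebraMap ℂ K c) m r := by
        rw [eq_div_iff hgam, hzm]
        ring
      rw [h1]
      exact div_mem (add_mem (mul_mem (mem_sup_adjoin _ _) (mul_mem (ofNat_mem _ 2)
        ((le_sup_left : IntermediateField.adjoin ℂ {m, r} ≤ _) hpp1G)))
        ((le_sup_left : IntermediateField.adjoin ℂ {m, r} ≤ _) (pp0_mem _ c hmG hrG)))
        ((le_sup_left : IntermediateField.adjoin ℂ {m, r} ≤ _) (gam_mem _ c hmG hrG))
    · refine sup_adjoin_le le_sup_left ?_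
      rw [hz]
      exact div_mem (sub_mem (mul_mem
        ((le_sup_left : IntermediateField.adjoin ℂ {m, r} ≤ _) (gam_mem _ c hmG hrG))
        (mem_sup_adjoin _ _))
        ((le_sup_left : IntermediateField.adjoin ℂ {m, r} ≤ _) (pp0_mem _ c hmG hrG)))
        (mul_mem (ofNat_mem _ 2)
          ((le_sup_left : IntermediateField.adjoin ℂ {m, r} ≤ _) hpp1G))
  rw [hEq]
  exact hrat

/-- **Assembly.** -/
theorem cg_points {c : ℂ} (hc : c ^ 3 - c ^ 2 + 1 = 0) (m r θ : K)
    (hmr : AlgebraicIndependent ℂ ![m, r])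
    (hθ : gam (algebraMap ℂ K c) m r * θ ^ 4 - 2 * pp0 (algebraMap ℂ K c) m r * θ ^ 2 +
      hh (algebraMap ℂ K c) m r ^ 2 = 0)
    (htop : (IntermediateField.adjoin ℂ {m, r} ⊔ IntermediateField.adjoin ℂ {θ} :
      IntermediateField ℂ K) = ⊤) : PointsEquivalent K := by
  obtain ⟨T, _, _, m', r', ζ, hmr', hζ, hrat⟩ := twin_side c hc
  obtain ⟨φ, hφ, hφr⟩ := exists_hom_of_indep ![m, r] hmr ![m', r'] hmr'
  rw [range_pair m' r'] at hφr
  have hgam := gam_ne (c := c) hmr
  obtain ⟨L, hLdef⟩ : ∃ L : IntermediateField ℂ K,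
    L = IntermediateField.adjoin ℂ (Set.range ![m, r]) := ⟨_, rfl⟩
  subst hLdef
  let m0 : IntermediateField.adjoin ℂ (Set.range ![m, r]) :=
    ⟨m, IntermediateField.subset_adjoin _ _ ⟨0, rfl⟩⟩
  let r0 : IntermediateField.adjoin ℂ (Set.range ![m, r]) :=
    ⟨r, IntermediateField.subset_adjoin _ _ ⟨1, rfl⟩⟩
  have hm0 : φ m0 = m' := hφ 0
  have hr0 : φ r0 = r' := hφ 1
  let C0 := algebraMap ℂ (IntermediateField.adjoin ℂ (Set.range ![m, r])) c
  have hC0 : φ C0 = algebraMap ℂ T c := φ.commutes c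
  have hg1 : φ (gam C0 m0 r0) = gam (algebraMap ℂ T c) m' r' := by
    have := map_gam (φ : _ →+* T) C0 m0 r0
    simp only [RingHom.coe_coe] at this
    rw [this, hC0, hm0, hr0]
  have hp1 : φ (pp0 C0 m0 r0) = pp0 (algebraMap ℂ T c) m' r' := by
    have := map_pp0 (φ : _ →+* T) C0 m0 r0
    simp only [RingHom.coe_coe] at this
    rw [this, hC0, hm0, hr0]
  have hh1 : φ (hh C0 m0 r0) = hh (algebraMap ℂ T c) m' r' := by
    have := map_hh (φ : _ →+* T) C0 m0 r0
    simp only [RingHom.coe_coe] at this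
    rw [this, hC0, hm0, hr0]
  have hg2 : ((gam C0 m0 r0 : IntermediateField.adjoin ℂ (Set.range ![m, r])) : K) =
      gam (algebraMap ℂ K c) m r :=
    map_gam (algebraMap _ K) C0 m0 r0
  have hp2 : ((pp0 C0 m0 r0 : IntermediateField.adjoin ℂ (Set.range ![m, r])) : K) =
      pp0 (algebraMap ℂ K c) m r :=
    map_pp0 (algebraMap _ K) C0 m0 r0
  have hh2 : ((hh C0 m0 r0 : IntermediateField.adjoin ℂ (Set.range ![m, r])) : K) =
      hh (algebraMap ℂ K c) m r :=
    map_hh (algebraMap _ K) C0 m0 r0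
  refine quartic_twin (IntermediateField.adjoin ℂ (Set.range ![m, r]))
    (pp0 C0 m0 r0 / gam C0 m0 r0) (hh C0 m0 r0 ^ 2 / gam C0 m0 r0) θ φ ζ ?_ ?_ ?_ ?_ ?_ ?_
  · push_cast
    rw [hg2, hp2, hh2]
    field_simp
    linear_combination hθ
  · rw [range_pair]
    exact htop
  · rw [map_div₀, map_div₀, map_pow, hg1, hp1, hh1]
    exact hζ
  · intro a ha
    refine not_sq hc hmr _ rfl a ?_
    have h1 := congrArg (algebraMap (IntermediateField.adjoin ℂ (Set.range ![m, r])) K) ha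
    rw [map_pow, map_div₀, map_pow] at h1
    change (a : K) ^ 2 = ((hh C0 m0 r0 : IntermediateField.adjoin ℂ (Set.range ![m, r])) : K) ^ 2 /
      ((gam C0 m0 r0 : IntermediateField.adjoin ℂ (Set.range ![m, r])) : K) at h1
    rw [hg2, hh2] at h1
    rw [h1]
    field_simp
  · rw [hφr]
    exact hrat
  · rw [range_pair]
    exact sq_rational hc m r θ hmr hθ

end

end Vale.Agent.P297.H212
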