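import Vale.Agent.P297.H572.Data

/-! The generic member of the family satisfies the nonvanishing conditions. -/

set_option linter.unusedSimpArgs false

namespace Vale.Agent.P297.H212

open Vale.Agent.P297.H424 Vale.Agent.P297.H572 Polynomial Vale.Agent.P297.H160

theorem step1 {M : Type*} {o : Bo M} {st L : List M} {e : E1} {es : List E1}
    (h : run o st (e :: es) = L) : ∃ r, ev o st e = r ∧ run o (r :: st) es = L :=
  ⟨_, rfl, by rwa [run_cons] at h⟩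

/-- A straight-line program in one variable whose last register is not zero at some integer modulo
`p` is not zero at all but finitely many complex numbers. -/
theorem prog_fin (es : List E1) (p : ℕ) (hp : 0 < p) (s0 : ℕ)
    (h : Nat.beq (nth (boM p [s0]) (run (boM p [s0]) [] es) 0 % p) 0 = false) :
    ∃ S : Finset ℂ, ∀ s ∉ S, nth (rg [s]) (run (rg [s]) [] es) 0 ≠ 0 := by
  obtain ⟨P, hP⟩ : ∃ P, P = nth (rg [(X : ℤ[X])]) (run (rg [(X : ℤ[X])]) [] es) 0 := ⟨_, rfl⟩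
  have e1 := rel_nth (rel_mod p hp [s0]) (rel_run (rel_mod p hp [s0]) es .nil) 0
  have e2 : ∀ {B : Type} [CommRing B] (f : ℤ[X] →+* B),
      f P = nth (rg [f X]) (run (rg [f X]) [] es) 0 := by
    intro B _ f
    have := rel_nth (rel_hom f [(X : ℤ[X])]) (rel_run (rel_hom f [(X : ℤ[X])]) es .nil) 0
    rw [← hP] at this
    exact this
  have hP0 : P ≠ 0 := by
    intro h0
    have e3 := e2 (eval₂RingHom (Int.castRingHom (ZMod p)) (s0 : ZMod p))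
    rw [h0, map_zero] at e3
    have e4 : (eval₂RingHom (Int.castRingHom (ZMod p)) (s0 : ZMod p)) X = (s0 : ZMod p) := by simp
    rw [e4] at e3
    have e5 : [(s0 : ZMod p)] = [s0].map (Nat.cast : ℕ → ZMod p) := rfl
    rw [e5, ← e1] at e3
    have e6 : ((nth (boM p [s0]) (run (boM p [s0]) [] es) 0 : ℕ) : ZMod p) = 0 := e3.symm
    rw [ZMod.natCast_eq_zero_iff, Nat.dvd_iff_mod_eq_zero] at e6
    rw [e6] at h
    simp at h
  have hm : P.map (Int.castRingHom ℂ) ≠ 0 := by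
    intro h0
    apply hP0
    have hinj : Function.Injective (Int.castRingHom ℂ) := RingHom.injective_int _
    exact (Polynomial.map_injective _ hinj) (by rw [h0, Polynomial.map_zero])
  refine ⟨(P.map (Int.castRingHom ℂ)).roots.toFinset, fun s hs h0 => hs ?_⟩
  rw [Multiset.mem_toFinset, mem_roots hm, IsRoot.def, eval_map]
  have e3 := e2 (eval₂RingHom (Int.castRingHom ℂ) s)
  have e4 : (eval₂RingHom (Int.castRingHom ℂ) s) X = s := by simp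
  rw [e4, h0] at e3
  exact e3

/-- A criterion for `Generic` without division. -/
theorem generic_of (D : Data) {κ : ℂ} (hκ : κ ≠ 0) {A0 A1 : Fin 3 → ℂ}
    (hA0 : ∀ i, κ * D.A0 i = A0 i) (hA1 : ∀ i, κ * D.A1 i = A1 i) {u0 ρ0 l0 a V : ℂ}
    (hu : u0 ≠ 0) (hdet : D.det u0 ≠ 0) (he : pv D.e u0 ≠ 0) (hB : D.discB u0 ≠ 0)
    (hdel : D.del u0 ρ0 0 1 ≠ 0) (hff : D.ff u0 ρ0 0 ≠ 0)
    (hb : pv (fun j => D.b 1 j) ρ0 ^ 2 -
      4 * pv (fun j => D.b 2 j) ρ0 * pv (fun j => D.b 0 j) ρ0 ≠ 0)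
    (ha : a = D.a2 (D.xv u0 l0)) (hV : V = -(D.a1 (D.xv u0 l0)) - u0 * a) (ha2 : a ≠ 0)
    (hm : a * D.al (D.xv u0 l0) 0 + V * D.be (D.xv u0 l0) 0 ≠ 0)
    (Q : Matrix (Fin 3) (Fin 3) ℂ) (hQ : ∀ i j, Q i j = a * D.M0 i j + V * D.M1 i j)
    (hdetv : Q.det ≠ 0) (W : Fin 3 → ℂ)
    (hW : ∀ k, W k = ∑ j, (a * A0 j + V * A1 j) * Q.adjugate j k)
    (hwv : W 1 ^ 2 - W 0 * W 2 ≠ 0) : D.Generic u0 ρ0 l0 (V / a) := by
  have hav : a * (V / a) = V := by field_simp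
  have hmat : Q = a • D.mat (V / a) := by
    ext i j
    rw [hQ, Matrix.smul_apply, Net.mat, smul_eq_mul]
    change _ = a * (D.M0 i j + V / a * D.M1 i j)
    field_simp
  have hadj : Q.adjugate = a ^ 2 • (D.mat (V / a)).adjugate := by
    rw [hmat, Matrix.adjugate_smul]
    rfl
  have hW' : ∀ k, W k = κ * a ^ 3 * wv D.toNet D.A0 D.A1 (V / a) k := by
    intro k
    rw [hW k, hadj, wv, Finset.mul_sum]
    refine Finset.sum_congr rfl fun j _ => ?_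
    rw [Matrix.smul_apply, smul_eq_mul, ← hA0, ← hA1]
    change _ = κ * a ^ 3 * ((D.A0 j + V / a * D.A1 j) * _)
    field_simp
  refine ⟨hu, hdet, he, hB, hdel, hff, hb, ?_, ?_, ?_, ?_, ?_⟩
  · rw [← ha]; exact ha2
  · rw [← ha, hav, hV]
  · intro h
    apply hm
    have : a * D.al (D.xv u0 l0) 0 + V * D.be (D.xv u0 l0) 0 =
        a * (D.al (D.xv u0 l0) 0 + V / a * D.be (D.xv u0 l0) 0) := by
      field_simp
    rw [this, h, mul_zero]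
  · intro h
    apply hdetv
    rw [hmat, Matrix.det_smul]
    change a ^ _ * D.det (V / a) = 0
    rw [h, mul_zero]
  · intro h
    apply hwv
    rw [hW' 0, hW' 1, hW' 2]
    linear_combination κ ^ 2 * a ^ 6 * h

/-- the quantities that have to be nonzero; the last register is their product -/
def genP : List E1 := [
  /- p00 -/ .hor lq00 (.v 0),
  /- p01 -/ .hor lr00 (.v 0),
  /- p02 -/ .hor ls00 (.v 0),
  /- p10 -/ .k 0,
  /- p11 -/ .hor lr10 (.v 0),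
  /- p12 -/ .k 0,
  /- p20 -/ .hor lq20 (.v 0),
  /- p21 -/ .hor lr20 (.v 0),
  /- p22 -/ .hor ls20 (.v 0),
  /- n00 -/ .hor lq01 (.v 0),
  /- n01 -/ .hor lr01 (.v 0),
  /- n02 -/ .hor ls01 (.v 0),
  /- n10 -/ .hor lq11 (.v 0),
  /- n11 -/ .k 0,
  /- n12 -/ .hor ls11 (.v 0),
  /- n20 -/ .hor lq21 (.v 0),
  /- n21 -/ .hor lr21 (.v 0),
  /- n22 -/ .hor ls21 (.v 0),
  /- A00 -/ .hor tA00 (.v 0),
  /- A01 -/ .k 0,
  /- A02 -/ .hor tA02 (.v 0),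
  /- A10 -/ .k 0,
  /- A11 -/ .hor tA11 (.v 0),
  /- A12 -/ .k 0,
  /- kp -/ .hor lkap (.v 0),
  /- g00 -/ .add (.r 24) (.mul (.k 1) (.r 15)),
  /- g01 -/ .add (.r 24) (.mul (.k 1) (.r 15)),
  /- g02 -/ .add (.r 24) (.mul (.k 1) (.r 15)),
  /- g10 -/ .add (.r 24) (.mul (.k 1) (.r 15)),
  /- g11 -/ .add (.r 24) (.mul (.k 1) (.r 15)),
  /- g12 -/ .add (.r 24) (.mul (.k 1) (.r 15)),
  /- g20 -/ .add (.r 24) (.mul (.k 1) (.r 15)),
  /- g21 -/ .add (.r 24) (.mul (.k 1) (.r 15)),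
  /- g22 -/ .add (.r 24) (.mul (.k 1) (.r 15)),
  /- dt -/ .sub (.add (.add (.sub (.sub (.mul (.mul (.r 8) (.r 4)) (.r 0)) (.mul (.mul (.r 8) (.r
    3)) (.r 1))) (.mul (.mul (.r 7) (.r 5)) (.r 0))) (.mul (.mul (.r 7) (.r 3)) (.r 2))) (.mul
    (.mul (.r 6) (.r 5)) (.r 1))) (.mul (.mul (.r 6) (.r 4)) (.r 2)),
  /- ep -/ .add (.hor le0 (.v 0)) (.mul (.k 1) (.hor le2 (.v 0))),
  /- b0 -/ .sub (.add (.r 10) (.mul (.k 1) (.r 9))) (.mul (.k 1) (.r 8)),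
  /- b1 -/ .sub (.add (.r 8) (.mul (.k 1) (.r 7))) (.mul (.k 1) (.r 6)),
  /- b2 -/ .sub (.add (.r 6) (.mul (.k 1) (.r 5))) (.mul (.k 1) (.r 4)),
  /- dB -/ .sub (.pow (.r 1) 2) (.mul (.mul (.k 4) (.r 2)) (.r 0)),
  /- e0 -/ .sub (.mul (.k 2) (.r 14)) (.mul (.k 1) (.r 12)),
  /- e1 -/ .sub (.mul (.k 2) (.r 12)) (.mul (.k 1) (.r 10)),
  /- e2 -/ .sub (.mul (.k 2) (.r 10)) (.mul (.k 1) (.r 8)),
  /- dl -/ .sub (.mul (.r 6) (.r 1)) (.mul (.r 5) (.r 2)),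
  /- cv -/ .add (.add (.add (.add (.mul (.hor c01 (.v 0)) (.k 2)) (.mul (.hor c03 (.v 0)) (.k 8)))
    (.mul (.hor c10 (.v 0)) (.k 1))) (.mul (.hor c12 (.v 0)) (.k 4))) (.mul (.hor c21 (.v 0)) (.k
    2)),
  /- av -/ .add (.add (.add (.add (.add (.hor a00 (.v 0)) (.mul (.hor a02 (.v 0)) (.k 4))) (.mul
    (.hor a11 (.v 0)) (.k 2))) (.mul (.hor a20 (.v 0)) (.k 1))) (.mul (.hor a22 (.v 0)) (.k 4)))
    (.mul (.hor a31 (.v 0)) (.k 2)),
  /- ff -/ .sub (.mul (.r 1) (.r 9)) (.mul (.r 0) (.r 5)),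
  /- y0 -/ .add (.add (.add (.hor b00 (.v 0)) (.mul (.hor b02 (.v 0)) (.k 4))) (.mul (.hor b04 (.v
    0)) (.k 16))) (.mul (.hor b06 (.v 0)) (.k 64)),
  /- y1 -/ .add (.add (.mul (.hor b11 (.v 0)) (.k 2)) (.mul (.hor b13 (.v 0)) (.k 8))) (.mul (.hor
    b15 (.v 0)) (.k 32)),
  /- y2 -/ .add (.add (.hor b20 (.v 0)) (.mul (.hor b22 (.v 0)) (.k 4))) (.mul (.hor b24 (.v 0))
    (.k 16)),
  /- dy -/ .sub (.pow (.r 1) 2) (.mul (.mul (.k 4) (.r 0)) (.r 2)),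
  /- X0 -/ .add (.sub (.sub (.mul (.r 21) (.r 17)) (.mul (.r 20) (.r 18))) (.mul (.k 2) (.sub
    (.mul (.r 23) (.r 18)) (.mul (.r 24) (.r 17))))) (.mul (.k 1) (.sub (.mul (.r 24) (.r 20))
    (.mul (.r 23) (.r 21)))),
  /- X1 -/ .add (.sub (.sub (.mul (.r 21) (.r 20)) (.mul (.r 23) (.r 18))) (.mul (.k 2) (.sub
    (.mul (.r 26) (.r 18)) (.mul (.r 24) (.r 20))))) (.mul (.k 1) (.sub (.mul (.r 24) (.r 23))
    (.mul (.r 26) (.r 21)))),
  /- X2 -/ .add (.sub (.sub (.mul (.r 24) (.r 20)) (.mul (.r 23) (.r 21))) (.mul (.k 2) (.sub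
    (.mul (.r 26) (.r 21)) (.mul (.r 27) (.r 20))))) (.mul (.k 1) (.sub (.mul (.r 27) (.r 23))
    (.mul (.r 26) (.r 24)))),
  /- al0 -/ .add (.add (.mul (.r 53) (.r 2)) (.mul (.r 52) (.r 1))) (.mul (.r 51) (.r 0)),
  /- al1 -/ .add (.add (.mul (.r 51) (.r 3)) (.mul (.r 50) (.r 2))) (.mul (.r 49) (.r 1)),
  /- al2 -/ .add (.add (.mul (.r 49) (.r 4)) (.mul (.r 48) (.r 3))) (.mul (.r 47) (.r 2)),
  /- be0 -/ .add (.add (.mul (.r 47) (.r 5)) (.mul (.r 46) (.r 4))) (.mul (.r 45) (.r 3)),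
  /- be1 -/ .add (.add (.mul (.r 45) (.r 6)) (.mul (.r 44) (.r 5))) (.mul (.r 43) (.r 4)),
  /- be2 -/ .add (.add (.mul (.r 43) (.r 7)) (.mul (.r 42) (.r 6))) (.mul (.r 41) (.r 5)),
  /- a2 -/ .sub (.pow (.r 1) 2) (.mul (.mul (.k 4) (.r 2)) (.r 0)),
  /- a1 -/ .sub (.mul (.mul (.k 2) (.r 5)) (.r 2)) (.mul (.k 4) (.add (.mul (.r 6) (.r 1)) (.mul
    (.r 4) (.r 3)))),
  /- V -/ .sub (.sub (.k 0) (.r 0)) (.mul (.k 1) (.r 1)),
  /- hm -/ .add (.mul (.r 2) (.r 8)) (.mul (.r 0) (.r 5)),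
  /- q00 -/ .add (.mul (.r 3) (.r 63)) (.mul (.r 1) (.r 54)),
  /- q01 -/ .add (.mul (.r 4) (.r 63)) (.mul (.r 2) (.r 54)),
  /- q02 -/ .add (.mul (.r 5) (.r 63)) (.mul (.r 3) (.r 54)),
  /- q10 -/ .add (.mul (.r 6) (.r 63)) (.mul (.r 4) (.r 54)),
  /- q11 -/ .add (.mul (.r 7) (.r 63)) (.mul (.r 5) (.r 54)),
  /- q12 -/ .add (.mul (.r 8) (.r 63)) (.mul (.r 6) (.r 54)),
  /- q20 -/ .add (.mul (.r 9) (.r 63)) (.mul (.r 7) (.r 54)),
  /- q21 -/ .add (.mul (.r 10) (.r 63)) (.mul (.r 8) (.r 54)),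
  /- q22 -/ .add (.mul (.r 11) (.r 63)) (.mul (.r 9) (.r 54)),
  /- dv -/ .sub (.add (.add (.sub (.sub (.mul (.mul (.r 8) (.r 4)) (.r 0)) (.mul (.mul (.r 8) (.r
    3)) (.r 1))) (.mul (.mul (.r 7) (.r 5)) (.r 0))) (.mul (.mul (.r 7) (.r 3)) (.r 2))) (.mul
    (.mul (.r 6) (.r 5)) (.r 1))) (.mul (.mul (.r 6) (.r 4)) (.r 2)),
  /- h0 -/ .add (.mul (.r 13) (.r 55)) (.mul (.r 11) (.r 52)),
  /- h1 -/ .add (.mul (.r 14) (.r 55)) (.mul (.r 12) (.r 52)),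
  /- h2 -/ .add (.mul (.r 15) (.r 55)) (.mul (.r 13) (.r 52)),
  /- W0 -/ .add (.add (.mul (.r 2) (.sub (.mul (.r 8) (.r 4)) (.mul (.r 7) (.r 5)))) (.mul (.r 1)
    (.sub (.mul (.r 7) (.r 6)) (.mul (.r 9) (.r 4))))) (.mul (.r 0) (.sub (.mul (.r 9) (.r 5))
    (.mul (.r 8) (.r 6)))),
  /- W1 -/ .add (.add (.mul (.r 3) (.sub (.mul (.r 11) (.r 6)) (.mul (.r 12) (.r 5)))) (.mul (.r
    2) (.sub (.mul (.r 13) (.r 5)) (.mul (.r 11) (.r 7))))) (.mul (.r 1) (.sub (.mul (.r 12) (.r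
    7)) (.mul (.r 13) (.r 6)))),
  /- W2 -/ .add (.add (.mul (.r 4) (.sub (.mul (.r 13) (.r 9)) (.mul (.r 12) (.r 10)))) (.mul (.r
    3) (.sub (.mul (.r 12) (.r 11)) (.mul (.r 14) (.r 9))))) (.mul (.r 2) (.sub (.mul (.r 14) (.r
    10)) (.mul (.r 13) (.r 11)))),
  /- hw -/ .sub (.pow (.r 1) 2) (.mul (.r 2) (.r 0)),
  /- pr -/ .mul (.mul (.mul (.mul (.mul (.mul (.mul (.mul (.mul (.mul (.r 56) (.r 46)) (.r 45))
    (.r 41)) (.r 37)) (.r 34)) (.r 30)) (.r 20)) (.r 17)) (.r 7)) (.r 0)]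

theorem chkGen : Nat.beq (nth (boM 101 [2]) (run (boM 101 [2]) [] genP) 0 % 101) 0 = false := by
  decide +kernel

/-- All but finitely many members of the family satisfy the nonvanishing conditions. -/
theorem generic : ∃ S : Finset ℂ, ∀ s ∉ S, kap s ≠ 0 ∧
    ∃ u0 ρ0 l0 v0 : ℂ, (D s).Generic u0 ρ0 l0 v0 := by
  obtain ⟨S, hS⟩ := prog_fin genP 101 (by norm_num) 2 chkGen
  refine ⟨S, fun s hs => ?_⟩
  have hne := hS s hs
  obtain ⟨L, hL⟩ : ∃ L, run (rg [s]) [] genP = L := ⟨_, rfl⟩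
  rw [hL] at hne
  have h := hL
  unfold genP at h
  obtain ⟨p00, gp00, k⟩ := step1 h; clear h
  obtain ⟨p01, gp01, h⟩ := step1 k; clear k
  obtain ⟨p02, gp02, k⟩ := step1 h; clear h
  obtain ⟨p10, gp10, h⟩ := step1 k; clear k
  obtain ⟨p11, gp11, k⟩ := step1 h; clear h
  obtain ⟨p12, gp12, h⟩ := step1 k; clear k
  obtain ⟨p20, gp20, k⟩ := step1 h; clear h
  obtain ⟨p21, gp21, h⟩ := step1 k; clear k
  obtain ⟨p22, gp22, k⟩ := step1 h; clear h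
  obtain ⟨n00, gn00, h⟩ := step1 k; clear k
  obtain ⟨n01, gn01, k⟩ := step1 h; clear h
  obtain ⟨n02, gn02, h⟩ := step1 k; clear k
  obtain ⟨n10, gn10, k⟩ := step1 h; clear h
  obtain ⟨n11, gn11, h⟩ := step1 k; clear k
  obtain ⟨n12, gn12, k⟩ := step1 h; clear h
  obtain ⟨n20, gn20, h⟩ := step1 k; clear k
  obtain ⟨n21, gn21, k⟩ := step1 h; clear h
  obtain ⟨n22, gn22, h⟩ := step1 k; clear k
  obtain ⟨A00, gA00, k⟩ := step1 h; clear h
  obtain ⟨A01, gA01, h⟩ := step1 k; clear k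
  obtain ⟨A02, gA02, k⟩ := step1 h; clear h
  obtain ⟨A10, gA10, h⟩ := step1 k; clear k
  obtain ⟨A11, gA11, k⟩ := step1 h; clear h
  obtain ⟨A12, gA12, h⟩ := step1 k; clear k
  obtain ⟨kp, gkp, k⟩ := step1 h; clear h
  obtain ⟨g00, gg00, h⟩ := step1 k; clear k
  obtain ⟨g01, gg01, k⟩ := step1 h; clear h
  obtain ⟨g02, gg02, h⟩ := step1 k; clear k
  obtain ⟨g10, gg10, k⟩ := step1 h; clear h
  obtain ⟨g11, gg11, h⟩ := step1 k; clear k
  obtain ⟨g12, gg12, k⟩ := step1 h; clear h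
  obtain ⟨g20, gg20, h⟩ := step1 k; clear k
  obtain ⟨g21, gg21, k⟩ := step1 h; clear h
  obtain ⟨g22, gg22, h⟩ := step1 k; clear k
  obtain ⟨dt, gdt, k⟩ := step1 h; clear h
  obtain ⟨ep, gep, h⟩ := step1 k; clear k
  obtain ⟨b0, gb0, k⟩ := step1 h; clear h
  obtain ⟨b1, gb1, h⟩ := step1 k; clear k
  obtain ⟨b2, gb2, k⟩ := step1 h; clear h
  obtain ⟨dB, gdB, h⟩ := step1 k; clear k
  obtain ⟨e0, ge0, k⟩ := step1 h; clear h
  obtain ⟨e1, ge1, h⟩ := step1 k; clear k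
  obtain ⟨e2, ge2, k⟩ := step1 h; clear h
  obtain ⟨dl, gdl, h⟩ := step1 k; clear k
  obtain ⟨cv, gcv, k⟩ := step1 h; clear h
  obtain ⟨av, gav, h⟩ := step1 k; clear k
  obtain ⟨ff, gff, k⟩ := step1 h; clear h
  obtain ⟨y0, gy0, h⟩ := step1 k; clear k
  obtain ⟨y1, gy1, k⟩ := step1 h; clear h
  obtain ⟨y2, gy2, h⟩ := step1 k; clear k
  obtain ⟨dy, gdy, k⟩ := step1 h; clear h
  obtain ⟨X0, gX0, h⟩ := step1 k; clear k
  obtain ⟨X1, gX1, k⟩ := step1 h; clear h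
  obtain ⟨X2, gX2, h⟩ := step1 k; clear k
  obtain ⟨al0, gal0, k⟩ := step1 h; clear h
  obtain ⟨al1, gal1, h⟩ := step1 k; clear k
  obtain ⟨al2, gal2, k⟩ := step1 h; clear h
  obtain ⟨be0, gbe0, h⟩ := step1 k; clear k
  obtain ⟨be1, gbe1, k⟩ := step1 h; clear h
  obtain ⟨be2, gbe2, h⟩ := step1 k; clear k
  obtain ⟨a2, ga2, k⟩ := step1 h; clear h
  obtain ⟨a1, ga1, h⟩ := step1 k; clear k
  obtain ⟨V, gV, k⟩ := step1 h; clear h
  obtain ⟨hm, ghm, h⟩ := step1 k; clear k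
  obtain ⟨q00, gq00, k⟩ := step1 h; clear h
  obtain ⟨q01, gq01, h⟩ := step1 k; clear k
  obtain ⟨q02, gq02, k⟩ := step1 h; clear h
  obtain ⟨q10, gq10, h⟩ := step1 k; clear k
  obtain ⟨q11, gq11, k⟩ := step1 h; clear h
  obtain ⟨q12, gq12, h⟩ := step1 k; clear k
  obtain ⟨q20, gq20, k⟩ := step1 h; clear h
  obtain ⟨q21, gq21, h⟩ := step1 k; clear k
  obtain ⟨q22, gq22, k⟩ := step1 h; clear h
  obtain ⟨dv, gdv, h⟩ := step1 k; clear k
  obtain ⟨h0, gh0, k⟩ := step1 h; clear h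
  obtain ⟨h1, gh1, h⟩ := step1 k; clear k
  obtain ⟨h2, gh2, k⟩ := step1 h; clear h
  obtain ⟨W0, gW0, h⟩ := step1 k; clear k
  obtain ⟨W1, gW1, k⟩ := step1 h; clear h
  obtain ⟨W2, gW2, h⟩ := step1 k; clear k
  obtain ⟨hw, ghw, k⟩ := step1 h; clear h
  obtain ⟨pr, gpr, h⟩ := step1 k; clear k
  simp only [ev_add, ev_sub, ev_mul, ev_pow, ev_v, ev_k, ev_r, ev_hor, nth_zero, nth_succ, vec_0,
    Int.cast_ofNat, Int.cast_one, Int.cast_zero] at gp00 gp01 gp02 gp10 gp11 gp12 gp20 gp21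
  simp only [ev_add, ev_sub, ev_mul, ev_pow, ev_v, ev_k, ev_r, ev_hor, nth_zero, nth_succ, vec_0,
    Int.cast_ofNat, Int.cast_one, Int.cast_zero] at gp22 gn00 gn01 gn02 gn10 gn11 gn12 gn20
  simp only [ev_add, ev_sub, ev_mul, ev_pow, ev_v, ev_k, ev_r, ev_hor, nth_zero, nth_succ, vec_0,
    Int.cast_ofNat, Int.cast_one, Int.cast_zero] at gn21 gn22 gA00 gA01 gA02 gA10 gA11 gA12
  simp only [ev_add, ev_sub, ev_mul, ev_pow, ev_v, ev_k, ev_r, ev_hor, nth_zero, nth_succ, vec_0,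
    Int.cast_ofNat, Int.cast_one, Int.cast_zero] at gkp gg00 gg01 gg02 gg10 gg11 gg12 gg20
  simp only [ev_add, ev_sub, ev_mul, ev_pow, ev_v, ev_k, ev_r, ev_hor, nth_zero, nth_succ, vec_0,
    Int.cast_ofNat, Int.cast_one, Int.cast_zero] at gg21 gg22 gdt gep gb0 gb1 gb2 gdB
  simp only [ev_add, ev_sub, ev_mul, ev_pow, ev_v, ev_k, ev_r, ev_hor, nth_zero, nth_succ, vec_0,
    Int.cast_ofNat, Int.cast_one, Int.cast_zero] at ge0 ge1 ge2 gdl gcv gav gff gy0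
  simp only [ev_add, ev_sub, ev_mul, ev_pow, ev_v, ev_k, ev_r, ev_hor, nth_zero, nth_succ, vec_0,
    Int.cast_ofNat, Int.cast_one, Int.cast_zero] at gy1 gy2 gdy gX0 gX1 gX2 gal0 gal1
  simp only [ev_add, ev_sub, ev_mul, ev_pow, ev_v, ev_k, ev_r, ev_hor, nth_zero, nth_succ, vec_0,
    Int.cast_ofNat, Int.cast_one, Int.cast_zero] at gal2 gbe0 gbe1 gbe2 ga2 ga1 gV ghm
  simp only [ev_add, ev_sub, ev_mul, ev_pow, ev_v, ev_k, ev_r, ev_hor, nth_zero, nth_succ, vec_0,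
    Int.cast_ofNat, Int.cast_one, Int.cast_zero] at gq00 gq01 gq02 gq10 gq11 gq12 gq20 gq21
  simp only [ev_add, ev_sub, ev_mul, ev_pow, ev_v, ev_k, ev_r, ev_hor, nth_zero, nth_succ, vec_0,
    Int.cast_ofNat, Int.cast_one, Int.cast_zero] at gq22 gdv gh0 gh1 gh2 gW0 gW1 gW2
  simp only [ev_add, ev_sub, ev_mul, ev_pow, ev_v, ev_k, ev_r, ev_hor, nth_zero, nth_succ, vec_0,
    Int.cast_ofNat, Int.cast_one, Int.cast_zero] at ghw gpr
  rw [← h] at hne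
  change pr ≠ 0 at hne
  clear hL h
  rw [← gpr] at hne
  simp only [mul_ne_zero_iff] at hne
  obtain ⟨⟨⟨⟨⟨⟨⟨⟨⟨⟨hkp, hdt⟩, hep⟩, hdB⟩, hdl⟩, hff⟩, hdy⟩, ha2⟩, hhm⟩, hdv⟩, hhw⟩ := hne
  have P00 : (D s).M0 0 0 = p00 := by rw [← gp00]; simp [D]
  have N00 : (D s).M1 0 0 = n00 := by rw [← gn00]; simp [D]
  have P01 : (D s).M0 0 1 = p01 := by rw [← gp01]; simp [D]
  have N01 : (D s).M1 0 1 = n01 := by rw [← gn01]; simp [D]
  have P02 : (D s).M0 0 2 = p02 := by rw [← gp02]; simp [D]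
  have N02 : (D s).M1 0 2 = n02 := by rw [← gn02]; simp [D]
  have P10 : (D s).M0 1 0 = p10 := by rw [← gp10]; simp [D]
  have N10 : (D s).M1 1 0 = n10 := by rw [← gn10]; simp [D]
  have P11 : (D s).M0 1 1 = p11 := by rw [← gp11]; simp [D]
  have N11 : (D s).M1 1 1 = n11 := by rw [← gn11]; simp [D]
  have P12 : (D s).M0 1 2 = p12 := by rw [← gp12]; simp [D]
  have N12 : (D s).M1 1 2 = n12 := by rw [← gn12]; simp [D]
  have P20 : (D s).M0 2 0 = p20 := by rw [← gp20]; simp [D]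
  have N20 : (D s).M1 2 0 = n20 := by rw [← gn20]; simp [D]
  have P21 : (D s).M0 2 1 = p21 := by rw [← gp21]; simp [D]
  have N21 : (D s).M1 2 1 = n21 := by rw [← gn21]; simp [D]
  have P22 : (D s).M0 2 2 = p22 := by rw [← gp22]; simp [D]
  have N22 : (D s).M1 2 2 = n22 := by rw [← gn22]; simp [D]
  have kk : kap s = kp := gkp
  have hA0 : ∀ i, kap s * (D s).A0 i = ![A00, A01, A02] i := by
    rw [← kk] at hkp
    intro i
    fin_cases i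
    · change kap s * (hor tA00 s / kap s) = A00
      rw [← gA00]; field_simp
    · change kap s * 0 = A01
      rw [← gA01]; simp
    · change kap s * (hor tA02 s / kap s) = A02
      rw [← gA02]; field_simp
  have hA1 : ∀ i, kap s * (D s).A1 i = ![A10, A11, A12] i := by
    rw [← kk] at hkp
    intro i
    fin_cases i
    · change kap s * 0 = A10
      rw [← gA10]; simp
    · change kap s * (hor tA11 s / kap s) = A11
      rw [← gA11]; field_simp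
    · change kap s * 0 = A12
      rw [← gA12]; simp
  have G00 : (D s).mat (1 : ℂ) 0 0 = g00 := by
    rw [← gg00]; change (D s).M0 0 0 + 1 * (D s).M1 0 0 = _; rw [P00, N00]
  have G01 : (D s).mat (1 : ℂ) 0 1 = g01 := by
    rw [← gg01]; change (D s).M0 0 1 + 1 * (D s).M1 0 1 = _; rw [P01, N01]
  have G02 : (D s).mat (1 : ℂ) 0 2 = g02 := by
    rw [← gg02]; change (D s).M0 0 2 + 1 * (D s).M1 0 2 = _; rw [P02, N02]
  have G10 : (D s).mat (1 : ℂ) 1 0 = g10 := by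
    rw [← gg10]; change (D s).M0 1 0 + 1 * (D s).M1 1 0 = _; rw [P10, N10]
  have G11 : (D s).mat (1 : ℂ) 1 1 = g11 := by
    rw [← gg11]; change (D s).M0 1 1 + 1 * (D s).M1 1 1 = _; rw [P11, N11]
  have G12 : (D s).mat (1 : ℂ) 1 2 = g12 := by
    rw [← gg12]; change (D s).M0 1 2 + 1 * (D s).M1 1 2 = _; rw [P12, N12]
  have G20 : (D s).mat (1 : ℂ) 2 0 = g20 := by
    rw [← gg20]; change (D s).M0 2 0 + 1 * (D s).M1 2 0 = _; rw [P20, N20]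
  have G21 : (D s).mat (1 : ℂ) 2 1 = g21 := by
    rw [← gg21]; change (D s).M0 2 1 + 1 * (D s).M1 2 1 = _; rw [P21, N21]
  have G22 : (D s).mat (1 : ℂ) 2 2 = g22 := by
    rw [← gg22]; change (D s).M0 2 2 + 1 * (D s).M1 2 2 = _; rw [P22, N22]
  have kdt : (D s).det (1 : ℂ) = dt := by
    rw [← gdt, Net.det, Matrix.det_fin_three]
    simp only [G00, G01, G02, G10, G11, G12, G20, G21, G22]
  have kep : pv (D s).e (1 : ℂ) = ep := by
    rw [← gep]; simp [pv, D, Fin.sum_univ_succ]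
  have kb0 : (D s).bb (1 : ℂ) 0 = b0 := by rw [← gb0, Net.bb, G00, G01, G02]; ring
  have kb1 : (D s).bb (1 : ℂ) 1 = b1 := by rw [← gb1, Net.bb, G10, G11, G12]; ring
  have kb2 : (D s).bb (1 : ℂ) 2 = b2 := by rw [← gb2, Net.bb, G20, G21, G22]; ring
  have ke0 : (D s).ee (1 : ℂ) 2 0 = e0 := by rw [← ge0, Net.ee, G00, G02]
  have ke1 : (D s).ee (1 : ℂ) 2 1 = e1 := by rw [← ge1, Net.ee, G10, G12]
  have kc : hv (d := 3) (D s).c (1 : ℂ) 2 1 = cv := by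
    rw [← gcv]; simp [hv, D, Fin.sum_univ_succ]; ring
  have ka : hv (d := 2) (D s).a (1 : ℂ) 2 1 = av := by
    rw [← gav]; simp [hv, D, Fin.sum_univ_succ]; ring
  have ky0 : pv (fun j => (D s).b 0 j) (2 : ℂ) = y0 := by
    rw [← gy0]; simp [pv, D, Fin.sum_univ_succ]; ring
  have ky1 : pv (fun j => (D s).b 1 j) (2 : ℂ) = y1 := by
    rw [← gy1]; simp [pv, D, Fin.sum_univ_succ]; ring
  have ky2 : pv (fun j => (D s).b 2 j) (2 : ℂ) = y2 := by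
    rw [← gy2]; simp [pv, D, Fin.sum_univ_succ]; ring
  have kX0 : (D s).xv (1 : ℂ) 1 0 = X0 := by
    rw [← gX0, Net.xv, Matrix.adjugate_fin_three]
    simp [Matrix.mulVec, dotProduct, Fin.sum_univ_three, Net.sq, G00, G01, G02, G10, G11, G12, G20,
      G21, G22]
    ring
  have kX1 : (D s).xv (1 : ℂ) 1 1 = X1 := by
    rw [← gX1, Net.xv, Matrix.adjugate_fin_three]
    simp [Matrix.mulVec, dotProduct, Fin.sum_univ_three, Net.sq, G00, G01, G02, G10, G11, G12, G20,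
      G21, G22]
    ring
  have kX2 : (D s).xv (1 : ℂ) 1 2 = X2 := by
    rw [← gX2, Net.xv, Matrix.adjugate_fin_three]
    simp [Matrix.mulVec, dotProduct, Fin.sum_univ_three, Net.sq, G00, G01, G02, G10, G11, G12, G20,
      G21, G22]
    ring
  have kal0 : (D s).al ((D s).xv (1 : ℂ) 1) 0 = al0 := by
    rw [← gal0, ← kX0, ← kX1, ← kX2, ← P00, ← P01, ← P02]
    simp [Net.al, Matrix.mulVec, dotProduct, Fin.sum_univ_three]
  have kbe0 : (D s).be ((D s).xv (1 : ℂ) 1) 0 = be0 := by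
    rw [← gbe0, ← kX0, ← kX1, ← kX2, ← N00, ← N01, ← N02]
    simp [Net.be, Matrix.mulVec, dotProduct, Fin.sum_univ_three]
  have kal1 : (D s).al ((D s).xv (1 : ℂ) 1) 1 = al1 := by
    rw [← gal1, ← kX0, ← kX1, ← kX2, ← P10, ← P11, ← P12]
    simp [Net.al, Matrix.mulVec, dotProduct, Fin.sum_univ_three]
  have kbe1 : (D s).be ((D s).xv (1 : ℂ) 1) 1 = be1 := by
    rw [← gbe1, ← kX0, ← kX1, ← kX2, ← N10, ← N11, ← N12]
    simp [Net.be, Matrix.mulVec, dotProduct, Fin.sum_univ_three]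
  have kal2 : (D s).al ((D s).xv (1 : ℂ) 1) 2 = al2 := by
    rw [← gal2, ← kX0, ← kX1, ← kX2, ← P20, ← P21, ← P22]
    simp [Net.al, Matrix.mulVec, dotProduct, Fin.sum_univ_three]
  have kbe2 : (D s).be ((D s).xv (1 : ℂ) 1) 2 = be2 := by
    rw [← gbe2, ← kX0, ← kX1, ← kX2, ← N20, ← N21, ← N22]
    simp [Net.be, Matrix.mulVec, dotProduct, Fin.sum_univ_three]
  have ka2 : a2 = (D s).a2 ((D s).xv (1 : ℂ) 1) := by
    rw [← ga2, Net.a2, kbe0, kbe1, kbe2]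
  have kV : V = -((D s).a1 ((D s).xv (1 : ℂ) 1)) - 1 * a2 := by
    rw [← gV, ← ga1, Net.a1, kbe0, kbe1, kbe2, kal0, kal1, kal2]
    ring
  refine ⟨by rw [kk]; exact hkp, 1, 2, 1, V / a2, ?_⟩
  refine generic_of (D s) (by rw [kk]; exact hkp) hA0 hA1 one_ne_zero ?_ ?_ ?_ ?_ ?_ ?_ ka2 kV ha2
    ?_ !![q00, q01, q02; q10, q11, q12; q20, q21, q22] ?_ ?_ ![W0, W1, W2] ?_ ?_
  · rw [kdt]; exact hdt
  · rw [kep]; exact hep
  · rw [Net.discB, kb0, kb1, kb2, gdB]; exact hdB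
  · rw [Net.del, kb0, kb1, ke0, ke1, gdl]; exact hdl
  · rw [Data.ff, kc, ka, kb0, ke0, gff]; exact hff
  · rw [ky0, ky1, ky2, gdy]; exact hdy
  · rw [kal0, kbe0, ghm]; exact hhm
  · intro i j
    fin_cases i <;> fin_cases j
    · change q00 = a2 * (D s).M0 0 0 + V * (D s).M1 0 0; rw [P00, N00, gq00]
    · change q01 = a2 * (D s).M0 0 1 + V * (D s).M1 0 1; rw [P01, N01, gq01]
    · change q02 = a2 * (D s).M0 0 2 + V * (D s).M1 0 2; rw [P02, N02, gq02]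
    · change q10 = a2 * (D s).M0 1 0 + V * (D s).M1 1 0; rw [P10, N10, gq10]
    · change q11 = a2 * (D s).M0 1 1 + V * (D s).M1 1 1; rw [P11, N11, gq11]
    · change q12 = a2 * (D s).M0 1 2 + V * (D s).M1 1 2; rw [P12, N12, gq12]
    · change q20 = a2 * (D s).M0 2 0 + V * (D s).M1 2 0; rw [P20, N20, gq20]
    · change q21 = a2 * (D s).M0 2 1 + V * (D s).M1 2 1; rw [P21, N21, gq21]
    · change q22 = a2 * (D s).M0 2 2 + V * (D s).M1 2 2; rw [P22, N22, gq22]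
  · rw [Matrix.det_fin_three]
    change q00 * q11 * q22 - q00 * q12 * q21 - q01 * q10 * q22 + q01 * q12 * q20 +
      q02 * q10 * q21 - q02 * q11 * q20 ≠ 0
    rw [gdv]; exact hdv
  · rw [Matrix.adjugate_fin_three]
    intro k
    fin_cases k
    · change W0 = _
      rw [← gW0, ← gh0, ← gh1, ← gh2]
      simp [Fin.sum_univ_three, -mul_eq_mul_left_iff, -mul_eq_mul_right_iff]
      ring
    · change W1 = _
      rw [← gW1, ← gh0, ← gh1, ← gh2]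
      simp [Fin.sum_univ_three, -mul_eq_mul_left_iff, -mul_eq_mul_right_iff]
      ring
    · change W2 = _
      rw [← gW2, ← gh0, ← gh1, ← gh2]
      simp [Fin.sum_univ_three, -mul_eq_mul_left_iff, -mul_eq_mul_right_iff]
      ring
  · change W1 ^ 2 - W0 * W2 ≠ 0
    rw [ghw]; exact hhw

end Vale.Agent.P297.H212
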