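import Vale.Agent.P297.H572.Half.Tower

/-!
A double cover of the line through two points of a double cover of affine space.
-/

set_option linter.unusedSectionVars false
set_option linter.style.haveILetI false

open IntermediateField Polynomial

namespace Vale.Agent.P297.H212

open Vale.Agent.P297 Vale.Agent.P297.H572.Half

/-- **The curve of `double_generic`**: a double cover of the line through two points of a double
cover of affine space. -/
theorem double_curve {σ : Type} [Finite σ] {K : Type} [Field K] [Algebra ℂ K] (x : σ → K)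
    (hx : AlgebraicIndependent ℂ x) (θ : K)
    (p r : MvPolynomial σ ℂ) (hp : Irreducible p) (hpr : ¬ p ∣ r)
    (hθ : θ ^ 2 = MvPolynomial.aeval x (p * r))
    (hθL : θ ∉ IntermediateField.adjoin ℂ (Set.range x)) (T : Finset K)
    (hT : ∀ y ∈ T, ∃ a ∈ IntermediateField.adjoin ℂ (Set.range x),
      ∃ b ∈ IntermediateField.adjoin ℂ (Set.range x), y = a + b * θ) :
    ∃ A : Subalgebra ℂ K, A.FG ∧ (∀ y ∈ T, y ∈ A) ∧
      (∀ y ∈ A, ∃ a ∈ IntermediateField.adjoin ℂ (Set.range x),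
        ∃ b ∈ IntermediateField.adjoin ℂ (Set.range x), y = a + b * θ) ∧
      ∀ ξ₁ ξ₂ : A →ₐ[ℂ] ℂ, ∃ (E : Type) (_ : Field E) (_ : Algebra ℂ E) (_ : IsFF ℂ E),
        HalfProp E ∧ ∃ m : A →ₐ[ℂ] E, (∀ a, m a = 0 → ξ₁ a = 0) ∧ (∀ a, m a = 0 → ξ₂ a = 0) ∧
          (∃ b, m b ≠ 0 ∧ ξ₁ b = 0) ∧ (∃ b, m b ≠ 0 ∧ ξ₂ b = 0) := by
  classical
  have hxinj : ∀ u : MvPolynomial σ ℂ, MvPolynomial.aeval x u = 0 → u = 0 :=
    algebraicIndependent_iff.1 hx
  -- denominators
  have hden : ∀ y : T, ∃ h u v : MvPolynomial σ ℂ, h ≠ 0 ∧ MvPolynomial.aeval x h * (y : K) =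
      MvPolynomial.aeval x u + MvPolynomial.aeval x v * θ := by
    intro y
    obtain ⟨a, ha, b, hb, hab⟩ := hT y y.2
    rw [hab]
    obtain ⟨u₁, v₁, h₁, e₁⟩ := exists_frac ha
    obtain ⟨u₂, v₂, h₂, e₂⟩ := exists_frac hb
    refine ⟨v₁ * v₂, v₂ * u₁, v₁ * u₂, ?_, ?_⟩
    · apply mul_ne_zero
      · rintro rfl; exact h₁ (map_zero _)
      · rintro rfl; exact h₂ (map_zero _)
    · simp only [map_mul]
      linear_combination MvPolynomial.aeval x v₂ * e₁ + MvPolynomial.aeval x v₁ * θ * e₂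
  choose hh hu hv hh0 hhe using hden
  let h : MvPolynomial σ ℂ := (∏ y : T, hh y) * p
  have hne : h ≠ 0 := mul_ne_zero (Finset.prod_ne_zero_iff.2 fun y _ => hh0 y) hp.ne_zero
  have hhN : MvPolynomial.aeval x h ≠ 0 := fun h0 => hne (hxinj _ h0)
  have hle : Submonoid.powers h ≤ nonZeroDivisors (MvPolynomial σ ℂ) :=
    powers_le_nonZeroDivisors_of_noZeroDivisors hne
  haveI : IsDomain (Localization.Away h) := IsLocalization.isDomain_localization hle
  let P := Localization.Away h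
  let i₀ : MvPolynomial σ ℂ →+* P := algebraMap (MvPolynomial σ ℂ) P
  let PN : P →ₐ[ℂ] K := awayLift (MvPolynomial.aeval x) h hhN.isUnit
  have hPN : ∀ u, PN (i₀ u) = MvPolynomial.aeval x u := fun u =>
    awayLift_algebraMap (MvPolynomial.aeval x) h hhN.isUnit u
  have hsurj : ∀ a : P, ∃ (u : MvPolynomial σ ℂ) (n : ℕ), a * i₀ h ^ n = i₀ u := by
    intro a
    obtain ⟨⟨u, ⟨_, n, rfl⟩⟩, hun⟩ := IsLocalization.surj (Submonoid.powers h) a
    refine ⟨u, n, ?_⟩
    rw [← map_pow]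
    exact hun
  have hPNL : ∀ a : P, PN a ∈ IntermediateField.adjoin ℂ (Set.range x) := by
    intro a
    obtain ⟨u, n, hun⟩ := hsurj a
    have h1 := congrArg PN hun
    rw [map_mul, map_pow, hPN, hPN] at h1
    rw [← eq_mul_inv_iff_mul_eq₀ (pow_ne_zero n hhN)] at h1
    rw [h1, IntermediateField.mem_adjoin_range_iff]
    exact ⟨u, h ^ n, by rw [map_pow, div_eq_mul_inv]⟩
  have hPNinj : ∀ a : P, PN a = 0 → a = 0 := by
    intro a ha
    obtain ⟨u, n, hun⟩ := hsurj a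
    have h1 := congrArg PN hun
    rw [map_mul, ha, zero_mul, hPN] at h1
    have h2 : u = 0 := hxinj u h1.symm
    rw [h2, map_zero, ← map_pow] at hun
    exact (IsLocalization.map_units P (⟨h ^ n, n, rfl⟩ : Submonoid.powers h)).mul_left_eq_zero.1 hun
  let ψ : P[X] →ₐ[ℂ] K := Polynomial.eval₂AlgHom PN θ (fun _ => Commute.all _ _)
  have hψ : ∀ F, ψ F = F.eval₂ PN.toRingHom θ := fun F => rfl
  let A : Subalgebra ℂ K := ψ.range
  have hAFG : A.FG := by
    haveI : Algebra.FiniteType ℂ P := by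
      haveI : Algebra.FiniteType (MvPolynomial σ ℂ) P :=
        IsLocalization.finiteType_of_monoid_fg (Submonoid.powers h) _
      exact Algebra.FiniteType.trans (S := MvPolynomial σ ℂ) inferInstance inferInstance
    haveI : Algebra.FiniteType ℂ P[X] := Algebra.FiniteType.trans (S := P) inferInstance inferInstance
    change ψ.range.FG
    rw [← Algebra.map_top]
    exact (Algebra.FiniteType.out).map ψ
  have hgenA : ∀ y ∈ T, y ∈ A := by
    intro c hy
    let y : T := ⟨c, hy⟩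
    have hdvd : hh y ∣ h := Dvd.dvd.mul_right (Finset.dvd_prod_of_mem _ (Finset.mem_univ y)) p
    have hunit : IsUnit (i₀ (hh y)) :=
      isUnit_of_dvd_unit (map_dvd _ hdvd) (IsLocalization.Away.algebraMap_isUnit h)
    obtain ⟨e, he⟩ := hunit
    refine ⟨Polynomial.C ((e⁻¹ : Pˣ) : P) * (Polynomial.C (i₀ (hu y)) +
      Polynomial.C (i₀ (hv y)) * X), ?_⟩
    change ψ _ = _
    rw [hψ]
    simp only [eval₂_mul, eval₂_C, eval₂_add, eval₂_X]
    change PN ((e⁻¹ : Pˣ) : P) * (PN (i₀ (hu y)) + PN (i₀ (hv y)) * θ) = (y : K)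
    rw [hPN, hPN, ← hhe y, ← hPN (hh y), ← he, ← mul_assoc, ← map_mul, Units.inv_mul,
      map_one, one_mul]
  have hAspan : ∀ y ∈ A, ∃ a ∈ IntermediateField.adjoin ℂ (Set.range x),
      ∃ b ∈ IntermediateField.adjoin ℂ (Set.range x), y = a + b * θ := by
    rintro _ ⟨F, rfl⟩
    obtain ⟨G, a, b, rfl⟩ := exists_quad_rem (i₀ (p * r)) F
    refine ⟨PN a, hPNL a, PN b, hPNL b, ?_⟩
    change ψ _ = _
    rw [hψ]
    simp only [eval₂_mul, eval₂_C, eval₂_add, eval₂_sub, eval₂_X, eval₂_X_pow]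
    change (θ ^ 2 - PN (i₀ (p * r))) * _ + PN b * θ + PN a = _
    rw [hPN, hθ]
    ring
  refine ⟨A, hAFG, hgenA, hAspan, fun ξ₁ ξ₂ => ?_⟩
  let ψr : P[X] →ₐ[ℂ] A := ψ.rangeRestrict
  have hψr : Function.Surjective ψr := ψ.rangeRestrict_surjective
  let e₀ : MvPolynomial σ ℂ →ₐ[ℂ] A := ψr.comp ((Polynomial.CAlgHom (R := ℂ) (A := P)).comp
    (IsScalarTower.toAlgHom ℂ (MvPolynomial σ ℂ) P))
  have he₀ : ∀ u, e₀ u = ψr (Polynomial.C (i₀ u)) := fun u => rfl
  have hev : ∀ (ξ : A →ₐ[ℂ] ℂ) (u : MvPolynomial σ ℂ),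
      ξ (e₀ u) = MvPolynomial.eval (fun k => ξ (e₀ (MvPolynomial.X k))) u := by
    intro ξ u
    have h1 : ξ.comp e₀ = MvPolynomial.aeval (fun k => ξ (e₀ (MvPolynomial.X k))) := by
      apply MvPolynomial.algHom_ext
      intro k
      simp
    have h2 := DFunLike.congr_fun h1 u
    rw [MvPolynomial.aeval_eq_eval] at h2
    exact h2
  have hunith : IsUnit (e₀ h) := by
    have h1 : IsUnit (i₀ h) := IsLocalization.Away.algebraMap_isUnit h
    rw [he₀]
    exact (h1.map Polynomial.C).map ψr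
  obtain ⟨a, i, hpa, hra, hda⟩ := exists_good_point hp hpr
  obtain ⟨l, hl1, hl2, hl0, P₁, hP1, hP10⟩ := exists_curve_through hpa hda
    (fun k => ξ₁ (e₀ (MvPolynomial.X k))) (fun k => ξ₂ (e₀ (MvPolynomial.X k)))
  have heval : ∀ (c : ℂ) (u : MvPolynomial σ ℂ), (MvPolynomial.aeval l u).eval c =
      MvPolynomial.eval (fun k => (l k).eval c) u := by
    intro c u
    have h1 : (Polynomial.aeval c : ℂ[X] →ₐ[ℂ] ℂ).comp (MvPolynomial.aeval l) =
        MvPolynomial.aeval (fun k => (l k).eval c) := by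
      apply MvPolynomial.algHom_ext
      intro k
      simp
    have h2 := DFunLike.congr_fun h1 u
    rw [MvPolynomial.aeval_eq_eval] at h2
    exact h2
  -- the double cover of the line
  set R₁ := MvPolynomial.aeval l r with hR₁
  have hR₁0 : R₁.eval 0 ≠ 0 := by
    rw [hR₁, heval]
    have : (fun k => (l k).eval 0) = a := funext hl0
    rw [this]
    exact hra
  have hG0 : (P₁ * R₁).eval 0 ≠ 0 := by
    rw [eval_mul]
    exact mul_ne_zero hP10 hR₁0
  have hGne : P₁ * R₁ ≠ 0 := by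
    intro h0
    rw [h0, eval_zero] at hG0
    exact hG0 rfl
  obtain ⟨q, s', hq, hqs⟩ := exists_squarefree_mul_sq (X * (P₁ * R₁)) (mul_ne_zero X_ne_zero hGne)
  have hqroot : q.IsRoot 0 := by
    by_contra hcon
    have h1 := congrArg (Polynomial.eval 0) hqs
    rw [eval_mul, eval_X, zero_mul, eval_mul, eval_pow] at h1
    have h2 : s'.eval 0 = 0 := by
      have := (mul_eq_zero.1 h1.symm).resolve_left hcon
      exact pow_eq_zero_iff two_ne_zero |>.1 this
    obtain ⟨s'', hs''⟩ := dvd_iff_isRoot.2 (show s'.IsRoot 0 from h2)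
    rw [map_zero, sub_zero] at hs''
    apply hG0
    have h3 : X * (P₁ * R₁) = X * (q * X * s'' ^ 2) := by rw [hqs, hs'']; ring
    rw [mul_left_cancel₀ X_ne_zero h3]
    simp
  obtain ⟨E, _, _, t, θ', ht, hθ', hθ'K, hspan'⟩ := exists_double_cover q hq 0 hqroot
  haveI : IsFF ℂ E := isFF_of_quad ht hθ'K hspan'
  have htinj : ∀ u : ℂ[X], Polynomial.aeval t u = 0 → u = 0 := by
    intro u hu'
    by_contra hne'
    exact ht ⟨u, hne', hu'⟩
  have hs'0 : s' ≠ 0 := by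
    rintro rfl
    apply mul_ne_zero X_ne_zero hGne
    rw [hqs]; ring
  set θE := θ' * Polynomial.aeval t s' with hθE
  have hθE2 : θE ^ 2 = Polynomial.aeval t (MvPolynomial.aeval l (p * r)) := by
    rw [hθE, mul_pow, hθ', ← map_pow, ← map_mul, ← hqs, map_mul (MvPolynomial.aeval l), hP1]
    congr 1
    ring
  have haevK : ∀ u : ℂ[X], Polynomial.aeval t u ∈ ℂ⟮t⟯ := aeval_mem_adjoin_simple t
  have hs't : Polynomial.aeval t s' ≠ 0 := fun h0 => hs'0 (htinj s' h0)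
  have hθEK : θE ∉ ℂ⟮t⟯ := by
    intro hmem
    apply hθ'K
    have h1 : θ' = θE * (Polynomial.aeval t s')⁻¹ := by
      rw [hθE, mul_inv_cancel_right₀ hs't]
    rw [h1]
    exact ℂ⟮t⟯.mul_mem hmem (ℂ⟮t⟯.inv_mem (haevK s'))
  have hlh : MvPolynomial.aeval l h ≠ 0 := by
    intro h0
    have h1 := heval 1 h
    rw [h0, eval_zero] at h1
    have h2 : (fun k => (l k).eval 1) = fun k => ξ₁ (e₀ (MvPolynomial.X k)) := funext hl1
    rw [h2, ← hev] at h1
    exact (hunith.map ξ₁).ne_zero h1.symm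
  have hlht : Polynomial.aeval t (MvPolynomial.aeval l h) ≠ 0 := fun h0 => hlh (htinj _ h0)
  let m₀ : P →ₐ[ℂ] E := awayLift ((Polynomial.aeval t).comp (MvPolynomial.aeval l)) h hlht.isUnit
  have hm₀ : ∀ u, m₀ (i₀ u) = Polynomial.aeval t (MvPolynomial.aeval l u) := fun u =>
    awayLift_algebraMap ((Polynomial.aeval t).comp (MvPolynomial.aeval l)) h hlht.isUnit u
  have hm₀K : ∀ b : P, m₀ b ∈ ℂ⟮t⟯ := by
    intro b
    obtain ⟨u, n, hun⟩ := hsurj b
    have h1 := congrArg m₀ hun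
    rw [map_mul, map_pow, hm₀, hm₀] at h1
    rw [← eq_mul_inv_iff_mul_eq₀ (pow_ne_zero n hlht)] at h1
    rw [h1]
    exact ℂ⟮t⟯.mul_mem (haevK _) (ℂ⟮t⟯.inv_mem (pow_mem (haevK _) n))
  let g : P[X] →ₐ[ℂ] E := Polynomial.eval₂AlgHom m₀ θE (fun _ => Commute.all _ _)
  have hg : ∀ F, g F = F.eval₂ m₀.toRingHom θE := fun F => rfl
  have hgform : ∀ (G : P[X]) (b c : P), g ((X ^ 2 - Polynomial.C (i₀ (p * r))) * G +
      Polynomial.C c * X + Polynomial.C b) = m₀ b + m₀ c * θE := by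
    intro G b c
    rw [hg]
    simp only [eval₂_mul, eval₂_C, eval₂_add, eval₂_sub, eval₂_X, eval₂_X_pow]
    change (θE ^ 2 - m₀ (i₀ (p * r))) * _ + m₀ c * θE + m₀ b = _
    rw [hm₀, hθE2]
    ring
  have hψform : ∀ (G : P[X]) (b c : P), ψ ((X ^ 2 - Polynomial.C (i₀ (p * r))) * G +
      Polynomial.C c * X + Polynomial.C b) = PN b + PN c * θ := by
    intro G b c
    rw [hψ]
    simp only [eval₂_mul, eval₂_C, eval₂_add, eval₂_sub, eval₂_X, eval₂_X_pow]
    change (θ ^ 2 - PN (i₀ (p * r))) * _ + PN c * θ + PN b = _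
    rw [hPN, hθ]
    ring
  have hker1 : ∀ F, ψr F = 0 → g F = 0 := by
    intro F hF
    have hF' : ψ F = 0 := congrArg Subtype.val hF
    obtain ⟨G, b, c, rfl⟩ := exists_quad_rem (i₀ (p * r)) F
    rw [hψform] at hF'
    rw [hgform]
    obtain ⟨h1, h2⟩ := quad_unique _ θ hθL (hPNL b) (hPNL c) (IntermediateField.zero_mem _)
      (IntermediateField.zero_mem _) (show PN b + PN c * θ = 0 + 0 * θ by rw [hF']; ring)
    rw [hPNinj b h1, hPNinj c h2]
    simp
  obtain ⟨m, hm⟩ := exists_alg_lift ψr hψr g hker1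
  have hP0 : ∀ (ξ : A →ₐ[ℂ] ℂ) (c : ℂ)
      (_ : ∀ k, (l k).eval c = ξ (e₀ (MvPolynomial.X k))) (b : P), m₀ b = 0 →
      ξ (ψr (Polynomial.C b)) = 0 := by
    intro ξ c hc b hb
    obtain ⟨u, n, hun⟩ := hsurj b
    have h1 := congrArg m₀ hun
    rw [map_mul, hb, zero_mul, hm₀] at h1
    have h2 : MvPolynomial.aeval l u = 0 := htinj _ h1.symm
    have h3 := heval c u
    rw [h2, eval_zero, funext hc, ← hev] at h3
    have h4 : ξ (ψr (Polynomial.C b)) * ξ (e₀ h) ^ n = ξ (e₀ u) := by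
      rw [he₀, he₀, ← hun, ← map_pow, ← map_mul, ← map_pow, ← map_mul, ← map_pow, ← map_mul]
    rw [← h3] at h4
    exact (mul_eq_zero.1 h4).resolve_right (pow_ne_zero n (hunith.map ξ).ne_zero)
  have hker2 : ∀ (ξ : A →ₐ[ℂ] ℂ) (c : ℂ)
      (_ : ∀ k, (l k).eval c = ξ (e₀ (MvPolynomial.X k))) (y : A), m y = 0 → ξ y = 0 := by
    intro ξ c hc y hy
    obtain ⟨F, rfl⟩ := hψr y
    rw [hm] at hy
    obtain ⟨G, b, b', rfl⟩ := exists_quad_rem (i₀ (p * r)) F
    rw [hgform] at hy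
    obtain ⟨h1, h2⟩ := quad_unique _ θE hθEK (hm₀K b) (hm₀K b') (IntermediateField.zero_mem _)
      (IntermediateField.zero_mem _) (show m₀ b + m₀ b' * θE = 0 + 0 * θE by rw [hy]; ring)
    have h3 := hP0 ξ c hc b h1
    have h4 := hP0 ξ c hc b' h2
    have h5 : ψr (X ^ 2 - Polynomial.C (i₀ (p * r))) = 0 := by
      apply Subtype.ext
      have h6 := hψform 1 0 0
      rw [map_zero, map_zero] at h6
      change ψ (X ^ 2 - Polynomial.C (i₀ (p * r))) = 0
      simpa using h6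
    have h7 : ∀ c₀ : P, ψr (X ^ 2 - Polynomial.C c₀) = 0 →
        ξ (ψr ((X ^ 2 - Polynomial.C c₀) * G + Polynomial.C b' * X + Polynomial.C b)) = 0 := by
      intro c₀ h5
      rw [map_add ψr, map_add ψr, map_mul ψr, map_mul ψr, h5, zero_mul, zero_add, map_add,
        map_mul, h3, h4]
      ring
    exact h7 _ h5
  have hdist : ∀ (ξ : A →ₐ[ℂ] ℂ), ∃ b : A, m b ≠ 0 ∧ ξ b = 0 := by
    intro ξ
    refine ⟨e₀ p - algebraMap ℂ A (ξ (e₀ p)), ?_, ?_⟩
    · rw [map_sub, he₀, hm, AlgHom.commutes]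
      have h1 : g (Polynomial.C (i₀ p)) = Polynomial.aeval t (MvPolynomial.aeval l p) := by
        rw [hg, eval₂_C]
        exact hm₀ p
      intro h2
      rw [h1] at h2
      have h3 : Polynomial.aeval t (MvPolynomial.aeval l p - Polynomial.C (ξ (e₀ p))) = 0 := by
        rw [map_sub, aeval_C]
        exact h2
      have h4 := htinj _ h3
      have h5 := congrArg (Polynomial.eval 0) h4
      rw [eval_sub, heval, eval_C, eval_zero, funext hl0, hpa, zero_sub, neg_eq_zero] at h5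
      have h6 : IsUnit (e₀ p) := by
        have h7 : p ∣ h := Dvd.intro_left _ rfl
        exact isUnit_of_dvd_unit (map_dvd e₀ h7) hunith
      exact (h6.map ξ).ne_zero h5
    · rw [map_sub, AlgHom.commutes]
      exact sub_self _
  obtain ⟨b₁, hb₁, hξb₁⟩ := hdist ξ₁
  obtain ⟨b₂, hb₂, hξb₂⟩ := hdist ξ₂
  refine ⟨E, inferInstance, inferInstance, inferInstance, halfProp_base ht q hq hθ' hθ'K hspan', m,
    hker2 ξ₁ 1 hl1, hker2 ξ₂ (-1) hl2, ⟨b₁, hb₁, hξb₁⟩, ⟨b₂, hb₂, hξb₂⟩⟩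

end Vale.Agent.P297.H212
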