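import Vale.Agent.P297.H212.Good0
import Vale.Agent.P297.H212.Curve2

/-!
The classes of the centers of the places of a curve on the surface.
-/

set_option linter.unusedSectionVars false
set_option linter.style.haveILetI false

open CategoryTheory AlgebraicGeometry IntermediateField Polynomial

namespace Vale.Agent.P297.H212

open Vale.Agent.P297 Vale.Agent.P297.H572.Half

section

variable {S : Scheme.{0}} (f : S ⟶ Spec (.of ℂ)) [IsProper f] {C : Type} [CommRing C] [Algebra ℂ C]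
  (j : Spec (.of C) ⟶ S)
  (hj : j ≫ f = Spec.map (CommRingCat.ofHom (algebraMap ℂ C)))

/-- The class of the center of a place, as a homomorphism from the divisors of the curve. -/
theorem exists_cls (R : AddSubgroup (ZeroCycle S)) (hR : Rat f ≤ R)
    (hR2 : ∀ u v : closedPoints S,
      (2 : ℤ) • (Finsupp.single u (1 : ℤ) - Finsupp.single v 1) ∈ R)
    {E : Type} [Field E] [Algebra ℂ E] [IsFF ℂ E] (κ : C →ₐ[ℂ] E) :
    ∃ A : (PlaceOver ℂ E →₀ ℤ) →+ (ZeroCycle S ⧸ R), (∀ F : E, A (div ℂ F) = 0) ∧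
      (∀ w w' : PlaceOver ℂ E, (2 : ℤ) • A (Finsupp.single w 1) =
        (2 : ℤ) • A (Finsupp.single w' 1)) ∧
      ∀ (w : PlaceOver ℂ E) (hw : ∀ c, κ c ∈ w.1.ring) (χ : C →ₐ[ℂ] ℂ),
        (∀ c, evalAt w ⟨κ c, hw c⟩ = χ c) →
        A (Finsupp.single w 1) = QuotientAddGroup.mk' R (Finsupp.single (pt f j hj χ) (1 : ℤ)) := by
  classical
  let γ : Spec (.of E) ⟶ S := Spec.map (CommRingCat.ofHom κ.toRingHom) ≫ j
  have hγ : γ ≫ f = Spec.map (CommRingCat.ofHom (algebraMap ℂ E)) := by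
    change (Spec.map (CommRingCat.ofHom κ.toRingHom) ≫ j) ≫ f = _
    rw [Category.assoc, hj, ← Spec.map_comp, ← CommRingCat.ofHom_comp]
    have h1 : κ.toRingHom.comp (algebraMap ℂ C) = algebraMap ℂ E :=
      RingHom.ext fun a => κ.commutes a
    rw [h1]
  let A' : (PlaceOver ℂ E →₀ ℤ) →+ (ZeroCycle S ⧸ R) :=
    (QuotientAddGroup.mk' R).comp (Finsupp.mapDomain.addMonoidHom (centerMap f γ hγ))
  have hA' : ∀ z, A' z = QuotientAddGroup.mk' R (Finsupp.mapDomain (centerMap f γ hγ) z) :=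
    fun z => rfl
  refine ⟨A', ?_, ?_, ?_⟩
  · intro F
    rw [hA']
    exact (QuotientAddGroup.eq_zero_iff _).2 (hR (pushDiv_mem_Rat f γ hγ F))
  · intro w w'
    rw [← map_zsmul, ← map_zsmul, ← sub_eq_zero, ← map_sub, ← smul_sub, map_zsmul, hA',
      Finsupp.mapDomain_sub, Finsupp.mapDomain_single, Finsupp.mapDomain_single, ← map_zsmul]
    exact (QuotientAddGroup.eq_zero_iff _).2 (hR2 _ _)
  · intro w hw χ hχ
    rw [hA', Finsupp.mapDomain_single]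
    congr 2
    exact centerMap_eq_cpt f γ hγ w j κ.toRingHom rfl hw χ.toRingHom hχ (pt_aux f _ hj _)

end

section

variable {N : Type} [Field N] [Algebra ℂ N]

/-- The elements `a + b Z` with `a`, `b` in the algebra `A`. -/
def quadAlg (A : Subalgebra ℂ N) (Z : N) (hZ : Z ^ 2 ∈ A) : Subalgebra ℂ N where
  carrier := {x | ∃ a ∈ A, ∃ b ∈ A, x = a + b * Z}
  mul_mem' := by
    rintro _ _ ⟨a, ha, b, hb, rfl⟩ ⟨a', ha', b', hb', rfl⟩
    exact ⟨a * a' + b * b' * Z ^ 2, A.add_mem (A.mul_mem ha ha')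
      (A.mul_mem (A.mul_mem hb hb') hZ), a * b' + b * a',
      A.add_mem (A.mul_mem ha hb') (A.mul_mem hb ha'), by ring⟩
  add_mem' := by
    rintro _ _ ⟨a, ha, b, hb, rfl⟩ ⟨a', ha', b', hb', rfl⟩
    exact ⟨a + a', A.add_mem ha ha', b + b', A.add_mem hb hb', by ring⟩
  algebraMap_mem' := fun r => ⟨algebraMap ℂ N r, A.algebraMap_mem r, 0, A.zero_mem, by ring⟩

theorem mem_quadAlg {A : Subalgebra ℂ N} {Z : N} {hZ : Z ^ 2 ∈ A} {x : N} :
    x ∈ quadAlg A Z hZ ↔ ∃ a ∈ A, ∃ b ∈ A, x = a + b * Z := Iff.rfl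

theorem le_quadAlg (A : Subalgebra ℂ N) (Z : N) (hZ : Z ^ 2 ∈ A) : A ≤ quadAlg A Z hZ :=
  fun a ha => ⟨a, ha, 0, A.zero_mem, by ring⟩

theorem self_quadAlg (A : Subalgebra ℂ N) (Z : N) (hZ : Z ^ 2 ∈ A) : Z ∈ quadAlg A Z hZ :=
  ⟨0, A.zero_mem, 1, A.one_mem, by ring⟩

theorem quadAlg_fg {A : Subalgebra ℂ N} (hA : A.FG) (Z : N) (hZ : Z ^ 2 ∈ A) :
    (quadAlg A Z hZ).FG := by
  have h1 : quadAlg A Z hZ = A ⊔ Algebra.adjoin ℂ {Z} := by
    apply le_antisymm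
    · rintro _ ⟨a, ha, b, hb, rfl⟩
      have hle : A ≤ A ⊔ Algebra.adjoin ℂ {Z} := le_sup_left
      have hZm : Z ∈ A ⊔ Algebra.adjoin ℂ {Z} :=
        (le_sup_right : Algebra.adjoin ℂ {Z} ≤ A ⊔ Algebra.adjoin ℂ {Z})
          (Algebra.subset_adjoin rfl)
      exact add_mem (hle ha) (mul_mem (hle hb) hZm)
    · apply sup_le (le_quadAlg A Z hZ)
      rw [Algebra.adjoin_le_iff]
      rintro x (rfl : x = Z)
      exact self_quadAlg A x hZ
  rw [h1]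
  exact hA.sup (Subalgebra.fg_adjoin_finset {Z} |> fun h => by simpa using h)

/-- Homomorphisms from the quadratic extension of an algebra. -/
theorem quad_hom (A : Subalgebra ℂ N) (N1 : IntermediateField ℂ N) (hA : ∀ a ∈ A, a ∈ N1) (Z : N)
    (hZN : Z ∉ N1) (hZ : Z ^ 2 ∈ A) {M : Type} [CommRing M] [Algebra ℂ M] (m : A →ₐ[ℂ] M) (z : M)
    (hz : z ^ 2 = m ⟨Z ^ 2, hZ⟩) :
    ∃ m' : quadAlg A Z hZ →ₐ[ℂ] M, (∀ a : A, m' ⟨a, le_quadAlg A Z hZ a.2⟩ = m a) ∧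
      m' ⟨Z, self_quadAlg A Z hZ⟩ = z := by
  let A2 := quadAlg A Z hZ
  let ψ : (A : Type)[X] →ₐ[ℂ] A2 := Polynomial.eval₂AlgHom
    (Subalgebra.inclusion (le_quadAlg A Z hZ)) ⟨Z, self_quadAlg A Z hZ⟩
    (fun _ => Commute.all _ _)
  let g : (A : Type)[X] →ₐ[ℂ] M := Polynomial.eval₂AlgHom m z (fun _ => Commute.all _ _)
  have hψ : ∀ F, ψ F = F.eval₂ (Subalgebra.inclusion (le_quadAlg A Z hZ)).toRingHom
      ⟨Z, self_quadAlg A Z hZ⟩ := fun F => rfl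
  have hg : ∀ F, g F = F.eval₂ m.toRingHom z := fun F => rfl
  have hψs : Function.Surjective ψ := by
    rintro ⟨x, a, ha, b, hb, hx⟩
    refine ⟨Polynomial.C ⟨a, ha⟩ + Polynomial.C ⟨b, hb⟩ * Polynomial.X, ?_⟩
    rw [hψ]
    simp only [eval₂_add, eval₂_mul, eval₂_C, eval₂_X]
    apply Subtype.ext
    exact hx.symm
  obtain ⟨m', hm'⟩ := exists_alg_lift ψ hψs g (by
    intro F hF
    obtain ⟨G, a, b, rfl⟩ := exists_quad_rem (⟨Z ^ 2, hZ⟩ : A) F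
    rw [hψ] at hF
    rw [hg]
    simp only [eval₂_mul, eval₂_C, eval₂_add, eval₂_sub, eval₂_X, eval₂_X_pow] at hF ⊢
    have h1 := congrArg (Subtype.val) hF
    change (Z ^ 2 - Z ^ 2) * _ + (b : N) * Z + (a : N) = 0 at h1
    rw [sub_self, zero_mul, zero_add] at h1
    obtain ⟨h2, h3⟩ := quad_unique N1 Z hZN (hA a a.2) (hA b b.2) N1.zero_mem N1.zero_mem
      (show (a : N) + b * Z = 0 + 0 * Z by rw [add_comm, h1]; ring)
    have h4 : a = 0 := Subtype.ext h2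
    have h5 : b = 0 := Subtype.ext h3
    change (z ^ 2 - m ⟨Z ^ 2, hZ⟩) * _ + m b * z + m a = 0
    rw [h4, h5, hz, sub_self, map_zero]
    ring)
  refine ⟨m', fun a => ?_, ?_⟩
  · have h1 := hm' (Polynomial.C a)
    rw [hψ, hg, eval₂_C, eval₂_C] at h1
    exact h1
  · have h1 := hm' Polynomial.X
    rw [hψ, hg, eval₂_X, eval₂_X] at h1
    exact h1

/-- Homomorphisms from the quadratic extension are determined by the restriction and the value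
at `Z`. -/
theorem quad_hom_ext {A : Subalgebra ℂ N} {Z : N} {hZ : Z ^ 2 ∈ A} {M : Type} [CommRing M]
    [Algebra ℂ M] {m m' : quadAlg A Z hZ →ₐ[ℂ] M}
    (h1 : ∀ a : A, m ⟨a, le_quadAlg A Z hZ a.2⟩ = m' ⟨a, le_quadAlg A Z hZ a.2⟩)
    (h2 : m ⟨Z, self_quadAlg A Z hZ⟩ = m' ⟨Z, self_quadAlg A Z hZ⟩) : m = m' := by
  apply AlgHom.ext
  rintro ⟨x, a, ha, b, hb, rfl⟩
  have h3 : (⟨a + b * Z, ⟨a, ha, b, hb, rfl⟩⟩ : quadAlg A Z hZ) =
      ⟨a, le_quadAlg A Z hZ ha⟩ + ⟨b, le_quadAlg A Z hZ hb⟩ * ⟨Z, self_quadAlg A Z hZ⟩ := rfl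
  rw [h3, map_add, map_add, map_mul, map_mul, h1 ⟨a, ha⟩, h1 ⟨b, hb⟩, h2]

end

end Vale.Agent.P297.H212
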