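import Vale.Agent.P297.Bdl.B1
import Mathlib.RingTheory.Jacobson.Ring

/-!
The constant value of a cycle of `N`-valued points.
-/

set_option linter.unusedSectionVars false
set_option linter.style.haveILetI false

open CategoryTheory AlgebraicGeometry IntermediateField Polynomial

namespace Vale.Agent.P297

/-- A nonzero algebra of finite type has a complex point. -/
theorem exists_cpoint (A : Type) [CommRing A] [Nontrivial A] [Algebra ℂ A]
    [Algebra.FiniteType ℂ A] : Nonempty (A →ₐ[ℂ] ℂ) := by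
  obtain ⟨m, hm⟩ := Ideal.exists_maximal A
  letI : Field (A ⧸ m) := Ideal.Quotient.field m
  haveI : Algebra.FiniteType ℂ (A ⧸ m) := inferInstance
  haveI : Module.Finite ℂ (A ⧸ m) := finite_of_finite_type_of_isJacobsonRing ℂ (A ⧸ m)
  let e : (A ⧸ m) ≃ₐ[ℂ] ℂ := (AlgEquiv.ofBijective (Algebra.ofId ℂ (A ⧸ m))
    (IsAlgClosed.algebraMap_bijective_of_isIntegral)).symm
  exact ⟨e.toAlgHom.comp (Ideal.Quotient.mkₐ ℂ m)⟩

section

variable {S : Scheme.{0}} (f : S ⟶ Spec (.of ℂ)) [IsProper f] {C : Type} [CommRing C] [Algebra ℂ C]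
  (j : Spec (.of C) ⟶ S)
  (hj : j ≫ f = Spec.map (CommRingCat.ofHom (algebraMap ℂ C)))

/-- The cycle `v` of `N`-valued points has the constant value `κ` modulo `R`. -/
def HasVal (R : AddSubgroup (ZeroCycle S)) (N : Type) [Field N] [Algebra ℂ N]
    (v : (C →ₐ[ℂ] N) →₀ ℤ) (κ : ZeroCycle S ⧸ R) : Prop :=
  ∃ A₀ : Subalgebra ℂ N, A₀.FG ∧ ∀ B : Subalgebra ℂ N, A₀ ≤ B →
    ∀ ξ : B →ₐ[ℂ] ℂ, QuotientAddGroup.mk' R (pair f j hj B ξ v) = κ

variable {f j hj} {R : AddSubgroup (ZeroCycle S)} {N : Type} [Field N] [Algebra ℂ N]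

theorem HasVal.zero : HasVal f j hj R N 0 0 :=
  ⟨⊥, Subalgebra.fg_bot, fun B _ ξ => by rw [map_zero, map_zero]⟩

theorem HasVal.add {v w : (C →ₐ[ℂ] N) →₀ ℤ} {κ μ : ZeroCycle S ⧸ R} (hv : HasVal f j hj R N v κ)
    (hw : HasVal f j hj R N w μ) : HasVal f j hj R N (v + w) (κ + μ) := by
  obtain ⟨A, hA, h⟩ := hv
  obtain ⟨A', hA', h'⟩ := hw
  refine ⟨A ⊔ A', hA.sup hA', fun B hB ξ => ?_⟩
  rw [map_add, map_add, h B (le_sup_left.trans hB), h' B (le_sup_right.trans hB)]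

theorem HasVal.neg {v : (C →ₐ[ℂ] N) →₀ ℤ} {κ : ZeroCycle S ⧸ R} (hv : HasVal f j hj R N v κ) :
    HasVal f j hj R N (-v) (-κ) := by
  obtain ⟨A, hA, h⟩ := hv
  refine ⟨A, hA, fun B hB ξ => ?_⟩
  rw [map_neg, map_neg, h B hB]

theorem HasVal.sub {v w : (C →ₐ[ℂ] N) →₀ ℤ} {κ μ : ZeroCycle S ⧸ R} (hv : HasVal f j hj R N v κ)
    (hw : HasVal f j hj R N w μ) : HasVal f j hj R N (v - w) (κ - μ) := by
  rw [sub_eq_add_neg, sub_eq_add_neg]
  exact hv.add hw.neg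

theorem HasVal.good {v : (C →ₐ[ℂ] N) →₀ ℤ} {κ : ZeroCycle S ⧸ R} (hv : HasVal f j hj R N v κ) :
    v ∈ Good f j hj R N := by
  obtain ⟨A, hA, h⟩ := hv
  refine ⟨A, hA, fun B hB ξ₁ ξ₂ => ?_⟩
  rw [← QuotientAddGroup.eq_zero_iff, ← QuotientAddGroup.mk'_apply, map_sub, h B hB, h B hB,
    sub_self]

theorem HasVal.unique {v : (C →ₐ[ℂ] N) →₀ ℤ} {κ κ' : ZeroCycle S ⧸ R}
    (h : HasVal f j hj R N v κ) (h' : HasVal f j hj R N v κ') : κ = κ' := by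
  obtain ⟨A, hA, h⟩ := h
  obtain ⟨A', hA', h'⟩ := h'
  haveI : Algebra.FiniteType ℂ ↥(A ⊔ A') := (A ⊔ A').fg_iff_finiteType.1 (hA.sup hA')
  obtain ⟨ξ⟩ := exists_cpoint ↥(A ⊔ A')
  rw [← h _ le_sup_left ξ, ← h' _ le_sup_right ξ]

/-- The value of a difference. -/
theorem HasVal.sub_zero_of {v w : (C →ₐ[ℂ] N) →₀ ℤ} {κ : ZeroCycle S ⧸ R}
    (hv : HasVal f j hj R N v κ) (hw : HasVal f j hj R N w κ) : HasVal f j hj R N (v - w) 0 := by
  have h := hv.sub hw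
  rwa [sub_self] at h

/-- The values on a smaller algebra. -/
theorem pair_inclusion {v : (C →ₐ[ℂ] N) →₀ ℤ} {A B : Subalgebra ℂ N} (h : A ≤ B)
    (hv : ∀ ι ∈ v.support, ∀ c, ι c ∈ A) (ξ : B →ₐ[ℂ] ℂ) :
    pair f j hj B ξ v = pair f j hj A (ξ.comp (Subalgebra.inclusion h)) v := by
  have key : ∀ D : Subalgebra ℂ N, ∀ χ : D →ₐ[ℂ] ℂ,
      pair f j hj D χ v = v.sum fun ι n => n • cyc f j hj D χ ι := fun D χ => rfl
  rw [key, key]
  refine Finsupp.sum_congr fun ι hι => ?_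
  congr 1
  rw [cyc_of_mem f j hj B ξ ι (fun c => h (hv ι hι c)), cyc_of_mem f j hj A _ ι (hv ι hι)]
  rfl

/-- Good cycles have a value. -/
theorem exists_val [Algebra.FiniteType ℂ C] {v : (C →ₐ[ℂ] N) →₀ ℤ} (hv : v ∈ Good f j hj R N) :
    ∃ κ, HasVal f j hj R N v κ := by
  classical
  obtain ⟨A, hA, h⟩ := hv
  let A' : Subalgebra ℂ N := A ⊔ v.support.sup (fun ι => ι.range)
  have hA' : A'.FG := by
    refine hA.sup ?_
    refine Finset.sup_induction Subalgebra.fg_bot (fun _ h _ h' => h.sup h') fun ι _ => ?_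
    rw [← Algebra.map_top]
    exact (Algebra.FiniteType.out).map ι
  have hmem : ∀ ι ∈ v.support, ∀ c, ι c ∈ A' := by
    intro ι hι c
    have h1 : ι.range ≤ A' := (Finset.le_sup (f := fun ι : C →ₐ[ℂ] N => ι.range) hι).trans
      le_sup_right
    exact h1 ⟨c, rfl⟩
  haveI : Algebra.FiniteType ℂ A' := A'.fg_iff_finiteType.1 hA'
  obtain ⟨ξ₀⟩ := exists_cpoint A'
  refine ⟨QuotientAddGroup.mk' R (pair f j hj A' ξ₀ v), A', hA', fun B hB ξ => ?_⟩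
  rw [pair_inclusion hB hmem, QuotientAddGroup.mk'_apply, QuotientAddGroup.mk'_apply,
    QuotientAddGroup.eq_iff_sub_mem]
  exact h A' le_sup_left _ _

theorem good_iff_val [Algebra.FiniteType ℂ C] {v : (C →ₐ[ℂ] N) →₀ ℤ} :
    v ∈ Good f j hj R N ↔ ∃ κ, HasVal f j hj R N v κ :=
  ⟨exists_val, fun ⟨_, h⟩ => h.good⟩

/-- Values are invariant under homomorphisms of fields. -/
theorem HasVal.map {K : Type} [Field K] [Algebra ℂ K] (m : K →ₐ[ℂ] N) {v : (C →ₐ[ℂ] K) →₀ ℤ}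
    {κ : ZeroCycle S ⧸ R} (hv : HasVal f j hj R K v κ) :
    HasVal f j hj R N (Finsupp.mapDomain (fun ι => m.comp ι) v) κ := by
  obtain ⟨A, hA, h⟩ := hv
  refine ⟨A.map m, hA.map m, fun B hB ξ => ?_⟩
  rw [pair_map]
  exact h (B.comap m) (Subalgebra.map_le.1 hB) _

end

end Vale.Agent.P297
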