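import Vale.Agent.P297.H212.Tab

/-!
Identities between the polynomials of the twin of the Craighero-Gattazzo surface.
-/

set_option linter.unusedSimpArgs false

namespace Vale.Agent.P297.H212

open Vale.Agent.P297.H160

variable {A : Type*} [CommRing A]

/-- program -/
def prog5 : List Ex :=
  [.app 3 tE0 (.v 0) k1 (.v 1) k1,
   .app 3 tE1 (.v 0) k1 (.v 1) k1,
   .sub (.mul (.app 3 tJ0 (.v 0) k1 (.v 1) k1) (.r 0)) (.mul (.app 3 tJ1 (.v 0) k1 (.v 1) k1) (.r 1)),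
   .sub (.sub (.app 6 tP (.v 0) k1 (.sub (.k 0 0 0) (.r 2)) (.r 1))
      (.mul (.app 3 tH (.v 0) k1 (.sub (.k 0 0 0) (.r 2)) (.r 1)) (.r 0)))
     (.mul (.mul (.k 2 0 0) (.mul (.app 3 tC3 (.v 0) k1 k1 k1) (.app 5 tB1 (.v 0) k1 (.v 1) k1)))
      (.pow (.mul (.k 2 3 0) (.mul (.app 2 tQ (.v 0) k1 (.v 1) k1) (.app 2 tQd (.v 0) k1 k1 k1))) 2))]

theorem check5 : check (.k 0 0 0) (.k 0 0 0) prog5 [60, 1300] = true := by
  decide +kernel

theorem id5 {c : A} (hc : c ^ 3 = c ^ 2 - 1) (m s : A) :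
    ph c m (-(e0 c m s)) (e1 c m s) - hq c m (-(e0 c m s)) (e1 c m s) * jj c m s =
      2 * (c3 c m 1 * bb1 c m 1 s) * ((2 + 3 * c) * (qq c m s * qd c m)) ^ 2 := by
  obtain ⟨l, hl⟩ := check0 check5 (two m s) hc
  simp only [prog5, List.length, zero_add, Nat.reduceAdd, run_cons, run_nil, ev_app, ev_add, ev_sub, ev_mul, ev_pow, ev_k1,
    ev_v0, ev_v1, ev_r0, ev_r1, ev_r2, ev_r3, ev_k, bE0, bE1, bJ0, bJ1, bP, bH, bC3, bQd, bQ, bB1,
    List.cons.injEq] at hl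
  have h := hl.1
  push_cast at h
  simp only [zero_mul, add_zero, zero_sub] at h
  unfold jj
  linear_combination h

/-- program -/
def prog6 : List Ex :=
  [.sub (.sub (.pow (.app 3 tW1 (.v 0) k1 (.v 1) k1) 2) (.mul (.mul (.k 4 0 0)
    (.app 3 tW0 (.v 0) k1 (.v 1) k1)) (.app 3 tW2 (.v 0) k1 (.v 1) k1)))
    (.app 6 tGam (.v 0) k1 (.v 1) k1)]

theorem check6 : check (.k 0 0 0) (.k 0 0 0) prog6 [30, 300] = true := by
  decide +kernel

theorem id6 {c : A} (hc : c ^ 3 = c ^ 2 - 1) (m r : A) :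
    (a1 c m + r * b1 c m) ^ 2 - 4 * (a0 c m + r * b0 c m) * (a2 c m + r * b2 c m) =
      Vale.Agent.P297.H600.gam c m r := by
  obtain ⟨l, hl⟩ := check0 check6 (two m r) hc
  simp only [prog6, List.length, zero_add, Nat.reduceAdd, run_cons, run_nil, ev_app, ev_add,
    ev_sub, ev_mul, ev_pow, ev_k1, ev_v0, ev_v1, ev_r0, ev_r1, ev_r2, ev_r3, ev_k, bW0, bW1, bW2,
    bGam, List.cons.injEq] at hl
  have h := hl.1
  push_cast at h
  simp only [zero_mul, add_zero, zero_sub] at h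
  linear_combination h

/-- program -/
def progA : List Ex :=
  [.app 3 tM1 (.v 0) k1 (.v 1) k1,
   .app 3 tM2 (.v 0) k1 (.v 1) k1,
   .sub (.app 3 tC3 (.r 1) (.r 0) k1 k1)
     (.mul (.k (-25) (-13) 14) (.mul (.app 5 tG (.v 0) k1 k1 k1) (.app 3 tAA (.v 0) k1 (.v 1) k1)))]

theorem checkA : check (.k 0 0 0) (.k 0 0 0) progA [40, 800] = true := by
  decide +kernel

theorem idA {c : A} (hc : c ^ 3 = c ^ 2 - 1) (s t : A) :
    c3 c (m1 c s t) (m2 c s t) = (-25 - 13 * c + 14 * c ^ 2) * (gs c s * aa c s t) := by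
  obtain ⟨l, hl⟩ := check0 checkA (two s t) hc
  simp only [progA, List.length, zero_add, Nat.reduceAdd, run_cons, run_nil, ev_app, ev_add,
    ev_sub, ev_mul, ev_pow, ev_k1, ev_v0, ev_v1, ev_r0, ev_r1, ev_r2, ev_r3, ev_k, bM1, bM2, bC3,
    bG, bAA, List.cons.injEq] at hl
  have h := hl.1
  push_cast at h
  linear_combination h

/-- program -/
def progB : List Ex :=
  [.app 3 tM1 (.v 0) k1 (.v 1) k1,
   .app 3 tM2 (.v 0) k1 (.v 1) k1,
   .sub (.app 5 tB1 (.r 1) (.r 0) (.v 0) k1)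
     (.mul (.k (-656) (-65) 1074) (.mul (.pow (.app 5 tG (.v 0) k1 k1 k1) 3)
      (.app 3 tBB (.v 0) k1 (.v 1) k1)))]

theorem checkB : check (.k 0 0 0) (.k 0 0 0) progB [60, 1600] = true := by
  decide +kernel

theorem idB {c : A} (hc : c ^ 3 = c ^ 2 - 1) (s t : A) :
    bb1 c (m1 c s t) (m2 c s t) s =
      (-656 - 65 * c + 1074 * c ^ 2) * (gs c s ^ 3 * bb c s t) := by
  obtain ⟨l, hl⟩ := check0 checkB (two s t) hc
  simp only [progB, List.length, zero_add, Nat.reduceAdd, run_cons, run_nil, ev_app, ev_add,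
    ev_sub, ev_mul, ev_pow, ev_k1, ev_v0, ev_v1, ev_r0, ev_r1, ev_r2, ev_r3, ev_k, bM1, bM2, bB1,
    bG, bBB, List.cons.injEq] at hl
  have h := hl.1
  push_cast at h
  linear_combination h

/-- program -/
def progD : List Ex :=
  [.app 3 tM1 (.v 1) k1 (.v 0) k1,
   .app 3 tM2 (.v 1) k1 (.v 0) k1,
   .sub (.app 3 tBp (.r 1) (.r 0) (.v 1) k1)
     (.mul (.k (-14) (-25) 1) (.mul (.app 5 tG (.v 1) k1 k1 k1)
      (.app 3 tBB (.v 0) k1 (.v 1) k1)))]

theorem checkD : check (.k 0 0 0) (.k 0 0 0) progD [60, 1600] = true := by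
  decide +kernel

theorem idD {c : A} (hc : c ^ 3 = c ^ 2 - 1) (s t : A) :
    bp c (m1 c t s) (m2 c t s) t =
      (-14 - 25 * c + c ^ 2) * (gs c t * bb c s t) := by
  obtain ⟨l, hl⟩ := check0 checkD (two s t) hc
  simp only [progD, List.length, zero_add, Nat.reduceAdd, run_cons, run_nil, ev_app, ev_add,
    ev_sub, ev_mul, ev_pow, ev_k1, ev_v0, ev_v1, ev_r0, ev_r1, ev_r2, ev_r3, ev_k, bM1, bM2, bBp,
    bG, bBB, List.cons.injEq] at hl
  have h := hl.1
  push_cast at h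
  linear_combination h

theorem aa_symm (c s t : A) : aa c s t = aa c t s := by
  unfold aa
  ring

theorem ph_one (c m r : A) : ph c m r 1 = Vale.Agent.P297.H600.pp0 c m r := by
  unfold ph Vale.Agent.P297.H600.pp0
  ring

theorem hq_one (c m r : A) : hq c m r 1 = Vale.Agent.P297.H600.hh c m r := by
  unfold hq Vale.Agent.P297.H600.hh
  ring

theorem ph_hom (c m x y l : A) : ph c m (x * l) (y * l) = ph c m x y * l ^ 4 := by
  unfold ph
  ring

theorem hq_hom (c m x y l : A) : hq c m (x * l) (y * l) = hq c m x y * l ^ 3 := by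
  unfold hq
  ring

theorem c3_hom (c x y l : A) : c3 c (x * l) (y * l) = c3 c x y * l ^ 3 := by
  unfold c3
  ring

theorem bb1_hom (c x y s l : A) : bb1 c (x * l) (y * l) s = bb1 c x y s * l ^ 5 := by
  unfold bb1
  ring

theorem bp_hom (c x y t l : A) : bp c (x * l) (y * l) t = bp c x y t * l ^ 3 := by
  unfold bp bp0 bp1 bp2
  ring

end Vale.Agent.P297.H212
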