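import Vale.Agent.P297.H212.KProg
import Vale.Agent.P297.H212.Ids

/-!
Identities between the forms of the bicanonical pencil of the Craighero-Gattazzo quintic.
-/

set_option linter.unusedSimpArgs false

namespace Vale.Agent.P297.H212

open Vale.Agent.P297.H160

/-- three values -/
def three {A : Type*} (x y z : A) : ℕ → A
  | 0 => x
  | 1 => y
  | _ + 2 => z

/-- the forms -/
def progR : List Ex :=
  [xrr1 (.v 0) (.v 1) (.v 2), xrr2 (.v 0) (.v 1) (.v 2), xrr3 (.v 0) (.v 1) (.v 2),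
   xrr4 (.v 0) (.v 1) (.v 2), xff (.v 0) (.v 1) (.v 2)]

/-- the quadric -/
def progQ : List Ex :=
  progR ++
  [.sub (.add (xqa (.mul (.v 0) (.v 2)) (.v 1) (.r 4) (.r 3))
      (.add (.mul (xqb2 (.mul (.v 0) (.v 2)) (.v 1)) (.pow (.r 2) 2))
        (.add (.mul (xqb1 (.mul (.v 0) (.v 2)) (.v 1)) (.mul (.r 2) (.r 1)))
          (.mul (xqb0 (.mul (.v 0) (.v 2)) (.v 1)) (.pow (.r 1) 2)))))
    (.mul (xcofq (.v 0) (.v 1) (.v 2)) (.r 0))]

/-- the cubic -/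
def progK : List Ex :=
  progR ++
  [.sub (.add (xka (.mul (.v 0) (.v 2)) (.v 1) (.r 4) (.r 3))
      (.add (.mul (xkb2 (.mul (.v 0) (.v 2)) (.v 1) (.r 4) (.r 3)) (.pow (.r 2) 2))
        (.add (.mul (xkb1 (.mul (.v 0) (.v 2)) (.v 1) (.r 4) (.r 3)) (.mul (.r 2) (.r 1)))
          (.mul (xkb0 (.mul (.v 0) (.v 2)) (.v 1) (.r 4) (.r 3)) (.pow (.r 1) 2)))))
    (.mul (xcofk (.v 0) (.v 1) (.v 2)) (.r 0))]

/-- a bilinear relation -/
def progL (lx ly lu lv : Ex → Ex → Ex → Ex → Ex → Ex → Ex) : List Ex :=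
  progR ++
  [.add (.add (.mul (lx (.mul (.v 0) (.v 2)) (.v 1) (.r 4) (.r 3) (.r 2) (.r 1))
        (.add (.v 0) (.v 2)))
      (.mul (ly (.mul (.v 0) (.v 2)) (.v 1) (.r 4) (.r 3) (.r 2) (.r 1)) (.add (.v 1) k1)))
    (.add (.mul (lu (.mul (.v 0) (.v 2)) (.v 1) (.r 4) (.r 3) (.r 2) (.r 1))
        (.sub (.v 0) (.v 2)))
      (.mul (lv (.mul (.v 0) (.v 2)) (.v 1) (.r 4) (.r 3) (.r 2) (.r 1)) (.sub (.v 1) k1)))]

theorem checkQ : check (.k 0 0 0) (.k 0 0 0) progQ [50, 600, 8000] = true := by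
  decide +kernel

theorem checkK : check (.k 0 0 0) (.k 0 0 0) progK [50, 700, 10000] = true := by
  decide +kernel

theorem checkL1 : check (.k 0 0 0) (.k 0 0 0) (progL xl1x xl1y xl1u xl1v) [50, 600, 8000] = true := by
  decide +kernel

theorem checkL2 : check (.k 0 0 0) (.k 0 0 0) (progL xl2x xl2y xl2u xl2v) [50, 600, 8000] = true := by
  decide +kernel

theorem checkL3 : check (.k 0 0 0) (.k 0 0 0) (progL xl3x xl3y xl3u xl3v) [50, 700, 10000] = true := by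
  decide +kernel

section

variable {A : Type*} [CommRing A]

theorem ev_w0 (c q x y z : A) (st : List A) : (rg c q (three x y z) 3).ev st (.v 0) = x := rfl

theorem ev_w1 (c q x y z : A) (st : List A) : (rg c q (three x y z) 3).ev st (.v 1) = y := rfl

theorem ev_w2 (c q x y z : A) (st : List A) : (rg c q (three x y z) 3).ev st (.v 2) = z := rfl

theorem ev_r4 (c q : A) (f : ℕ → A) (k : ℕ) (st : List A) (a b e g h : A) :
    (rg c q f k).ev (a :: b :: e :: g :: h :: st) (.r 4) = h := rfl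

theorem idQ {c : A} (hc : c ^ 3 = c ^ 2 - 1) (x y z : A) :
    qa c (x * z) y (rr1 c x y z) (rr2 c x y z) + (qb2 c (x * z) y * rr3 c x y z ^ 2 +
      (qb1 c (x * z) y * (rr3 c x y z * rr4 c x y z) + qb0 c (x * z) y * rr4 c x y z ^ 2)) =
      cofq c x y z * Vale.Agent.P297.H600.cgForm c x y z 1 := by
  obtain ⟨l, hl⟩ := check0 checkQ (three x y z) hc
  simp only [progQ, progR, List.cons_append, List.nil_append, List.length, zero_add,
    Nat.reduceAdd, run_cons, run_nil, ev_add, ev_sub, ev_mul, ev_pow, ev_w0, ev_w1, ev_w2, ev_r0,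
    ev_r1, ev_r2, ev_r3, ev_r4, ev_xrr1, ev_xrr2, ev_xrr3, ev_xrr4, ev_xff, ev_xqa, ev_xqb0,
    ev_xqb1, ev_xqb2, ev_xcofq, List.cons.injEq] at hl
  exact sub_eq_zero.1 hl.1

theorem idK {c : A} (hc : c ^ 3 = c ^ 2 - 1) (x y z : A) :
    ka c (x * z) y (rr1 c x y z) (rr2 c x y z) +
      (kb2 c (x * z) y (rr1 c x y z) (rr2 c x y z) * rr3 c x y z ^ 2 +
      (kb1 c (x * z) y (rr1 c x y z) (rr2 c x y z) * (rr3 c x y z * rr4 c x y z) +
        kb0 c (x * z) y (rr1 c x y z) (rr2 c x y z) * rr4 c x y z ^ 2)) =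
      cofk c x y z * Vale.Agent.P297.H600.cgForm c x y z 1 := by
  obtain ⟨l, hl⟩ := check0 checkK (three x y z) hc
  simp only [progK, progR, List.cons_append, List.nil_append, List.length, zero_add,
    Nat.reduceAdd, run_cons, run_nil, ev_add, ev_sub, ev_mul, ev_pow, ev_w0, ev_w1, ev_w2, ev_r0,
    ev_r1, ev_r2, ev_r3, ev_r4, ev_xrr1, ev_xrr2, ev_xrr3, ev_xrr4, ev_xff, ev_xka, ev_xkb0,
    ev_xkb1, ev_xkb2, ev_xcofk, List.cons.injEq] at hl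
  exact sub_eq_zero.1 hl.1

theorem idL1 {c : A} (hc : c ^ 3 = c ^ 2 - 1) (x y z : A) :
    l1x c (x * z) y (rr1 c x y z) (rr2 c x y z) (rr3 c x y z) (rr4 c x y z) * (x + z) +
      l1y c (x * z) y (rr1 c x y z) (rr2 c x y z) (rr3 c x y z) (rr4 c x y z) * (y + 1) +
      (l1u c (x * z) y (rr1 c x y z) (rr2 c x y z) (rr3 c x y z) (rr4 c x y z) * (x - z) +
      l1v c (x * z) y (rr1 c x y z) (rr2 c x y z) (rr3 c x y z) (rr4 c x y z) * (y - 1)) = 0 := by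
  obtain ⟨l, hl⟩ := check0 checkL1 (three x y z) hc
  simp only [progL, progR, List.cons_append, List.nil_append, List.length, zero_add,
    Nat.reduceAdd, run_cons, run_nil, ev_add, ev_sub, ev_mul, ev_pow, ev_w0, ev_w1, ev_w2, ev_r0,
    ev_r1, ev_r2, ev_r3, ev_r4, ev_xrr1, ev_xrr2, ev_xrr3, ev_xrr4, ev_xff, ev_xl1x, ev_xl1y,
    ev_xl1u, ev_xl1v, ev_k1, List.cons.injEq] at hl
  exact hl.1

theorem idL2 {c : A} (hc : c ^ 3 = c ^ 2 - 1) (x y z : A) :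
    l2x c (x * z) y (rr1 c x y z) (rr2 c x y z) (rr3 c x y z) (rr4 c x y z) * (x + z) +
      l2y c (x * z) y (rr1 c x y z) (rr2 c x y z) (rr3 c x y z) (rr4 c x y z) * (y + 1) +
      (l2u c (x * z) y (rr1 c x y z) (rr2 c x y z) (rr3 c x y z) (rr4 c x y z) * (x - z) +
      l2v c (x * z) y (rr1 c x y z) (rr2 c x y z) (rr3 c x y z) (rr4 c x y z) * (y - 1)) = 0 := by
  obtain ⟨l, hl⟩ := check0 checkL2 (three x y z) hc
  simp only [progL, progR, List.cons_append, List.nil_append, List.length, zero_add,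
    Nat.reduceAdd, run_cons, run_nil, ev_add, ev_sub, ev_mul, ev_pow, ev_w0, ev_w1, ev_w2, ev_r0,
    ev_r1, ev_r2, ev_r3, ev_r4, ev_xrr1, ev_xrr2, ev_xrr3, ev_xrr4, ev_xff, ev_xl2x, ev_xl2y,
    ev_xl2u, ev_xl2v, ev_k1, List.cons.injEq] at hl
  exact hl.1

theorem idL3 {c : A} (hc : c ^ 3 = c ^ 2 - 1) (x y z : A) :
    l3x c (x * z) y (rr1 c x y z) (rr2 c x y z) (rr3 c x y z) (rr4 c x y z) * (x + z) +
      l3y c (x * z) y (rr1 c x y z) (rr2 c x y z) (rr3 c x y z) (rr4 c x y z) * (y + 1) +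
      (l3u c (x * z) y (rr1 c x y z) (rr2 c x y z) (rr3 c x y z) (rr4 c x y z) * (x - z) +
      l3v c (x * z) y (rr1 c x y z) (rr2 c x y z) (rr3 c x y z) (rr4 c x y z) * (y - 1)) = 0 := by
  obtain ⟨l, hl⟩ := check0 checkL3 (three x y z) hc
  simp only [progL, progR, List.cons_append, List.nil_append, List.length, zero_add,
    Nat.reduceAdd, run_cons, run_nil, ev_add, ev_sub, ev_mul, ev_pow, ev_w0, ev_w1, ev_w2, ev_r0,
    ev_r1, ev_r2, ev_r3, ev_r4, ev_xrr1, ev_xrr2, ev_xrr3, ev_xrr4, ev_xff, ev_xl3x, ev_xl3y,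
    ev_xl3u, ev_xl3v, ev_k1, List.cons.injEq] at hl
  exact hl.1

end

/-- elimination -/
def progE3 : List Ex :=
  [ -- 8: b2
   xqb2 (.v 0) k1,
   xqb1 (.v 0) k1,
   xqb0 (.v 0) k1,
   xkb2 (.v 0) k1 (.v 1) k1,
   xkb1 (.v 0) k1 (.v 1) k1,
   xkb0 (.v 0) k1 (.v 1) k1,
   xqa (.v 0) k1 (.v 1) k1,
   xka (.v 0) k1 (.v 1) k1,
   -- now r7 = b2, r6 = b1, r5 = b0, r4 = e2, r3 = e1, r2 = e0, r1 = A, r0 = C; push D1
   .sub (.mul (.r 4) (.r 6)) (.mul (.r 7) (.r 3)),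
   -- r8 = b2, r7 = b1, r6 = b0, r5 = e2, r4 = e1, r3 = e0, r2 = A, r1 = C, r0 = D1; push D0 t + DA
   .add (.mul (.sub (.mul (.r 5) (.r 6)) (.mul (.r 8) (.r 3))) (.v 2))
     (.sub (.mul (.r 5) (.r 2)) (.mul (.r 8) (.r 1))),
   -- r9 = b2, r8 = b1, r7 = b0, r3 = A, r1 = D1, r0 = N
   .sub (.add (.sub (.mul (.r 9) (.pow (.r 0) 2)) (.mul (.mul (.r 8) (.v 2)) (.mul (.r 1) (.r 0))))
      (.add (.mul (.r 7) (.pow (.mul (.r 1) (.v 2)) 2)) (.mul (.mul (.r 3) (.v 2)) (.pow (.r 1) 2))))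
     (.mul (.mul (.mul (.k 2 1 (-2)) (.pow (.v 0) 2)) (.r 9))
       (.add (.sub (.mul (.app 6 tGam (.v 0) k1 (.v 1) k1) (.pow (.v 2) 2))
         (.mul (.mul (.k 2 0 0) (.app 6 tP (.v 0) k1 (.v 1) k1)) (.v 2)))
         (.pow (.app 3 tH (.v 0) k1 (.v 1) k1) 2)))]

theorem checkE3 : check (.k 0 0 0) (.k 0 0 0) progE3 [50, 800, 8000] = true := by
  decide +kernel

section

variable {A : Type*} [CommRing A]

theorem ev_r5 (c q : A) (f : ℕ → A) (k : ℕ) (st : List A) (a0 a1 a2 a3 a4 a5 : A) :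
    (rg c q f k).ev (a0 :: a1 :: a2 :: a3 :: a4 :: a5 :: st) (.r 5) = a5 := rfl

theorem ev_r6 (c q : A) (f : ℕ → A) (k : ℕ) (st : List A) (a0 a1 a2 a3 a4 a5 a6 : A) :
    (rg c q f k).ev (a0 :: a1 :: a2 :: a3 :: a4 :: a5 :: a6 :: st) (.r 6) = a6 := rfl

theorem ev_r7 (c q : A) (f : ℕ → A) (k : ℕ) (st : List A) (a0 a1 a2 a3 a4 a5 a6 a7 : A) :
    (rg c q f k).ev (a0 :: a1 :: a2 :: a3 :: a4 :: a5 :: a6 :: a7 :: st) (.r 7) = a7 := rfl

theorem ev_r8 (c q : A) (f : ℕ → A) (k : ℕ) (st : List A) (a0 a1 a2 a3 a4 a5 a6 a7 a8 : A) :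
    (rg c q f k).ev (a0 :: a1 :: a2 :: a3 :: a4 :: a5 :: a6 :: a7 :: a8 :: st) (.r 8) = a8 := rfl

theorem ev_r9 (c q : A) (f : ℕ → A) (k : ℕ) (st : List A)
    (a0 a1 a2 a3 a4 a5 a6 a7 a8 a9 : A) :
    (rg c q f k).ev (a0 :: a1 :: a2 :: a3 :: a4 :: a5 :: a6 :: a7 :: a8 :: a9 :: st) (.r 9) =
      a9 := rfl

/-- the coefficient `D₁` of the elimination -/
def dd1 (c m r : A) : A :=
  kb2 c m 1 r 1 * qb1 c m 1 - qb2 c m 1 * kb1 c m 1 r 1

/-- the remainder `D₀ t + D_A` of the elimination -/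
def nn1 (c m r t : A) : A :=
  (kb2 c m 1 r 1 * qb0 c m 1 - qb2 c m 1 * kb0 c m 1 r 1) * t +
    (kb2 c m 1 r 1 * qa c m 1 r 1 - qb2 c m 1 * ka c m 1 r 1)

theorem idE {c : A} (hc : c ^ 3 = c ^ 2 - 1) (m r t : A) :
    qb2 c m 1 * nn1 c m r t ^ 2 - qb1 c m 1 * t * (dd1 c m r * nn1 c m r t) +
      (qb0 c m 1 * (dd1 c m r * t) ^ 2 + qa c m 1 r 1 * t * dd1 c m r ^ 2) =
      (2 + c - 2 * c ^ 2) * m ^ 2 * qb2 c m 1 *
        (Vale.Agent.P297.H600.gam c m r * t ^ 2 - 2 * Vale.Agent.P297.H600.pp0 c m r * t +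
          Vale.Agent.P297.H600.hh c m r ^ 2) := by
  obtain ⟨l, hl⟩ := check0 checkE3 (three m r t) hc
  simp only [progE3, List.cons_append, List.nil_append, List.length, zero_add,
    Nat.reduceAdd, run_cons, run_nil, ev_add, ev_sub, ev_mul, ev_pow, ev_w0, ev_w1, ev_w2, ev_r0,
    ev_r1, ev_r2, ev_r3, ev_r4, ev_r5, ev_r6, ev_r7, ev_r8, ev_r9, ev_xqa, ev_xqb0,
    ev_xqb1, ev_xqb2, ev_xka, ev_xkb0, ev_xkb1, ev_xkb2, ev_k1, ev_app, bGam, bP, bH, ev_k,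
    ph_one, hq_one, List.cons.injEq] at hl
  have h := hl.1
  push_cast at h
  unfold nn1 dd1
  linear_combination h

end

end Vale.Agent.P297.H212
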