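import Vale.Agent.P297.H212.KPoly
import Vale.Agent.P297.H600.CGDefs
import Mathlib

/-!
Naturality, homogeneity of the forms of the bicanonical pencil.
-/

set_option linter.unusedSimpArgs false

namespace Vale.Agent.P297.H212

open Vale.Agent.P297.H600

/-- coefficient of `z³` in the quintic -/
def f3 {A : Type*} [CommRing A] (c x y : A) : A :=
  ((1 - c - 2 * c ^ 2) + x + (c ^ 2 - 2 * c - 1) * y) ^ 2

/-- coefficient of `z²` in the quintic -/
def f2 {A : Type*} [CommRing A] (c x y : A) : A :=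
  x ^ 3 + (1 - c - 2 * c ^ 2) ^ 2 * y ^ 3 + (c ^ 2 - 2 * c - 1) ^ 2 +
    (2 - 10 * c - 9 * c ^ 2) * (y ^ 2 + x) + (9 - 8 * c ^ 2) * (y ^ 2 * x + y) +
    (3 + c + 4 * c ^ 2) * (x ^ 2 * y + x ^ 2) + (1 - 6 * c + 9 * c ^ 2) * (x * y)

/-- coefficient of `z` in the quintic -/
def f1 {A : Type*} [CommRing A] (c x y : A) : A :=
  2 * x ^ 3 * ((1 - c - 2 * c ^ 2) * y + (c ^ 2 - 2 * c - 1)) +
    2 * (1 - c - 2 * c ^ 2) * y ^ 3 * (1 + (c ^ 2 - 2 * c - 1) * x) +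
    2 * (c ^ 2 - 2 * c - 1) * ((1 - c - 2 * c ^ 2) * x + y) +
    (2 - 10 * c - 9 * c ^ 2) * (x ^ 2 * y ^ 2) + (9 - 8 * c ^ 2) * x ^ 2 +
    (3 + c + 4 * c ^ 2) * y ^ 2 +
    (1 - 6 * c + 9 * c ^ 2) * (x ^ 2 * y + y ^ 2 * x + x * y)

/-- constant coefficient in `z` of the quintic -/
def f0 {A : Type*} [CommRing A] (c x y : A) : A :=
  x ^ 3 * ((1 - c - 2 * c ^ 2) * y + (c ^ 2 - 2 * c - 1)) ^ 2 +
    y ^ 3 * (1 + (c ^ 2 - 2 * c - 1) * x) ^ 2 + ((1 - c - 2 * c ^ 2) * x + y) ^ 2 +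
    (2 - 10 * c - 9 * c ^ 2) * (x ^ 2 * y) + (9 - 8 * c ^ 2) * (x ^ 2 * y ^ 2) +
    (3 + c + 4 * c ^ 2) * (y ^ 2 * x)

theorem cg_cubic {A : Type*} [CommRing A] (c x y z : A) :
    cgForm c x y z 1 = f3 c x y * z ^ 3 + f2 c x y * z ^ 2 + f1 c x y * z + f0 c x y := by
  unfold cgForm f3 f2 f1 f0
  ring

/-- the determinant of the three bilinear relations without the column of `X` -/
def det0 {A : Type*} [CommRing A] (c m r p t : A) : A :=
  l1y c m 1 r 1 p t * (l2u c m 1 r 1 p t * l3v c m 1 r 1 p t -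
      l2v c m 1 r 1 p t * l3u c m 1 r 1 p t) -
    l1u c m 1 r 1 p t * (l2y c m 1 r 1 p t * l3v c m 1 r 1 p t -
      l2v c m 1 r 1 p t * l3y c m 1 r 1 p t) +
    l1v c m 1 r 1 p t * (l2y c m 1 r 1 p t * l3u c m 1 r 1 p t -
      l2u c m 1 r 1 p t * l3y c m 1 r 1 p t)

section nat

variable {A B : Type*} [CommRing A] [CommRing B] (φ : A →+* B) (c x y z a b u v p t m r l : A)

theorem map_f3 : φ (f3 c x y) = f3 (φ c) (φ x) (φ y) := by simp [map_ofNat, f3]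
theorem map_f2 : φ (f2 c x y) = f2 (φ c) (φ x) (φ y) := by simp [map_ofNat, f2]
theorem map_f1 : φ (f1 c x y) = f1 (φ c) (φ x) (φ y) := by simp [map_ofNat, f1]
theorem map_f0 : φ (f0 c x y) = f0 (φ c) (φ x) (φ y) := by simp [map_ofNat, f0]
theorem map_rr1 : φ (rr1 c x y z) = rr1 (φ c) (φ x) (φ y) (φ z) := by simp [map_ofNat, rr1]
theorem map_rr2 : φ (rr2 c x y z) = rr2 (φ c) (φ x) (φ y) (φ z) := by simp [map_ofNat, rr2]
theorem map_rr3 : φ (rr3 c x y z) = rr3 (φ c) (φ x) (φ y) (φ z) := by simp [map_ofNat, rr3]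
theorem map_rr4 : φ (rr4 c x y z) = rr4 (φ c) (φ x) (φ y) (φ z) := by simp [map_ofNat, rr4]
theorem map_qa : φ (qa c a b u v) = qa (φ c) (φ a) (φ b) (φ u) (φ v) := by simp [map_ofNat, qa]
theorem map_ka : φ (ka c a b u v) = ka (φ c) (φ a) (φ b) (φ u) (φ v) := by simp [map_ofNat, ka]
theorem map_qb0 : φ (qb0 c a b) = qb0 (φ c) (φ a) (φ b) := by simp [map_ofNat, qb0]
theorem map_kb0 : φ (kb0 c a b u v) = kb0 (φ c) (φ a) (φ b) (φ u) (φ v) := by simp [map_ofNat, kb0]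
theorem map_qb1 : φ (qb1 c a b) = qb1 (φ c) (φ a) (φ b) := by simp [map_ofNat, qb1]
theorem map_kb1 : φ (kb1 c a b u v) = kb1 (φ c) (φ a) (φ b) (φ u) (φ v) := by simp [map_ofNat, kb1]
theorem map_qb2 : φ (qb2 c a b) = qb2 (φ c) (φ a) (φ b) := by simp [map_ofNat, qb2]
theorem map_kb2 : φ (kb2 c a b u v) = kb2 (φ c) (φ a) (φ b) (φ u) (φ v) := by simp [map_ofNat, kb2]
theorem map_l1x : φ (l1x c a b u v p t) =
    l1x (φ c) (φ a) (φ b) (φ u) (φ v) (φ p) (φ t) := by simp [map_ofNat, l1x]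
theorem map_l1y : φ (l1y c a b u v p t) =
    l1y (φ c) (φ a) (φ b) (φ u) (φ v) (φ p) (φ t) := by simp [map_ofNat, l1y]
theorem map_l1u : φ (l1u c a b u v p t) =
    l1u (φ c) (φ a) (φ b) (φ u) (φ v) (φ p) (φ t) := by simp [map_ofNat, l1u]
theorem map_l1v : φ (l1v c a b u v p t) =
    l1v (φ c) (φ a) (φ b) (φ u) (φ v) (φ p) (φ t) := by simp [map_ofNat, l1v]
theorem map_l2x : φ (l2x c a b u v p t) =
    l2x (φ c) (φ a) (φ b) (φ u) (φ v) (φ p) (φ t) := by simp [map_ofNat, l2x]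
theorem map_l2y : φ (l2y c a b u v p t) =
    l2y (φ c) (φ a) (φ b) (φ u) (φ v) (φ p) (φ t) := by simp [map_ofNat, l2y]
theorem map_l2u : φ (l2u c a b u v p t) =
    l2u (φ c) (φ a) (φ b) (φ u) (φ v) (φ p) (φ t) := by simp [map_ofNat, l2u]
theorem map_l2v : φ (l2v c a b u v p t) =
    l2v (φ c) (φ a) (φ b) (φ u) (φ v) (φ p) (φ t) := by simp [map_ofNat, l2v]
theorem map_l3x : φ (l3x c a b u v p t) =
    l3x (φ c) (φ a) (φ b) (φ u) (φ v) (φ p) (φ t) := by simp [map_ofNat, l3x]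
theorem map_l3y : φ (l3y c a b u v p t) =
    l3y (φ c) (φ a) (φ b) (φ u) (φ v) (φ p) (φ t) := by simp [map_ofNat, l3y]
theorem map_l3u : φ (l3u c a b u v p t) =
    l3u (φ c) (φ a) (φ b) (φ u) (φ v) (φ p) (φ t) := by simp [map_ofNat, l3u]
theorem map_l3v : φ (l3v c a b u v p t) =
    l3v (φ c) (φ a) (φ b) (φ u) (φ v) (φ p) (φ t) := by simp [map_ofNat, l3v]
theorem map_det0 : φ (det0 c m r p t) = det0 (φ c) (φ m) (φ r) (φ p) (φ t) := by
  simp [det0, map_l1y, map_l1u, map_l1v, map_l2y, map_l2u, map_l2v, map_l3y, map_l3u, map_l3v]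

theorem qa_hom : qa c (m * b) b (r * v) v = b ^ 3 * v ^ 2 * qa c m 1 r 1 := by
  unfold qa
  ring

theorem ka_hom : ka c (m * b) b (r * v) v = b ^ 2 * v ^ 3 * ka c m 1 r 1 := by
  unfold ka
  ring

theorem qb0_hom : qb0 c (m * b) b = b ^ 3 * qb0 c m 1 := by
  unfold qb0
  ring

theorem kb0_hom : kb0 c (m * b) b (r * v) v = b ^ 2 * v * kb0 c m 1 r 1 := by
  unfold kb0
  ring

theorem qb1_hom : qb1 c (m * b) b = b ^ 3 * qb1 c m 1 := by
  unfold qb1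
  ring

theorem kb1_hom : kb1 c (m * b) b (r * v) v = b ^ 2 * v * kb1 c m 1 r 1 := by
  unfold kb1
  ring

theorem qb2_hom : qb2 c (m * b) b = b ^ 3 * qb2 c m 1 := by
  unfold qb2
  ring

theorem kb2_hom : kb2 c (m * b) b (r * v) v = b ^ 2 * v * kb2 c m 1 r 1 := by
  unfold kb2
  ring

theorem l1x_hom : l1x c (m * b) b (r * v) v (p * v) (t * v) = b * v * l1x c m 1 r 1 p t := by
  unfold l1x
  ring

theorem l1y_hom : l1y c (m * b) b (r * v) v (p * v) (t * v) = b * v * l1y c m 1 r 1 p t := by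
  unfold l1y
  ring

theorem l1u_hom : l1u c (m * b) b (r * v) v (p * v) (t * v) = b * v * l1u c m 1 r 1 p t := by
  unfold l1u
  ring

theorem l1v_hom : l1v c (m * b) b (r * v) v (p * v) (t * v) = b * v * l1v c m 1 r 1 p t := by
  unfold l1v
  ring

theorem l2x_hom : l2x c (m * b) b (r * v) v (p * v) (t * v) = b * v * l2x c m 1 r 1 p t := by
  unfold l2x
  ring

theorem l2y_hom : l2y c (m * b) b (r * v) v (p * v) (t * v) = b * v * l2y c m 1 r 1 p t := by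
  unfold l2y
  ring

theorem l2u_hom : l2u c (m * b) b (r * v) v (p * v) (t * v) = b * v * l2u c m 1 r 1 p t := by
  unfold l2u
  ring

theorem l2v_hom : l2v c (m * b) b (r * v) v (p * v) (t * v) = b * v * l2v c m 1 r 1 p t := by
  unfold l2v
  ring

theorem l3x_hom : l3x c (m * b) b (r * v) v (p * v) (t * v) = b ^ 4 * v * l3x c m 1 r 1 p t := by
  unfold l3x
  ring

theorem l3y_hom : l3y c (m * b) b (r * v) v (p * v) (t * v) = b ^ 4 * v * l3y c m 1 r 1 p t := by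
  unfold l3y
  ring

theorem l3u_hom : l3u c (m * b) b (r * v) v (p * v) (t * v) = b ^ 4 * v * l3u c m 1 r 1 p t := by
  unfold l3u
  ring

theorem l3v_hom : l3v c (m * b) b (r * v) v (p * v) (t * v) = b ^ 4 * v * l3v c m 1 r 1 p t := by
  unfold l3v
  ring

end nat

end Vale.Agent.P297.H212
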