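import Mathlib.Tactic.Ring

/-!
The forms of the bicanonical pencil of the Craighero-Gattazzo quintic, over `ℤ[c]`,
`c³ - c² + 1 = 0`: the four cubic forms `R₁,…,R₄`, the quadric and the cubic relation between
them, and the three bilinear relations.
-/

set_option linter.unusedVariables false

namespace Vale.Agent.P297.H212

variable {A : Type*} [CommRing A]

/-- the cubic form `R₁` at `w = 1` -/
def rr1 (c x y z : A) : A :=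
  x ^ 2 * ((1 - c - 2 * c ^ 2) * y + z + (-1 - 2 * c + c ^ 2)) +
  z ^ 2 * ((1 - c - 2 * c ^ 2) + x + (-1 - 2 * c + c ^ 2) * y) + (3 + c) * (x * z) * (y + 1) +
  (-c - c ^ 2) * y * (x + z)

/-- the cubic form `R₂` at `w = 1` -/
def rr2 (c x y z : A) : A :=
  y ^ 2 * ((1 - c - 2 * c ^ 2) * z + 1 + (-1 - 2 * c + c ^ 2) * x) +
  ((1 - c - 2 * c ^ 2) * x + y + (-1 - 2 * c + c ^ 2) * z) + (-c - c ^ 2) * (x * z) * (y + 1) +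
  (3 + c) * y * (x + z)

/-- the cubic form `R₃` at `w = 1` -/
def rr3 (c x y z : A) : A :=
  (1 - c - 2 * c ^ 2) * (x ^ 2 * y - z ^ 2) + (x ^ 2 * z - z ^ 2 * x) +
  (-1 - 2 * c + c ^ 2) * (x ^ 2 - z ^ 2 * y) + (3 + 3 * c - 4 * c ^ 2) * (x * z * y - x * z) +
  (c + c ^ 2) * (y * z - x * y)

/-- the cubic form `R₄` at `w = 1` -/
def rr4 (c x y z : A) : A :=
  (1 - c - 2 * c ^ 2) * (y ^ 2 * z - x) + (y ^ 2 - y) +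
  (-1 - 2 * c + c ^ 2) * (y ^ 2 * x - z) + (-c - c ^ 2) * (x * z * y - x * z) +
  (3 + 3 * c - 4 * c ^ 2) * (y * z - x * y)

/-- quadric, part in `R₁, R₂` -/
def qa (c a b u v : A) : A :=
  ((3 - 3 * c + 4 * c ^ 2) * a * b ^ 2 + (c - 3 * c ^ 2) * a ^ 2 * b + (-1) * a ^ 3) * v ^ 2 +
  ((2 - 8 * c + 8 * c ^ 2) * a * b ^ 2 + (-2 + 8 * c - 8 * c ^ 2) * a ^ 2 * b) * u * v +
  ((1) * b ^ 3 + (-c + 3 * c ^ 2) * a * b ^ 2 + (-3 + 3 * c - 4 * c ^ 2) * a ^ 2 * b) * u ^ 2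

/-- quadric, coefficient of `R₃^0 R₄^2` -/
def qb0 (c a b : A) : A :=
  ((-3 - c + 4 * c ^ 2) * a * b ^ 2 + (-4 - 5 * c - c ^ 2) * a ^ 2 * b + (1) * a ^ 3)

/-- quadric, coefficient of `R₃^1 R₄^1` -/
def qb1 (c a b : A) : A :=
  ((2 - 8 * c ^ 2) * a * b ^ 2 + (2 - 8 * c ^ 2) * a ^ 2 * b)

/-- quadric, coefficient of `R₃^2 R₄^0` -/
def qb2 (c a b : A) : A :=
  ((-1) * b ^ 3 + (4 + 5 * c + c ^ 2) * a * b ^ 2 + (3 + c - 4 * c ^ 2) * a ^ 2 * b)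

/-- cubic, part in `R₁, R₂` -/
def ka (c a b u v : A) : A :=
  ((-3 * c + 3 * c ^ 2) * a * b + (1) * a ^ 2) * v ^ 3 +
  ((4 - 10 * c + 5 * c ^ 2) * a * b + (c ^ 2) * a ^ 2) * u * v ^ 2 +
  ((c ^ 2) * b ^ 2 + (4 - 10 * c + 5 * c ^ 2) * a * b) * u ^ 2 * v +
  ((1) * b ^ 2 + (-3 * c + 3 * c ^ 2) * a * b) * u ^ 3

/-- cubic, coefficient of `R₃^0 R₄^2` -/
def kb0 (c a b u v : A) : A :=
  ((-4 - 5 * c + c ^ 2) * a * b + (-1) * a ^ 2) * v +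
  ((2 + 2 * c + c ^ 2) * a * b + (-c ^ 2) * a ^ 2) * u

/-- cubic, coefficient of `R₃^1 R₄^1` -/
def kb1 (c a b u v : A) : A :=
  ((6 - 10 * c ^ 2) * a * b) * v +
  ((-6 + 10 * c ^ 2) * a * b) * u

/-- cubic, coefficient of `R₃^2 R₄^0` -/
def kb2 (c a b u v : A) : A :=
  ((-c ^ 2) * b ^ 2 + (2 + 2 * c + c ^ 2) * a * b) * v +
  ((-1) * b ^ 2 + (-4 - 5 * c + c ^ 2) * a * b) * u

/-- linear relation 1, coefficient of `X` -/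
def l1x (c a b u v p t : A) : A :=
  (((5 - 4 * c + 8 * c ^ 2) * b + (-2 + 3 * c - 6 * c ^ 2) * a)) * p +
  (((21 + 14 * c - 14 * c ^ 2) * b + (-7 - 21 * c + 21 * c ^ 2) * a)) * t

/-- linear relation 1, coefficient of `Y` -/
def l1y (c a b u v p t : A) : A :=
  (((7 + 21 * c ^ 2) * b + (-7 * c - 14 * c ^ 2) * a)) * p +
  (((7) * b)) * t

/-- linear relation 1, coefficient of `U` -/
def l1u (c a b u v p t : A) : A :=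
  (((-5 + 4 * c - 8 * c ^ 2) * b + (2 - 3 * c + 6 * c ^ 2) * a)) * u +
  (((-7 + 14 * c) * b + (-7 + 7 * c + 7 * c ^ 2) * a)) * v

/-- linear relation 1, coefficient of `V` -/
def l1v (c a b u v p t : A) : A :=
  (((-7 - 14 * c + 7 * c ^ 2) * b + (-14 + 7 * c) * a)) * u +
  (((-7) * b)) * v

/-- linear relation 2, coefficient of `X` -/
def l2x (c a b u v p t : A) : A :=
  (((2 - 3 * c + 6 * c ^ 2) * b + (-5 + 4 * c - c ^ 2) * a)) * p +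
  (((14 - 7 * c + 7 * c ^ 2) * a)) * t

/-- linear relation 2, coefficient of `Y` -/
def l2y (c a b u v p t : A) : A :=
  (((-7 + 7 * c ^ 2) * a)) * p +
  (((7) * a)) * t

/-- linear relation 2, coefficient of `U` -/
def l2u (c a b u v p t : A) : A :=
  (((-2 + 3 * c - 6 * c ^ 2) * b + (5 - 4 * c + c ^ 2) * a)) * u +
  (((7 * c - 7 * c ^ 2) * a)) * v

/-- linear relation 2, coefficient of `V` -/
def l2v (c a b u v p t : A) : A :=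
  (((-7 + 14 * c - 7 * c ^ 2) * a)) * u +
  (((-7) * a)) * v

/-- linear relation 3, coefficient of `X` -/
def l3x (c a b u v p t : A) : A :=
  (((1) * b ^ 4 + (-5 - 3 * c + 3 * c ^ 2) * a * b ^ 3 + (6 - 3 * c + c ^ 2) * a ^ 2 * b ^ 2 +
   (-c - c ^ 2) * a ^ 3 * b)) * u +
  (((-1 + 3 * c - 2 * c ^ 2) * a * b ^ 3 + (16 - 26 * c + 9 * c ^ 2) * a ^ 2 * b ^ 2 +
   (-4 + 4 * c + c ^ 2) * a ^ 3 * b)) * v

/-- linear relation 3, coefficient of `Y` -/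
def l3y (c a b u v p t : A) : A :=
  (((4 - 4 * c - c ^ 2) * a * b ^ 3 + (-16 + 26 * c - 9 * c ^ 2) * a ^ 2 * b ^ 2 +
   (1 - 3 * c + 2 * c ^ 2) * a ^ 3 * b)) * u +
  (((c + c ^ 2) * a * b ^ 3 + (-6 + 3 * c - c ^ 2) * a ^ 2 * b ^ 2 +
   (5 + 3 * c - 3 * c ^ 2) * a ^ 3 * b + (-1) * a ^ 4)) * v

/-- linear relation 3, coefficient of `U` -/
def l3u (c a b u v p t : A) : A :=
  (((-1) * b ^ 4 + (5 + 3 * c - 3 * c ^ 2) * a * b ^ 3 + (-6 + 3 * c - c ^ 2) * a ^ 2 * b ^ 2 +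
   (c + c ^ 2) * a ^ 3 * b)) * p +
  (((-3 - c) * a * b ^ 3 + (8 * c - 9 * c ^ 2) * a ^ 2 * b ^ 2 +
   (2 - 2 * c + 3 * c ^ 2) * a ^ 3 * b)) * t

/-- linear relation 3, coefficient of `V` -/
def l3v (c a b u v p t : A) : A :=
  (((2 - 2 * c + 3 * c ^ 2) * a * b ^ 3 + (8 * c - 9 * c ^ 2) * a ^ 2 * b ^ 2 +
   (-3 - c) * a ^ 3 * b)) * p +
  (((-c - c ^ 2) * a * b ^ 3 + (6 - 3 * c + c ^ 2) * a ^ 2 * b ^ 2 +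
   (-5 - 3 * c + 3 * c ^ 2) * a ^ 3 * b + (1) * a ^ 4)) * t

/-- cofactor -/
def cofq (c x y z : A) : A :=
  (-4 * c + 8 * c ^ 2) * x * y ^ 2 * z + (4 + 4 * c + 4 * c ^ 2) * x * y ^ 2 * z ^ 2 +
  (-4 * c + 8 * c ^ 2) * x * y ^ 3 * z + (-4 - 4 * c - 4 * c ^ 2) * x ^ 2 * y * z ^ 2 +
  (4 * c - 8 * c ^ 2) * x ^ 2 * y * z ^ 3 + (4 + 4 * c + 4 * c ^ 2) * x ^ 2 * y ^ 2 * z +
  (-4 - 4 * c - 4 * c ^ 2) * x ^ 2 * y ^ 2 * z ^ 2 + (4 * c - 8 * c ^ 2) * x ^ 3 * y * z ^ 2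

/-- cofactor -/
def cofk (c x y z : A) : A :=
  (16 + 12 * c - 4 * c ^ 2) * x * y * z ^ 2 + (12 - 4 * c - 12 * c ^ 2) * x * y * z ^ 3 +
  (-8 + 4 * c + 24 * c ^ 2) * x * y * z ^ 4 + (-4 - 8 * c + 4 * c ^ 2) * x * y ^ 2 * z +
  (4 - 12 * c + 8 * c ^ 2) * x * y ^ 2 * z ^ 2 +
  (16 + 4 * c + 12 * c ^ 2) * x * y ^ 2 * z ^ 3 +
  (16 + 12 * c - 4 * c ^ 2) * x * y ^ 2 * z ^ 4 + (-4 - 12 * c + 4 * c ^ 2) * x * y ^ 3 * z +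
  (-12 - 24 * c + 12 * c ^ 2) * x * y ^ 3 * z ^ 2 +
  (12 - 4 * c - 12 * c ^ 2) * x * y ^ 3 * z ^ 3 + (-4 - 8 * c + 4 * c ^ 2) * x * y ^ 4 * z +
  (-8 + 4 * c + 24 * c ^ 2) * x * y ^ 4 * z ^ 2 + (-8 + 4 * c + 24 * c ^ 2) * x ^ 2 * y * z +
  (16 + 4 * c + 12 * c ^ 2) * x ^ 2 * y * z ^ 2 +
  (-12 - 24 * c + 12 * c ^ 2) * x ^ 2 * y * z ^ 3 +
  (-4 - 8 * c + 4 * c ^ 2) * x ^ 2 * y * z ^ 4 +
  (-12 - 24 * c + 12 * c ^ 2) * x ^ 2 * y ^ 2 * z +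
  (20 + 24 * c + 80 * c ^ 2) * x ^ 2 * y ^ 2 * z ^ 2 +
  (4 - 12 * c + 8 * c ^ 2) * x ^ 2 * y ^ 2 * z ^ 3 +
  (4 - 12 * c + 8 * c ^ 2) * x ^ 2 * y ^ 3 * z +
  (16 + 4 * c + 12 * c ^ 2) * x ^ 2 * y ^ 3 * z ^ 2 +
  (16 + 12 * c - 4 * c ^ 2) * x ^ 2 * y ^ 4 * z + (12 - 4 * c - 12 * c ^ 2) * x ^ 3 * y * z +
  (4 - 12 * c + 8 * c ^ 2) * x ^ 3 * y * z ^ 2 +
  (-4 - 12 * c + 4 * c ^ 2) * x ^ 3 * y * z ^ 3 +
  (16 + 4 * c + 12 * c ^ 2) * x ^ 3 * y ^ 2 * z +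
  (-12 - 24 * c + 12 * c ^ 2) * x ^ 3 * y ^ 2 * z ^ 2 +
  (12 - 4 * c - 12 * c ^ 2) * x ^ 3 * y ^ 3 * z + (16 + 12 * c - 4 * c ^ 2) * x ^ 4 * y * z +
  (-4 - 8 * c + 4 * c ^ 2) * x ^ 4 * y * z ^ 2 +
  (-8 + 4 * c + 24 * c ^ 2) * x ^ 4 * y ^ 2 * z

end Vale.Agent.P297.H212
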