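import Vale.Agent.P297.H212.Tab
import Vale.Agent.P297.H212.KPoly

/-!
Programs for the forms of the bicanonical pencil.
-/

set_option linter.unusedSimpArgs false
set_option linter.unusedVariables false

namespace Vale.Agent.P297.H212

open Vale.Agent.P297.H160

/-- program of `rr1` -/
def xrr1 (x y z : Ex) : Ex :=
    (.add (.add (.add (.mul (.k 1 (-1) (-2)) (.pow z 2)) (.mul (.k 0 (-1) (-1)) (.mul y z)))
    (.add (.mul (.k (-1) (-2) 1) (.mul y (.pow z 2))) (.add (.mul (.k 3 1 0) (.mul x z)) (.mul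
    (.k 1 0 0) (.mul x (.pow z 2)))))) (.add (.add (.mul (.k 0 (-1) (-1)) (.mul x y)) (.mul
    (.k 3 1 0) (.mul (.mul x y) z))) (.add (.mul (.k (-1) (-2) 1) (.pow x 2)) (.add (.mul (.k
    1 0 0) (.mul (.pow x 2) z)) (.mul (.k 1 (-1) (-2)) (.mul (.pow x 2) y))))))

/-- program of `rr2` -/
def xrr2 (x y z : Ex) : Ex :=
    (.add (.add (.add (.mul (.k (-1) (-2) 1) z) (.mul (.k 1 0 0) y)) (.add (.mul (.k 3 1 0)
    (.mul y z)) (.add (.mul (.k 1 0 0) (.pow y 2)) (.mul (.k 1 (-1) (-2)) (.mul (.pow y 2)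
    z))))) (.add (.add (.mul (.k 1 (-1) (-2)) x) (.mul (.k 0 (-1) (-1)) (.mul x z))) (.add
    (.mul (.k 3 1 0) (.mul x y)) (.add (.mul (.k 0 (-1) (-1)) (.mul (.mul x y) z)) (.mul (.k
    (-1) (-2) 1) (.mul x (.pow y 2)))))))

/-- program of `rr3` -/
def xrr3 (x y z : Ex) : Ex :=
    (.add (.add (.add (.mul (.k (-1) 1 2) (.pow z 2)) (.mul (.k 0 1 1) (.mul y z))) (.add
    (.mul (.k 1 2 (-1)) (.mul y (.pow z 2))) (.add (.mul (.k (-3) (-3) 4) (.mul x z)) (.mul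
    (.k (-1) 0 0) (.mul x (.pow z 2)))))) (.add (.add (.mul (.k 0 (-1) (-1)) (.mul x y)) (.mul
    (.k 3 3 (-4)) (.mul (.mul x y) z))) (.add (.mul (.k (-1) (-2) 1) (.pow x 2)) (.add (.mul
    (.k 1 0 0) (.mul (.pow x 2) z)) (.mul (.k 1 (-1) (-2)) (.mul (.pow x 2) y))))))

/-- program of `rr4` -/
def xrr4 (x y z : Ex) : Ex :=
    (.add (.add (.add (.mul (.k 1 2 (-1)) z) (.mul (.k (-1) 0 0) y)) (.add (.mul (.k 3 3 (-4))
    (.mul y z)) (.add (.mul (.k 1 0 0) (.pow y 2)) (.mul (.k 1 (-1) (-2)) (.mul (.pow y 2)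
    z))))) (.add (.add (.mul (.k (-1) 1 2) x) (.mul (.k 0 1 1) (.mul x z))) (.add (.mul (.k
    (-3) (-3) 4) (.mul x y)) (.add (.mul (.k 0 (-1) (-1)) (.mul (.mul x y) z)) (.mul (.k (-1)
    (-2) 1) (.mul x (.pow y 2)))))))

/-- program of `ff` -/
def xff (x y z : Ex) : Ex :=
    (.add (.add (.add (.add (.mul (.pow x 3) (.pow (.add (.mul (.k 1 (-1) (-2)) y) (.add z (.k
    (-1) (-2) 1))) 2)) (.mul (.mul (.mul (.k 2 (-10) (-9)) (.pow x 2)) (.pow y 2)) z)) (.add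
    (.mul (.mul (.k 9 0 (-8)) (.pow x 2)) (.pow y 2)) (.add (.mul (.mul (.mul (.k 3 1 4) (.pow
    x 2)) (.pow z 2)) y) (.mul (.mul (.mul (.k 1 (-6) 9) (.pow x 2)) y) z)))) (.add (.add
    (.mul (.pow y 3) (.pow (.add (.mul (.k 1 (-1) (-2)) z) (.add (.k 1 0 0) (.mul (.k (-1)
    (-2) 1) x))) 2)) (.mul (.mul (.k 2 (-10) (-9)) (.pow y 2)) (.pow z 2))) (.add (.mul (.mul
    (.mul (.k 9 0 (-8)) (.pow y 2)) (.pow z 2)) x) (.add (.mul (.mul (.k 3 1 4) (.pow y 2)) z)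
    (.mul (.mul (.mul (.k 1 (-6) 9) (.pow y 2)) z) x))))) (.add (.add (.add (.mul (.pow z 3)
    (.pow (.add (.k 1 (-1) (-2)) (.add x (.mul (.k (-1) (-2) 1) y))) 2)) (.mul (.mul (.k 2
    (-10) (-9)) (.pow z 2)) x)) (.add (.mul (.mul (.k 9 0 (-8)) (.pow z 2)) y) (.add (.mul
    (.mul (.k 3 1 4) (.pow z 2)) (.pow x 2)) (.mul (.mul (.mul (.k 1 (-6) 9) (.pow z 2)) x)
    y)))) (.add (.add (.pow (.add (.mul (.k 1 (-1) (-2)) x) (.add y (.mul (.k (-1) (-2) 1)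
    z))) 2) (.mul (.mul (.k 2 (-10) (-9)) (.pow x 2)) y)) (.add (.mul (.mul (.k 9 0 (-8))
    (.pow x 2)) z) (.add (.mul (.mul (.k 3 1 4) (.pow y 2)) x) (.mul (.mul (.mul (.k 1 (-6) 9)
    x) y) z))))))

/-- program of `cofq` -/
def xcofq (x y z : Ex) : Ex :=
    (.add (.add (.add (.mul (.k 0 (-4) 8) (.mul (.mul x (.pow y 2)) z)) (.mul (.k 4 4 4) (.mul
    (.mul x (.pow y 2)) (.pow z 2)))) (.add (.mul (.k 0 (-4) 8) (.mul (.mul x (.pow y 3)) z))
    (.mul (.k (-4) (-4) (-4)) (.mul (.mul (.pow x 2) y) (.pow z 2))))) (.add (.add (.mul (.k 0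
    4 (-8)) (.mul (.mul (.pow x 2) y) (.pow z 3))) (.mul (.k 4 4 4) (.mul (.mul (.pow x 2)
    (.pow y 2)) z))) (.add (.mul (.k (-4) (-4) (-4)) (.mul (.mul (.pow x 2) (.pow y 2)) (.pow
    z 2))) (.mul (.k 0 4 (-8)) (.mul (.mul (.pow x 3) y) (.pow z 2))))))

/-- program of `cofk` -/
def xcofk (x y z : Ex) : Ex :=
    (.add (.add (.add (.add (.mul (.k 16 12 (-4)) (.mul (.mul x y) (.pow z 2))) (.add (.mul
    (.k 12 (-4) (-12)) (.mul (.mul x y) (.pow z 3))) (.mul (.k (-8) 4 24) (.mul (.mul x y)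
    (.pow z 4))))) (.add (.add (.mul (.k (-4) (-8) 4) (.mul (.mul x (.pow y 2)) z)) (.mul (.k
    4 (-12) 8) (.mul (.mul x (.pow y 2)) (.pow z 2)))) (.add (.mul (.k 16 4 12) (.mul (.mul x
    (.pow y 2)) (.pow z 3))) (.mul (.k 16 12 (-4)) (.mul (.mul x (.pow y 2)) (.pow z 4))))))
    (.add (.add (.add (.mul (.k (-4) (-12) 4) (.mul (.mul x (.pow y 3)) z)) (.mul (.k (-12)
    (-24) 12) (.mul (.mul x (.pow y 3)) (.pow z 2)))) (.add (.mul (.k 12 (-4) (-12)) (.mul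
    (.mul x (.pow y 3)) (.pow z 3))) (.mul (.k (-4) (-8) 4) (.mul (.mul x (.pow y 4)) z))))
    (.add (.add (.mul (.k (-8) 4 24) (.mul (.mul x (.pow y 4)) (.pow z 2))) (.mul (.k (-8) 4
    24) (.mul (.mul (.pow x 2) y) z))) (.add (.mul (.k 16 4 12) (.mul (.mul (.pow x 2) y)
    (.pow z 2))) (.mul (.k (-12) (-24) 12) (.mul (.mul (.pow x 2) y) (.pow z 3))))))) (.add
    (.add (.add (.add (.mul (.k (-4) (-8) 4) (.mul (.mul (.pow x 2) y) (.pow z 4))) (.mul (.k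
    (-12) (-24) 12) (.mul (.mul (.pow x 2) (.pow y 2)) z))) (.add (.mul (.k 20 24 80) (.mul
    (.mul (.pow x 2) (.pow y 2)) (.pow z 2))) (.mul (.k 4 (-12) 8) (.mul (.mul (.pow x 2)
    (.pow y 2)) (.pow z 3))))) (.add (.add (.mul (.k 4 (-12) 8) (.mul (.mul (.pow x 2) (.pow y
    3)) z)) (.mul (.k 16 4 12) (.mul (.mul (.pow x 2) (.pow y 3)) (.pow z 2)))) (.add (.mul
    (.k 16 12 (-4)) (.mul (.mul (.pow x 2) (.pow y 4)) z)) (.mul (.k 12 (-4) (-12)) (.mul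
    (.mul (.pow x 3) y) z))))) (.add (.add (.add (.mul (.k 4 (-12) 8) (.mul (.mul (.pow x 3)
    y) (.pow z 2))) (.mul (.k (-4) (-12) 4) (.mul (.mul (.pow x 3) y) (.pow z 3)))) (.add
    (.mul (.k 16 4 12) (.mul (.mul (.pow x 3) (.pow y 2)) z)) (.mul (.k (-12) (-24) 12) (.mul
    (.mul (.pow x 3) (.pow y 2)) (.pow z 2))))) (.add (.add (.mul (.k 12 (-4) (-12)) (.mul
    (.mul (.pow x 3) (.pow y 3)) z)) (.mul (.k 16 12 (-4)) (.mul (.mul (.pow x 4) y) z)))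
    (.add (.mul (.k (-4) (-8) 4) (.mul (.mul (.pow x 4) y) (.pow z 2))) (.mul (.k (-8) 4 24)
    (.mul (.mul (.pow x 4) (.pow y 2)) z)))))))

/-- program of `qa` -/
def xqa (a b u v : Ex) : Ex :=
    (.add (.add (.add (.mul (.k 1 0 0) (.mul (.pow b 3) (.pow u 2))) (.mul (.k 3 (-3) 4) (.mul
    (.mul a (.pow b 2)) (.pow v 2)))) (.add (.mul (.k 2 (-8) 8) (.mul (.mul (.mul a (.pow b
    2)) u) v)) (.mul (.k 0 (-1) 3) (.mul (.mul a (.pow b 2)) (.pow u 2))))) (.add (.add (.mul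
    (.k 0 1 (-3)) (.mul (.mul (.pow a 2) b) (.pow v 2))) (.mul (.k (-2) 8 (-8)) (.mul (.mul
    (.mul (.pow a 2) b) u) v))) (.add (.mul (.k (-3) 3 (-4)) (.mul (.mul (.pow a 2) b) (.pow u
    2))) (.mul (.k (-1) 0 0) (.mul (.pow a 3) (.pow v 2))))))

/-- program of `qb0` -/
def xqb0 (a b : Ex) : Ex :=
    (.add (.mul (.k (-3) (-1) 4) (.mul a (.pow b 2))) (.add (.mul (.k (-4) (-5) (-1)) (.mul
    (.pow a 2) b)) (.mul (.k 1 0 0) (.pow a 3))))

/-- program of `qb1` -/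
def xqb1 (a b : Ex) : Ex :=
    (.add (.mul (.k 2 0 (-8)) (.mul a (.pow b 2))) (.mul (.k 2 0 (-8)) (.mul (.pow a 2) b)))

/-- program of `qb2` -/
def xqb2 (a b : Ex) : Ex :=
    (.add (.mul (.k (-1) 0 0) (.pow b 3)) (.add (.mul (.k 4 5 1) (.mul a (.pow b 2))) (.mul
    (.k 3 1 (-4)) (.mul (.pow a 2) b))))

/-- program of `ka` -/
def xka (a b u v : Ex) : Ex :=
    (.add (.add (.add (.mul (.k 0 0 1) (.mul (.mul (.pow b 2) (.pow u 2)) v)) (.mul (.k 1 0 0)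
    (.mul (.pow b 2) (.pow u 3)))) (.add (.mul (.k 0 (-3) 3) (.mul (.mul a b) (.pow v 3)))
    (.mul (.k 4 (-10) 5) (.mul (.mul (.mul a b) u) (.pow v 2))))) (.add (.add (.mul (.k 4
    (-10) 5) (.mul (.mul (.mul a b) (.pow u 2)) v)) (.mul (.k 0 (-3) 3) (.mul (.mul a b) (.pow
    u 3)))) (.add (.mul (.k 1 0 0) (.mul (.pow a 2) (.pow v 3))) (.mul (.k 0 0 1) (.mul (.mul
    (.pow a 2) u) (.pow v 2))))))

/-- program of `kb0` -/
def xkb0 (a b u v : Ex) : Ex :=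
    (.add (.add (.mul (.k (-4) (-5) 1) (.mul (.mul a b) v)) (.mul (.k 2 2 1) (.mul (.mul a b)
    u))) (.add (.mul (.k (-1) 0 0) (.mul (.pow a 2) v)) (.mul (.k 0 0 (-1)) (.mul (.pow a 2)
    u))))

/-- program of `kb1` -/
def xkb1 (a b u v : Ex) : Ex :=
    (.add (.mul (.k 6 0 (-10)) (.mul (.mul a b) v)) (.mul (.k (-6) 0 10) (.mul (.mul a b) u)))

/-- program of `kb2` -/
def xkb2 (a b u v : Ex) : Ex :=
    (.add (.add (.mul (.k 0 0 (-1)) (.mul (.pow b 2) v)) (.mul (.k (-1) 0 0) (.mul (.pow b 2)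
    u))) (.add (.mul (.k 2 2 1) (.mul (.mul a b) v)) (.mul (.k (-4) (-5) 1) (.mul (.mul a b)
    u))))

/-- program of `l1x` -/
def xl1x (a b u v p t : Ex) : Ex :=
    (.add (.add (.mul (.k 21 14 (-14)) (.mul b t)) (.mul (.k 5 (-4) 8) (.mul b p))) (.add
    (.mul (.k (-7) (-21) 21) (.mul a t)) (.mul (.k (-2) 3 (-6)) (.mul a p))))

/-- program of `l1y` -/
def xl1y (a b u v p t : Ex) : Ex :=
    (.add (.mul (.k 7 0 0) (.mul b t)) (.add (.mul (.k 7 0 21) (.mul b p)) (.mul (.k 0 (-7)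
    (-14)) (.mul a p))))

/-- program of `l1u` -/
def xl1u (a b u v p t : Ex) : Ex :=
    (.add (.add (.mul (.k (-7) 14 0) (.mul b v)) (.mul (.k (-5) 4 (-8)) (.mul b u))) (.add
    (.mul (.k (-7) 7 7) (.mul a v)) (.mul (.k 2 (-3) 6) (.mul a u))))

/-- program of `l1v` -/
def xl1v (a b u v p t : Ex) : Ex :=
    (.add (.mul (.k (-7) 0 0) (.mul b v)) (.add (.mul (.k (-7) (-14) 7) (.mul b u)) (.mul (.k
    (-14) 7 0) (.mul a u))))

/-- program of `l2x` -/
def xl2x (a b u v p t : Ex) : Ex :=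
    (.add (.mul (.k 2 (-3) 6) (.mul b p)) (.add (.mul (.k 14 (-7) 7) (.mul a t)) (.mul (.k
    (-5) 4 (-1)) (.mul a p))))

/-- program of `l2y` -/
def xl2y (a b u v p t : Ex) : Ex :=
    (.add (.mul (.k 7 0 0) (.mul a t)) (.mul (.k (-7) 0 7) (.mul a p)))

/-- program of `l2u` -/
def xl2u (a b u v p t : Ex) : Ex :=
    (.add (.mul (.k (-2) 3 (-6)) (.mul b u)) (.add (.mul (.k 0 7 (-7)) (.mul a v)) (.mul (.k 5
    (-4) 1) (.mul a u))))

/-- program of `l2v` -/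
def xl2v (a b u v p t : Ex) : Ex :=
    (.add (.mul (.k (-7) 0 0) (.mul a v)) (.mul (.k (-7) 14 (-7)) (.mul a u)))

/-- program of `l3x` -/
def xl3x (a b u v p t : Ex) : Ex :=
    (.add (.add (.mul (.k 1 0 0) (.mul (.pow b 4) u)) (.add (.mul (.k (-1) 3 (-2)) (.mul (.mul
    a (.pow b 3)) v)) (.mul (.k (-5) (-3) 3) (.mul (.mul a (.pow b 3)) u)))) (.add (.add (.mul
    (.k 16 (-26) 9) (.mul (.mul (.pow a 2) (.pow b 2)) v)) (.mul (.k 6 (-3) 1) (.mul (.mul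
    (.pow a 2) (.pow b 2)) u))) (.add (.mul (.k (-4) 4 1) (.mul (.mul (.pow a 3) b) v)) (.mul
    (.k 0 (-1) (-1)) (.mul (.mul (.pow a 3) b) u)))))

/-- program of `l3y` -/
def xl3y (a b u v p t : Ex) : Ex :=
    (.add (.add (.mul (.k 0 1 1) (.mul (.mul a (.pow b 3)) v)) (.add (.mul (.k 4 (-4) (-1))
    (.mul (.mul a (.pow b 3)) u)) (.mul (.k (-6) 3 (-1)) (.mul (.mul (.pow a 2) (.pow b 2))
    v)))) (.add (.add (.mul (.k (-16) 26 (-9)) (.mul (.mul (.pow a 2) (.pow b 2)) u)) (.mul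
    (.k 5 3 (-3)) (.mul (.mul (.pow a 3) b) v))) (.add (.mul (.k 1 (-3) 2) (.mul (.mul (.pow a
    3) b) u)) (.mul (.k (-1) 0 0) (.mul (.pow a 4) v)))))

/-- program of `l3u` -/
def xl3u (a b u v p t : Ex) : Ex :=
    (.add (.add (.mul (.k (-1) 0 0) (.mul (.pow b 4) p)) (.add (.mul (.k (-3) (-1) 0) (.mul
    (.mul a (.pow b 3)) t)) (.mul (.k 5 3 (-3)) (.mul (.mul a (.pow b 3)) p)))) (.add (.add
    (.mul (.k 0 8 (-9)) (.mul (.mul (.pow a 2) (.pow b 2)) t)) (.mul (.k (-6) 3 (-1)) (.mul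
    (.mul (.pow a 2) (.pow b 2)) p))) (.add (.mul (.k 2 (-2) 3) (.mul (.mul (.pow a 3) b) t))
    (.mul (.k 0 1 1) (.mul (.mul (.pow a 3) b) p)))))

/-- program of `l3v` -/
def xl3v (a b u v p t : Ex) : Ex :=
    (.add (.add (.mul (.k 0 (-1) (-1)) (.mul (.mul a (.pow b 3)) t)) (.add (.mul (.k 2 (-2) 3)
    (.mul (.mul a (.pow b 3)) p)) (.mul (.k 6 (-3) 1) (.mul (.mul (.pow a 2) (.pow b 2)) t))))
    (.add (.add (.mul (.k 0 8 (-9)) (.mul (.mul (.pow a 2) (.pow b 2)) p)) (.mul (.k (-5) (-3)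
    3) (.mul (.mul (.pow a 3) b) t))) (.add (.mul (.k (-3) (-1) 0) (.mul (.mul (.pow a 3) b)
    p)) (.mul (.k 1 0 0) (.mul (.pow a 4) t)))))

section

variable {A : Type*} [CommRing A]

variable (c q : A) (f : ℕ → A) (k : ℕ) (st : List A)

theorem ev_xrr1 (x y z : Ex) : (rg c q f k).ev st (xrr1 x y z) =
    rr1 c ((rg c q f k).ev st x) ((rg c q f k).ev st y)
      ((rg c q f k).ev st z) := by
  simp only [xrr1, ev_add, ev_mul, ev_pow, ev_k, rr1]
  push_cast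
  ring

theorem ev_xrr2 (x y z : Ex) : (rg c q f k).ev st (xrr2 x y z) =
    rr2 c ((rg c q f k).ev st x) ((rg c q f k).ev st y)
      ((rg c q f k).ev st z) := by
  simp only [xrr2, ev_add, ev_mul, ev_pow, ev_k, rr2]
  push_cast
  ring

theorem ev_xrr3 (x y z : Ex) : (rg c q f k).ev st (xrr3 x y z) =
    rr3 c ((rg c q f k).ev st x) ((rg c q f k).ev st y)
      ((rg c q f k).ev st z) := by
  simp only [xrr3, ev_add, ev_mul, ev_pow, ev_k, rr3]
  push_cast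
  ring

theorem ev_xrr4 (x y z : Ex) : (rg c q f k).ev st (xrr4 x y z) =
    rr4 c ((rg c q f k).ev st x) ((rg c q f k).ev st y)
      ((rg c q f k).ev st z) := by
  simp only [xrr4, ev_add, ev_mul, ev_pow, ev_k, rr4]
  push_cast
  ring

theorem ev_xff (x y z : Ex) : (rg c q f k).ev st (xff x y z) =
    Vale.Agent.P297.H600.cgForm c ((rg c q f k).ev st x) ((rg c q f k).ev st y)
      ((rg c q f k).ev st z) 1 := by
  simp only [xff, ev_add, ev_mul, ev_pow, ev_k, Vale.Agent.P297.H600.cgForm]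
  push_cast
  ring

theorem ev_xcofq (x y z : Ex) : (rg c q f k).ev st (xcofq x y z) =
    cofq c ((rg c q f k).ev st x) ((rg c q f k).ev st y)
      ((rg c q f k).ev st z) := by
  simp only [xcofq, ev_add, ev_mul, ev_pow, ev_k, cofq]
  push_cast
  ring

theorem ev_xcofk (x y z : Ex) : (rg c q f k).ev st (xcofk x y z) =
    cofk c ((rg c q f k).ev st x) ((rg c q f k).ev st y)
      ((rg c q f k).ev st z) := by
  simp only [xcofk, ev_add, ev_mul, ev_pow, ev_k, cofk]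
  push_cast
  ring

theorem ev_xqa (a b u v : Ex) : (rg c q f k).ev st (xqa a b u v) =
    qa c ((rg c q f k).ev st a) ((rg c q f k).ev st b)
      ((rg c q f k).ev st u) ((rg c q f k).ev st v) := by
  simp only [xqa, ev_add, ev_mul, ev_pow, ev_k, qa]
  push_cast
  ring

theorem ev_xqb0 (a b : Ex) : (rg c q f k).ev st (xqb0 a b) =
    qb0 c ((rg c q f k).ev st a) ((rg c q f k).ev st b) := by
  simp only [xqb0, ev_add, ev_mul, ev_pow, ev_k, qb0]
  push_cast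
  ring

theorem ev_xqb1 (a b : Ex) : (rg c q f k).ev st (xqb1 a b) =
    qb1 c ((rg c q f k).ev st a) ((rg c q f k).ev st b) := by
  simp only [xqb1, ev_add, ev_mul, ev_pow, ev_k, qb1]
  push_cast
  ring

theorem ev_xqb2 (a b : Ex) : (rg c q f k).ev st (xqb2 a b) =
    qb2 c ((rg c q f k).ev st a) ((rg c q f k).ev st b) := by
  simp only [xqb2, ev_add, ev_mul, ev_pow, ev_k, qb2]
  push_cast
  ring

theorem ev_xka (a b u v : Ex) : (rg c q f k).ev st (xka a b u v) =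
    ka c ((rg c q f k).ev st a) ((rg c q f k).ev st b)
      ((rg c q f k).ev st u) ((rg c q f k).ev st v) := by
  simp only [xka, ev_add, ev_mul, ev_pow, ev_k, ka]
  push_cast
  ring

theorem ev_xkb0 (a b u v : Ex) : (rg c q f k).ev st (xkb0 a b u v) =
    kb0 c ((rg c q f k).ev st a) ((rg c q f k).ev st b)
      ((rg c q f k).ev st u) ((rg c q f k).ev st v) := by
  simp only [xkb0, ev_add, ev_mul, ev_pow, ev_k, kb0]
  push_cast
  ring

theorem ev_xkb1 (a b u v : Ex) : (rg c q f k).ev st (xkb1 a b u v) =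
    kb1 c ((rg c q f k).ev st a) ((rg c q f k).ev st b)
      ((rg c q f k).ev st u) ((rg c q f k).ev st v) := by
  simp only [xkb1, ev_add, ev_mul, ev_pow, ev_k, kb1]
  push_cast
  ring

theorem ev_xkb2 (a b u v : Ex) : (rg c q f k).ev st (xkb2 a b u v) =
    kb2 c ((rg c q f k).ev st a) ((rg c q f k).ev st b)
      ((rg c q f k).ev st u) ((rg c q f k).ev st v) := by
  simp only [xkb2, ev_add, ev_mul, ev_pow, ev_k, kb2]
  push_cast
  ring

theorem ev_xl1x (a b u v p t : Ex) : (rg c q f k).ev st (xl1x a b u v p t) =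
    l1x c ((rg c q f k).ev st a) ((rg c q f k).ev st b)
      ((rg c q f k).ev st u) ((rg c q f k).ev st v)
      ((rg c q f k).ev st p) ((rg c q f k).ev st t) := by
  simp only [xl1x, ev_add, ev_mul, ev_pow, ev_k, l1x]
  push_cast
  ring

theorem ev_xl1y (a b u v p t : Ex) : (rg c q f k).ev st (xl1y a b u v p t) =
    l1y c ((rg c q f k).ev st a) ((rg c q f k).ev st b)
      ((rg c q f k).ev st u) ((rg c q f k).ev st v)
      ((rg c q f k).ev st p) ((rg c q f k).ev st t) := by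
  simp only [xl1y, ev_add, ev_mul, ev_pow, ev_k, l1y]
  push_cast
  ring

theorem ev_xl1u (a b u v p t : Ex) : (rg c q f k).ev st (xl1u a b u v p t) =
    l1u c ((rg c q f k).ev st a) ((rg c q f k).ev st b)
      ((rg c q f k).ev st u) ((rg c q f k).ev st v)
      ((rg c q f k).ev st p) ((rg c q f k).ev st t) := by
  simp only [xl1u, ev_add, ev_mul, ev_pow, ev_k, l1u]
  push_cast
  ring

theorem ev_xl1v (a b u v p t : Ex) : (rg c q f k).ev st (xl1v a b u v p t) =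
    l1v c ((rg c q f k).ev st a) ((rg c q f k).ev st b)
      ((rg c q f k).ev st u) ((rg c q f k).ev st v)
      ((rg c q f k).ev st p) ((rg c q f k).ev st t) := by
  simp only [xl1v, ev_add, ev_mul, ev_pow, ev_k, l1v]
  push_cast
  ring

theorem ev_xl2x (a b u v p t : Ex) : (rg c q f k).ev st (xl2x a b u v p t) =
    l2x c ((rg c q f k).ev st a) ((rg c q f k).ev st b)
      ((rg c q f k).ev st u) ((rg c q f k).ev st v)
      ((rg c q f k).ev st p) ((rg c q f k).ev st t) := by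
  simp only [xl2x, ev_add, ev_mul, ev_pow, ev_k, l2x]
  push_cast
  ring

theorem ev_xl2y (a b u v p t : Ex) : (rg c q f k).ev st (xl2y a b u v p t) =
    l2y c ((rg c q f k).ev st a) ((rg c q f k).ev st b)
      ((rg c q f k).ev st u) ((rg c q f k).ev st v)
      ((rg c q f k).ev st p) ((rg c q f k).ev st t) := by
  simp only [xl2y, ev_add, ev_mul, ev_pow, ev_k, l2y]
  push_cast
  ring

theorem ev_xl2u (a b u v p t : Ex) : (rg c q f k).ev st (xl2u a b u v p t) =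
    l2u c ((rg c q f k).ev st a) ((rg c q f k).ev st b)
      ((rg c q f k).ev st u) ((rg c q f k).ev st v)
      ((rg c q f k).ev st p) ((rg c q f k).ev st t) := by
  simp only [xl2u, ev_add, ev_mul, ev_pow, ev_k, l2u]
  push_cast
  ring

theorem ev_xl2v (a b u v p t : Ex) : (rg c q f k).ev st (xl2v a b u v p t) =
    l2v c ((rg c q f k).ev st a) ((rg c q f k).ev st b)
      ((rg c q f k).ev st u) ((rg c q f k).ev st v)
      ((rg c q f k).ev st p) ((rg c q f k).ev st t) := by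
  simp only [xl2v, ev_add, ev_mul, ev_pow, ev_k, l2v]
  push_cast
  ring

theorem ev_xl3x (a b u v p t : Ex) : (rg c q f k).ev st (xl3x a b u v p t) =
    l3x c ((rg c q f k).ev st a) ((rg c q f k).ev st b)
      ((rg c q f k).ev st u) ((rg c q f k).ev st v)
      ((rg c q f k).ev st p) ((rg c q f k).ev st t) := by
  simp only [xl3x, ev_add, ev_mul, ev_pow, ev_k, l3x]
  push_cast
  ring

theorem ev_xl3y (a b u v p t : Ex) : (rg c q f k).ev st (xl3y a b u v p t) =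
    l3y c ((rg c q f k).ev st a) ((rg c q f k).ev st b)
      ((rg c q f k).ev st u) ((rg c q f k).ev st v)
      ((rg c q f k).ev st p) ((rg c q f k).ev st t) := by
  simp only [xl3y, ev_add, ev_mul, ev_pow, ev_k, l3y]
  push_cast
  ring

theorem ev_xl3u (a b u v p t : Ex) : (rg c q f k).ev st (xl3u a b u v p t) =
    l3u c ((rg c q f k).ev st a) ((rg c q f k).ev st b)
      ((rg c q f k).ev st u) ((rg c q f k).ev st v)
      ((rg c q f k).ev st p) ((rg c q f k).ev st t) := by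
  simp only [xl3u, ev_add, ev_mul, ev_pow, ev_k, l3u]
  push_cast
  ring

theorem ev_xl3v (a b u v p t : Ex) : (rg c q f k).ev st (xl3v a b u v p t) =
    l3v c ((rg c q f k).ev st a) ((rg c q f k).ev st b)
      ((rg c q f k).ev st u) ((rg c q f k).ev st v)
      ((rg c q f k).ev st p) ((rg c q f k).ev st t) := by
  simp only [xl3v, ev_add, ev_mul, ev_pow, ev_k, l3v]
  push_cast
  ring

end

end Vale.Agent.P297.H212
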