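import Vale.Agent.P297.H212.Place

/-!
Residues modulo a valuation ring of residue characteristic `23`.
-/

namespace Vale.Agent.P297.H212

variable {K : Type} [Field K]

/-- `a` is in the valuation ring and congruent to the integer `n` -/
def Res (V : ValuationSubring K) (a : K) (n : ℤ) : Prop :=
  ∃ h : a ∈ V, IsLocalRing.residue V ⟨a, h⟩ = (n : IsLocalRing.ResidueField V)

theorem Res.of_nonunit {V : ValuationSubring K} {a : K} {n : ℤ} (h : a - n ∈ V.nonunits) :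
    Res V a n := by
  obtain ⟨h1, h2⟩ := ValuationSubring.mem_nonunits_iff_exists_mem_maximalIdeal.1 h
  have hn : (n : K) ∈ V := intCast_mem V n
  have ha : a ∈ V := by
    have := add_mem h1 hn
    rwa [sub_add_cancel] at this
  refine ⟨ha, ?_⟩
  have h3 : IsLocalRing.residue V (⟨a, ha⟩ - (n : V)) = 0 := by
    rw [IsLocalRing.residue_eq_zero_iff]
    exact h2
  rw [map_sub, map_intCast, sub_eq_zero] at h3
  exact h3

theorem Res.int (V : ValuationSubring K) (n : ℤ) : Res V (n : K) n :=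
  ⟨intCast_mem V n, by
    have : (⟨(n : K), intCast_mem V n⟩ : V) = (n : V) := rfl
    rw [this, map_intCast]⟩

theorem Res.add {V : ValuationSubring K} {a b : K} {n k : ℤ} (ha : Res V a n) (hb : Res V b k) :
    Res V (a + b) (n + k) := by
  obtain ⟨h1, e1⟩ := ha
  obtain ⟨h2, e2⟩ := hb
  refine ⟨add_mem h1 h2, ?_⟩
  have : (⟨a + b, add_mem h1 h2⟩ : V) = ⟨a, h1⟩ + ⟨b, h2⟩ := rfl
  rw [this, map_add, e1, e2]
  push_cast
  ring

theorem Res.mul {V : ValuationSubring K} {a b : K} {n k : ℤ} (ha : Res V a n) (hb : Res V b k) :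
    Res V (a * b) (n * k) := by
  obtain ⟨h1, e1⟩ := ha
  obtain ⟨h2, e2⟩ := hb
  refine ⟨mul_mem h1 h2, ?_⟩
  have : (⟨a * b, mul_mem h1 h2⟩ : V) = ⟨a, h1⟩ * ⟨b, h2⟩ := rfl
  rw [this, map_mul, e1, e2]
  push_cast
  ring

theorem Res.congr {V : ValuationSubring K} (h23 : (23 : K) ∈ V.nonunits) {a : K} {n k : ℤ}
    (ha : Res V a n) (h : (23 : ℤ) ∣ n - k) : Res V a k := by
  obtain ⟨h1, e1⟩ := ha
  refine ⟨h1, ?_⟩
  rw [e1]
  obtain ⟨l, hl⟩ := h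
  obtain ⟨h2, h3⟩ := ValuationSubring.mem_nonunits_iff_exists_mem_maximalIdeal.1 h23
  have h4 : ((23 : ℤ) : IsLocalRing.ResidueField V) = 0 := by
    have h5 : IsLocalRing.residue V ((23 : ℤ) : V) = 0 := by
      rw [IsLocalRing.residue_eq_zero_iff]
      have : ((23 : ℤ) : V) = ⟨23, h2⟩ := by
        apply Subtype.ext
        push_cast
        rfl
      rw [this]
      exact h3
    rwa [map_intCast] at h5
  have h6 : n = k + 23 * l := by omega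
  rw [h6]
  push_cast
  push_cast at h4
  rw [h4]
  ring

theorem Res.residue_ne {V : ValuationSubring K} (h23 : (23 : K) ∈ V.nonunits) {n : ℤ}
    (h : ¬ (23 : ℤ) ∣ n) : (n : IsLocalRing.ResidueField V) ≠ 0 := by
  intro h0
  have hco : IsCoprime (23 : ℤ) n :=
    (Int.prime_iff_natAbs_prime.2 (by norm_num)).coprime_iff_not_dvd.2 h
  obtain ⟨u, v, huv⟩ := hco
  have h1 : Res V (1 : K) 0 := by
    have h2 := (Res.int V (u * 23)).congr h23 (k := 0) ⟨u, by ring⟩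
    have h3 : Res V ((v * n : ℤ) : K) 0 := by
      obtain ⟨h4, e4⟩ := Res.int V (v * n)
      refine ⟨h4, ?_⟩
      rw [e4]
      push_cast
      rw [h0, mul_zero]
    have h5 := h2.add h3
    have h6 : (((u * 23 : ℤ) : K) + ((v * n : ℤ) : K)) = 1 := by
      rw [← Int.cast_add, huv, Int.cast_one]
    rwa [h6, add_zero] at h5
  obtain ⟨h2, e2⟩ := h1
  have h3 : (⟨1, h2⟩ : V) = 1 := rfl
  rw [h3, map_one] at e2
  push_cast at e2
  exact one_ne_zero e2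

theorem Res.ne_zero {V : ValuationSubring K} (h23 : (23 : K) ∈ V.nonunits) {a : K} {n : ℤ}
    (ha : Res V a n) (h : ¬ (23 : ℤ) ∣ n) : a ≠ 0 := by
  rintro rfl
  obtain ⟨h1, e1⟩ := ha
  have h3 : (⟨0, h1⟩ : V) = 0 := rfl
  rw [h3, map_zero] at e1
  exact Res.residue_ne h23 h e1.symm

theorem Res.inv_mem {V : ValuationSubring K} (h23 : (23 : K) ∈ V.nonunits) {a : K} {n : ℤ}
    (ha : Res V a n) (h : ¬ (23 : ℤ) ∣ n) : a⁻¹ ∈ V := by
  by_contra hi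
  have h1 : a ∈ V.nonunits := by
    rw [ValuationSubring.mem_nonunits_iff_or]
    exact Or.inr hi
  obtain ⟨h2, h3⟩ := ValuationSubring.mem_nonunits_iff_exists_mem_maximalIdeal.1 h1
  obtain ⟨h4, e4⟩ := ha
  rw [← IsLocalRing.residue_eq_zero_iff, e4] at h3
  exact Res.residue_ne h23 h h3

theorem Res.div {V : ValuationSubring K} (h23 : (23 : K) ∈ V.nonunits) {a b : K} {n k q : ℤ}
    (ha : Res V a n) (hb : Res V b k) (h : ¬ (23 : ℤ) ∣ k) (hq : (23 : ℤ) ∣ n - q * k) :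
    Res V (a / b) q := by
  have hb0 := hb.ne_zero h23 h
  have hbi := hb.inv_mem h23 h
  have ha' := ha.congr h23 hq
  obtain ⟨h1, e1⟩ := ha'
  obtain ⟨h2, e2⟩ := hb
  have hm : a / b ∈ V := by
    rw [div_eq_mul_inv]
    exact mul_mem h1 hbi
  refine ⟨hm, ?_⟩
  have h3 : (⟨a / b, hm⟩ : V) * ⟨b, h2⟩ = ⟨a, h1⟩ := by
    apply Subtype.ext
    exact div_mul_cancel₀ a hb0
  have h4 := congrArg (IsLocalRing.residue V) h3
  rw [map_mul, e1, e2] at h4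
  push_cast at h4
  exact mul_right_cancel₀ (Res.residue_ne h23 h) h4

theorem Res.map3 {V : ValuationSubring K} (F : ∀ {A : Type} [CommRing A], A → A → A → A)
    (hF : ∀ {A B : Type} [CommRing A] [CommRing B] (φ : A →+* B) (a b c : A),
      φ (F a b c) = F (φ a) (φ b) (φ c)) {a b c : K} {n k l : ℤ}
    (ha : Res V a n) (hb : Res V b k) (hc : Res V c l) : Res V (F a b c) (F n k l) := by
  obtain ⟨h1, e1⟩ := ha
  obtain ⟨h2, e2⟩ := hb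
  obtain ⟨h3, e3⟩ := hc
  have hm : ((F (⟨a, h1⟩ : V) ⟨b, h2⟩ ⟨c, h3⟩ : V) : K) = F a b c :=
    hF (algebraMap V K) _ _ _
  refine ⟨hm ▸ (F (⟨a, h1⟩ : V) ⟨b, h2⟩ ⟨c, h3⟩ : V).2, ?_⟩
  have h4 : (⟨F a b c, hm ▸ (F (⟨a, h1⟩ : V) ⟨b, h2⟩ ⟨c, h3⟩ : V).2⟩ : V) =
      F (⟨a, h1⟩ : V) ⟨b, h2⟩ ⟨c, h3⟩ := Subtype.ext hm.symm
  rw [h4, hF, e1, e2, e3, ← eq_intCast (Int.castRingHom _) n, ← eq_intCast (Int.castRingHom _) k,
    ← eq_intCast (Int.castRingHom _) l, ← hF]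
  rfl

theorem Res.map4 {V : ValuationSubring K} (F : ∀ {A : Type} [CommRing A], A → A → A → A → A)
    (hF : ∀ {A B : Type} [CommRing A] [CommRing B] (φ : A →+* B) (a b c d : A),
      φ (F a b c d) = F (φ a) (φ b) (φ c) (φ d)) {a b c d : K} {n k l m : ℤ}
    (ha : Res V a n) (hb : Res V b k) (hc : Res V c l) (hd : Res V d m) :
    Res V (F a b c d) (F n k l m) := by
  obtain ⟨h1, e1⟩ := ha
  obtain ⟨h2, e2⟩ := hb
  obtain ⟨h3, e3⟩ := hc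
  obtain ⟨h5, e5⟩ := hd
  have hm : ((F (⟨a, h1⟩ : V) ⟨b, h2⟩ ⟨c, h3⟩ ⟨d, h5⟩ : V) : K) = F a b c d :=
    hF (algebraMap V K) _ _ _ _
  refine ⟨hm ▸ (F (⟨a, h1⟩ : V) ⟨b, h2⟩ ⟨c, h3⟩ ⟨d, h5⟩ : V).2, ?_⟩
  have h4 : (⟨F a b c d, hm ▸ (F (⟨a, h1⟩ : V) ⟨b, h2⟩ ⟨c, h3⟩ ⟨d, h5⟩ : V).2⟩ : V) =
      F (⟨a, h1⟩ : V) ⟨b, h2⟩ ⟨c, h3⟩ ⟨d, h5⟩ := Subtype.ext hm.symm
  rw [h4, hF, e1, e2, e3, e5, ← eq_intCast (Int.castRingHom _) n,
    ← eq_intCast (Int.castRingHom _) k, ← eq_intCast (Int.castRingHom _) l,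
    ← eq_intCast (Int.castRingHom _) m, ← hF]
  rfl

theorem Res.map5 {V : ValuationSubring K} (F : ∀ {A : Type} [CommRing A], A → A → A → A → A → A)
    (hF : ∀ {A B : Type} [CommRing A] [CommRing B] (φ : A →+* B) (a b c d e : A),
      φ (F a b c d e) = F (φ a) (φ b) (φ c) (φ d) (φ e)) {a b c d e : K} {n k l m o : ℤ}
    (ha : Res V a n) (hb : Res V b k) (hc : Res V c l) (hd : Res V d m) (he : Res V e o) :
    Res V (F a b c d e) (F n k l m o) := by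
  obtain ⟨h1, e1⟩ := ha
  obtain ⟨h2, e2⟩ := hb
  obtain ⟨h3, e3⟩ := hc
  obtain ⟨h5, e5⟩ := hd
  obtain ⟨h6, e6⟩ := he
  have hm : ((F (⟨a, h1⟩ : V) ⟨b, h2⟩ ⟨c, h3⟩ ⟨d, h5⟩ ⟨e, h6⟩ : V) : K) = F a b c d e :=
    hF (algebraMap V K) _ _ _ _ _
  refine ⟨hm ▸ (F (⟨a, h1⟩ : V) ⟨b, h2⟩ ⟨c, h3⟩ ⟨d, h5⟩ ⟨e, h6⟩ : V).2, ?_⟩
  have h4 : (⟨F a b c d e, hm ▸ (F (⟨a, h1⟩ : V) ⟨b, h2⟩ ⟨c, h3⟩ ⟨d, h5⟩ ⟨e, h6⟩ : V).2⟩ : V) =
      F (⟨a, h1⟩ : V) ⟨b, h2⟩ ⟨c, h3⟩ ⟨d, h5⟩ ⟨e, h6⟩ := Subtype.ext hm.symm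
  rw [h4, hF, e1, e2, e3, e5, e6, ← eq_intCast (Int.castRingHom _) n,
    ← eq_intCast (Int.castRingHom _) k, ← eq_intCast (Int.castRingHom _) l,
    ← eq_intCast (Int.castRingHom _) m, ← eq_intCast (Int.castRingHom _) o, ← hF]
  rfl

end Vale.Agent.P297.H212
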