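import Vale.Agent.P297.H212.KNat
import Vale.Agent.P297.H212.KIds
import Vale.Agent.P297.H212.Res
import Vale.Agent.P297.H212.Asm

/-!
The function field of the Craighero-Gattazzo quintic.
-/

set_option linter.unusedSectionVars false

open IntermediateField

namespace Vale.Agent.P297.H212

open Vale.Agent.P297 Vale.Agent.P297.H600 Vale.Agent.P297.H839

section

variable {A B : Type*} [CommRing A] [CommRing B] (φ : A →+* B) (c m r : A)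

theorem map_dd1 : φ (dd1 c m r) = dd1 (φ c) (φ m) (φ r) := by
  simp [dd1, map_kb2, map_kb1, map_qb1, map_qb2]

theorem map_qb2' : φ (qb2 c m 1) = qb2 (φ c) (φ m) 1 := by
  rw [map_qb2, map_one]

end

/-- The residues. -/
theorem exists_res {K : Type} [Field K] [Algebra ℂ K] {c : ℂ} (hc : c ^ 3 - c ^ 2 + 1 = 0)
    {x y z : K} (hxy : AlgebraicIndependent ℂ ![x, y])
    (hF : cgForm (algebraMap ℂ K c) x y z 1 = 0) :
    ∃ V : ValuationSubring K, (23 : K) ∈ V.nonunits ∧ Res V (algebraMap ℂ K c) 15 ∧ Res V x 8 ∧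
      Res V y 1 ∧ Res V z 1 := by
  obtain ⟨V, hVc, hVx, hVy, h23⟩ := exists_val hc hxy
  have rc : Res V (algebraMap ℂ K c) 15 := Res.of_nonunit (by push_cast; exact hVc)
  have rx : Res V x 8 := Res.of_nonunit (by push_cast; exact hVx)
  have ry : Res V y 1 := Res.of_nonunit (by push_cast; exact hVy)
  refine ⟨V, h23, rc, rx, ry, ?_⟩
  set C := algebraMap ℂ K c with hC
  have r3 : Res V (f3 C x y) 12 := (Res.map3 f3 map_f3 rc rx ry).congr h23 (by norm_num [f3])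
  have r2 : Res V (f2 C x y) 10 := (Res.map3 f2 map_f2 rc rx ry).congr h23 (by norm_num [f2])
  have r1 : Res V (f1 C x y) 13 := (Res.map3 f1 map_f1 rc rx ry).congr h23 (by norm_num [f1])
  have r0 : Res V (f0 C x y) 11 := (Res.map3 f0 map_f0 rc rx ry).congr h23 (by norm_num [f0])
  rw [cg_cubic] at hF
  have hzV : z ∈ V := by
    by_contra hz
    have hz0 : z ≠ 0 := by
      rintro rfl
      exact hz (zero_mem V)
    have h1 : z⁻¹ ∈ V.nonunits := by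
      rw [ValuationSubring.inv_mem_nonunits_iff]
      exact Or.inr hz
    have h2 : Res V z⁻¹ 0 := Res.of_nonunit (by rw [Int.cast_zero, sub_zero]; exact h1)
    have h3 : Res V (f3 C x y + (f2 C x y * z⁻¹ + (f1 C x y * (z⁻¹ * z⁻¹) +
        f0 C x y * (z⁻¹ * (z⁻¹ * z⁻¹))))) _ :=
      r3.add ((r2.mul h2).add ((r1.mul (h2.mul h2)).add (r0.mul (h2.mul (h2.mul h2)))))
    refine h3.ne_zero h23 (by norm_num) ?_
    have h4 : (f3 C x y + (f2 C x y * z⁻¹ + (f1 C x y * (z⁻¹ * z⁻¹) +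
        f0 C x y * (z⁻¹ * (z⁻¹ * z⁻¹))))) * z ^ 3 = 0 := by
      have h5 : z⁻¹ * z = 1 := inv_mul_cancel₀ hz0
      linear_combination hF + (f2 C x y * z ^ 2 + f1 C x y * z * (z⁻¹ * z + 1) +
        f0 C x y * ((z⁻¹ * z) ^ 2 + z⁻¹ * z + 1)) * h5
    exact (mul_eq_zero.1 h4).resolve_right (pow_ne_zero 3 hz0)
  refine ⟨hzV, ?_⟩
  obtain ⟨h3, e3⟩ := r3
  obtain ⟨h2, e2⟩ := r2
  obtain ⟨h1, e1⟩ := r1
  obtain ⟨h0, e0'⟩ := r0
  have hsum : (⟨f3 C x y, h3⟩ : V) * ⟨z, hzV⟩ ^ 3 + ⟨f2 C x y, h2⟩ * ⟨z, hzV⟩ ^ 2 +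
      ⟨f1 C x y, h1⟩ * ⟨z, hzV⟩ + ⟨f0 C x y, h0⟩ = 0 := Subtype.ext hF
  have hres := congrArg (IsLocalRing.residue V) hsum
  rw [map_add, map_add, map_add, map_mul, map_mul, map_mul, map_pow, map_pow, map_zero, e3, e2,
    e1, e0'] at hres
  have h12 : ((12 : ℤ) : IsLocalRing.ResidueField V) ≠ 0 := Res.residue_ne h23 (by norm_num)
  have h23' : ((23 : ℤ) : IsLocalRing.ResidueField V) = 0 := by
    obtain ⟨_, e⟩ := (Res.int V 23).congr h23 (k := 0) (by norm_num)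
    have h5 := (Res.int V 23)
    obtain ⟨_, e'⟩ := h5
    rw [e] at e'
    rw [← e', Int.cast_zero]
  obtain ⟨ζ, hζ⟩ : ∃ ζ, ζ = IsLocalRing.residue V ⟨z, hzV⟩ := ⟨_, rfl⟩
  rw [← hζ] at hres ⊢
  push_cast at hres h12 h23'
  have h6 : 12 * (ζ - 1) ^ 3 = 0 := by
    linear_combination hres + (-(2 : IsLocalRing.ResidueField V) * ζ ^ 2 + ζ - 1) * h23'
  have h7 : (ζ - 1) ^ 3 = 0 := (mul_eq_zero.1 h6).resolve_left h12
  have h8 : ζ - 1 = 0 := pow_eq_zero_iff (by norm_num) |>.1 h7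
  push_cast
  linear_combination h8

section mem

variable {K : Type} [Field K] [Algebra ℂ K] (F : IntermediateField ℂ K) (c : ℂ)

theorem dd1_mem {m r : K} (hm : m ∈ F) (hr : r ∈ F) : dd1 (algebraMap ℂ K c) m r ∈ F :=
  mem_of_map F _ (map_dd1 (algebraMap F K) (algebraMap ℂ F c) ⟨m, hm⟩ ⟨r, hr⟩)

theorem qa_mem {a b u v : K} (ha : a ∈ F) (hb : b ∈ F) (hu : u ∈ F) (hv : v ∈ F) :
    qa (algebraMap ℂ K c) a b u v ∈ F :=
  mem_of_map F _ (map_qa (algebraMap F K) (algebraMap ℂ F c) ⟨a, ha⟩ ⟨b, hb⟩ ⟨u, hu⟩ ⟨v, hv⟩)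

theorem ka_mem {a b u v : K} (ha : a ∈ F) (hb : b ∈ F) (hu : u ∈ F) (hv : v ∈ F) :
    ka (algebraMap ℂ K c) a b u v ∈ F :=
  mem_of_map F _ (map_ka (algebraMap F K) (algebraMap ℂ F c) ⟨a, ha⟩ ⟨b, hb⟩ ⟨u, hu⟩ ⟨v, hv⟩)

theorem qb0_mem {a b : K} (ha : a ∈ F) (hb : b ∈ F) : qb0 (algebraMap ℂ K c) a b ∈ F :=
  mem_of_map F _ (map_qb0 (algebraMap F K) (algebraMap ℂ F c) ⟨a, ha⟩ ⟨b, hb⟩)

theorem qb2_mem {a b : K} (ha : a ∈ F) (hb : b ∈ F) : qb2 (algebraMap ℂ K c) a b ∈ F :=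
  mem_of_map F _ (map_qb2 (algebraMap F K) (algebraMap ℂ F c) ⟨a, ha⟩ ⟨b, hb⟩)

theorem kb0_mem {a b u v : K} (ha : a ∈ F) (hb : b ∈ F) (hu : u ∈ F) (hv : v ∈ F) :
    kb0 (algebraMap ℂ K c) a b u v ∈ F :=
  mem_of_map F _ (map_kb0 (algebraMap F K) (algebraMap ℂ F c) ⟨a, ha⟩ ⟨b, hb⟩ ⟨u, hu⟩ ⟨v, hv⟩)

theorem kb2_mem {a b u v : K} (ha : a ∈ F) (hb : b ∈ F) (hu : u ∈ F) (hv : v ∈ F) :
    kb2 (algebraMap ℂ K c) a b u v ∈ F :=
  mem_of_map F _ (map_kb2 (algebraMap F K) (algebraMap ℂ F c) ⟨a, ha⟩ ⟨b, hb⟩ ⟨u, hu⟩ ⟨v, hv⟩)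

theorem nn1_mem {m r t : K} (hm : m ∈ F) (hr : r ∈ F) (ht : t ∈ F) :
    nn1 (algebraMap ℂ K c) m r t ∈ F := by
  unfold nn1
  have h1 := one_mem F
  exact add_mem (mul_mem (sub_mem (mul_mem (kb2_mem F c hm h1 hr h1) (qb0_mem F c hm h1))
    (mul_mem (qb2_mem F c hm h1) (kb0_mem F c hm h1 hr h1))) ht)
    (sub_mem (mul_mem (kb2_mem F c hm h1 hr h1) (qa_mem F c hm h1 hr h1))
    (mul_mem (qb2_mem F c hm h1) (ka_mem F c hm h1 hr h1)))

end mem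

/-- a solution of three linear equations -/
theorem cramer {K : Type} [Field K] [Algebra ℂ K] (G : IntermediateField ℂ K)
    (a1 a2 a3 b1 b2 b3 c1 c2 c3 d1 d2 d3 X Y U V : K)
    (ha1 : a1 ∈ G) (ha2 : a2 ∈ G) (ha3 : a3 ∈ G) (hb1 : b1 ∈ G) (hb2 : b2 ∈ G) (hb3 : b3 ∈ G)
    (hc1 : c1 ∈ G) (hc2 : c2 ∈ G) (hc3 : c3 ∈ G) (hd1 : d1 ∈ G) (hd2 : d2 ∈ G) (hd3 : d3 ∈ G)
    (h1 : a1 * X + b1 * Y + (c1 * U + d1 * V) = 0)
    (h2 : a2 * X + b2 * Y + (c2 * U + d2 * V) = 0)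
    (h3 : a3 * X + b3 * Y + (c3 * U + d3 * V) = 0)
    (hdet : b1 * (c2 * d3 - d2 * c3) - c1 * (b2 * d3 - d2 * b3) + d1 * (b2 * c3 - c2 * b3) ≠ 0)
    (hYV : Y - V = 2) (htwo : (2 : K) ≠ 0) : X ∈ G ∧ Y ∈ G ∧ U ∈ G ∧ V ∈ G := by
  set D := b1 * (c2 * d3 - d2 * c3) - c1 * (b2 * d3 - d2 * b3) + d1 * (b2 * c3 - c2 * b3) with hD
  set DY := a1 * (c2 * d3 - d2 * c3) - c1 * (a2 * d3 - d2 * a3) + d1 * (a2 * c3 - c2 * a3) with hDY
  set DU := b1 * (a2 * d3 - d2 * a3) - a1 * (b2 * d3 - d2 * b3) + d1 * (b2 * a3 - a2 * b3) with hDU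
  set DV := b1 * (c2 * a3 - a2 * c3) - c1 * (b2 * a3 - a2 * b3) + a1 * (b2 * c3 - c2 * b3) with hDV
  have hDm : D ∈ G := by
    rw [hD]
    exact add_mem (sub_mem (mul_mem hb1 (sub_mem (mul_mem hc2 hd3) (mul_mem hd2 hc3)))
      (mul_mem hc1 (sub_mem (mul_mem hb2 hd3) (mul_mem hd2 hb3))))
      (mul_mem hd1 (sub_mem (mul_mem hb2 hc3) (mul_mem hc2 hb3)))
  have hDYm : DY ∈ G := by
    rw [hDY]
    exact add_mem (sub_mem (mul_mem ha1 (sub_mem (mul_mem hc2 hd3) (mul_mem hd2 hc3)))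
      (mul_mem hc1 (sub_mem (mul_mem ha2 hd3) (mul_mem hd2 ha3))))
      (mul_mem hd1 (sub_mem (mul_mem ha2 hc3) (mul_mem hc2 ha3)))
  have hDUm : DU ∈ G := by
    rw [hDU]
    exact add_mem (sub_mem (mul_mem hb1 (sub_mem (mul_mem ha2 hd3) (mul_mem hd2 ha3)))
      (mul_mem ha1 (sub_mem (mul_mem hb2 hd3) (mul_mem hd2 hb3))))
      (mul_mem hd1 (sub_mem (mul_mem hb2 ha3) (mul_mem ha2 hb3)))
  have hDVm : DV ∈ G := by
    rw [hDV]
    exact add_mem (sub_mem (mul_mem hb1 (sub_mem (mul_mem hc2 ha3) (mul_mem ha2 hc3)))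
      (mul_mem hc1 (sub_mem (mul_mem hb2 ha3) (mul_mem ha2 hb3))))
      (mul_mem ha1 (sub_mem (mul_mem hb2 hc3) (mul_mem hc2 hb3)))
  have eY : D * Y = -(X * DY) := by
    rw [hD, hDY]
    linear_combination (c2 * d3 - d2 * c3) * h1 + (-(c1 * d3) + d1 * c3) * h2 +
      (c1 * d2 - d1 * c2) * h3
  have eU : D * U = -(X * DU) := by
    rw [hD, hDU]
    linear_combination (-(b2 * d3) + d2 * b3) * h1 + (b1 * d3 - d1 * b3) * h2 +
      (-(b1 * d2) + d1 * b2) * h3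
  have eV : D * V = -(X * DV) := by
    rw [hD, hDV]
    linear_combination (b2 * c3 - c2 * b3) * h1 + (-(b1 * c3) + c1 * b3) * h2 +
      (b1 * c2 - c1 * b2) * h3
  have hX : X * (DV - DY) = 2 * D := by
    linear_combination D * hYV - eY + eV
  have hne : DV - DY ≠ 0 := by
    intro h0
    rw [h0, mul_zero] at hX
    exact (mul_ne_zero htwo hdet) hX.symm
  have hXG : X ∈ G := by
    have : X = 2 * D / (DV - DY) := by rw [eq_div_iff hne, hX]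
    rw [this]
    exact div_mem (mul_mem (ofNat_mem _ 2) hDm) (sub_mem hDVm hDYm)
  refine ⟨hXG, ?_, ?_, ?_⟩
  · have : Y = -(X * DY) / D := by rw [eq_div_iff hdet, mul_comm, eY]
    rw [this]
    exact div_mem (neg_mem (mul_mem hXG hDYm)) hDm
  · have : U = -(X * DU) / D := by rw [eq_div_iff hdet, mul_comm, eU]
    rw [this]
    exact div_mem (neg_mem (mul_mem hXG hDUm)) hDm
  · have : V = -(X * DV) / D := by rw [eq_div_iff hdet, mul_comm, eV]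
    rw [this]
    exact div_mem (neg_mem (mul_mem hXG hDVm)) hDm

section main

variable {K : Type} [Field K] [Algebra ℂ K] {c : ℂ}

theorem two_ne : (2 : K) ≠ 0 := by
  have : algebraMap ℂ K 2 ≠ 0 := by
    rw [Ne, FaithfulSMul.algebraMap_eq_zero_iff]
    exact two_ne_zero
  simpa [map_ofNat] using this

/-- **The Craighero-Gattazzo quintic.** -/
theorem quintic_points (hc : c ^ 3 - c ^ 2 + 1 = 0) {x y z : K}
    (hxy : AlgebraicIndependent ℂ ![x, y])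
    (htop : IntermediateField.adjoin ℂ {x, y, z} = ⊤)
    (hF : cgForm (algebraMap ℂ K c) x y z 1 = 0) : PointsEquivalent K := by
  obtain ⟨V, h23, rc, rx, ry, rz⟩ := exists_res hc hxy hF
  have hC := map_rel (T := K) hc
  obtain ⟨C, hCdef⟩ : ∃ C : K, C = algebraMap ℂ K c := ⟨_, rfl⟩
  rw [← hCdef] at rc hC hF
  -- the four forms
  obtain ⟨R1, hR1⟩ : ∃ R : K, R = rr1 C x y z := ⟨_, rfl⟩
  obtain ⟨R2, hR2⟩ : ∃ R : K, R = rr2 C x y z := ⟨_, rfl⟩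
  obtain ⟨R3, hR3⟩ : ∃ R : K, R = rr3 C x y z := ⟨_, rfl⟩
  obtain ⟨R4, hR4⟩ : ∃ R : K, R = rr4 C x y z := ⟨_, rfl⟩
  have r1 : Res V R1 16 := hR1 ▸ (Res.map4 rr1 map_rr1 rc rx ry rz).congr h23 (by norm_num [rr1])
  have r2 : Res V R2 12 := hR2 ▸ (Res.map4 rr2 map_rr2 rc rx ry rz).congr h23 (by norm_num [rr2])
  have r3 : Res V R3 19 := hR3 ▸ (Res.map4 rr3 map_rr3 rc rx ry rz).congr h23 (by norm_num [rr3])
  have r4 : Res V R4 13 := hR4 ▸ (Res.map4 rr4 map_rr4 rc rx ry rz).congr h23 (by norm_num [rr4])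
  have hy0 : y ≠ 0 := ry.ne_zero h23 (by norm_num)
  have hR20 : R2 ≠ 0 := r2.ne_zero h23 (by norm_num)
  obtain ⟨m, hm⟩ : ∃ m : K, m = x * z / y := ⟨_, rfl⟩
  obtain ⟨r, hr⟩ : ∃ r : K, r = R1 / R2 := ⟨_, rfl⟩
  obtain ⟨p, hp⟩ : ∃ p : K, p = R3 / R2 := ⟨_, rfl⟩
  obtain ⟨t, ht⟩ : ∃ t : K, t = R4 / R2 := ⟨_, rfl⟩
  have rm : Res V m 8 := hm ▸ (rx.mul rz).div h23 ry (by norm_num) (by norm_num)
  have rr : Res V r 9 := hr ▸ r1.div h23 r2 (by norm_num) (by norm_num)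
  have rp : Res V p 15 := hp ▸ r3.div h23 r2 (by norm_num) (by norm_num)
  have rt : Res V t 3 := ht ▸ r4.div h23 r2 (by norm_num) (by norm_num)
  have rone : Res V (1 : K) 1 := by
    have := Res.int V 1
    rwa [Int.cast_one] at this
  have em : x * z = m * y := by rw [hm, div_mul_cancel₀ _ hy0]
  have e1 : R1 = r * R2 := by rw [hr, div_mul_cancel₀ _ hR20]
  have e3 : R3 = p * R2 := by rw [hp, div_mul_cancel₀ _ hR20]
  have e4 : R4 = t * R2 := by rw [ht, div_mul_cancel₀ _ hR20]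
  -- nonvanishing
  have hm0 : m ≠ 0 := rm.ne_zero h23 (by norm_num)
  have ht0 : t ≠ 0 := rt.ne_zero h23 (by norm_num)
  have hb2 : qb2 C m 1 ≠ 0 :=
    (Res.map3 qb2 map_qb2 rc rm rone).ne_zero h23 (by norm_num [qb2])
  have hd1 : dd1 C m r ≠ 0 :=
    (Res.map3 dd1 map_dd1 rc rm rr).ne_zero h23 (by norm_num [dd1, qb2, qb1, kb2, kb1])
  have hgam : gam C m r ≠ 0 :=
    (Res.map3 gam map_gam rc rm rr).ne_zero h23 (by norm_num [gam])
  have hdet : det0 C m r p t ≠ 0 :=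
    (Res.map5 det0 (fun φ a b c d e => map_det0 φ a d e b c) rc rm rr rp rt).ne_zero h23
      (by norm_num [det0, l1y, l1u, l1v, l2y, l2u, l2v, l3y, l3u, l3v])
  have hk : 2 + C - 2 * C ^ 2 ≠ 0 := by
    have h1 : Res V (2 + C - 2 * C ^ 2) _ :=
      Res.map3 (fun {A} _ c (_ _ : A) => 2 + c - 2 * c ^ 2)
        (fun φ a _ _ => by simp [map_ofNat]) rc rone rone
    exact h1.ne_zero h23 (by norm_num)
  -- the quadric and the cubic
  have hQ := idQ hC x y z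
  have hK := idK hC x y z
  rw [hF, mul_zero, ← hR1, ← hR2, ← hR3, ← hR4, em, e1, e3, e4] at hQ hK
  rw [qa_hom, qb0_hom, qb1_hom, qb2_hom] at hQ
  rw [ka_hom, kb0_hom, kb1_hom, kb2_hom] at hK
  have hQ' : qa C m 1 r 1 + qb2 C m 1 * p ^ 2 + qb1 C m 1 * (p * t) + qb0 C m 1 * t ^ 2 = 0 := by
    have h1 : (qa C m 1 r 1 + qb2 C m 1 * p ^ 2 + qb1 C m 1 * (p * t) + qb0 C m 1 * t ^ 2) *
        (y ^ 3 * R2 ^ 2) = 0 := by linear_combination hQ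
    exact (mul_eq_zero.1 h1).resolve_right (mul_ne_zero (pow_ne_zero _ hy0) (pow_ne_zero _ hR20))
  have hK' : ka C m 1 r 1 + kb2 C m 1 r 1 * p ^ 2 + kb1 C m 1 r 1 * (p * t) +
      kb0 C m 1 r 1 * t ^ 2 = 0 := by
    have h1 : (ka C m 1 r 1 + kb2 C m 1 r 1 * p ^ 2 + kb1 C m 1 r 1 * (p * t) +
        kb0 C m 1 r 1 * t ^ 2) * (y ^ 2 * R2 ^ 3) = 0 := by linear_combination hK
    exact (mul_eq_zero.1 h1).resolve_right (mul_ne_zero (pow_ne_zero _ hy0) (pow_ne_zero _ hR20))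
  have hN : nn1 C m r (t ^ 2) = -(dd1 C m r * (p * t)) := by
    unfold nn1 dd1
    linear_combination kb2 C m 1 r 1 * hQ' - qb2 C m 1 * hK'
  -- the quartic
  have hquart : gam C m r * t ^ 4 - 2 * pp0 C m r * t ^ 2 + hh C m r ^ 2 = 0 := by
    have h1 := idE hC m r (t ^ 2)
    have h2 : (2 + C - 2 * C ^ 2) * m ^ 2 * qb2 C m 1 *
        (gam C m r * t ^ 4 - 2 * pp0 C m r * t ^ 2 + hh C m r ^ 2) = 0 := by
      rw [hN] at h1
      linear_combination -h1 + dd1 C m r ^ 2 * t ^ 2 * hQ'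
    exact (mul_eq_zero.1 h2).resolve_left
      (mul_ne_zero (mul_ne_zero hk (pow_ne_zero _ hm0)) hb2)
  -- generation
  have hmG' : m ∈ IntermediateField.adjoin ℂ {m, r} :=
    IntermediateField.subset_adjoin _ _ (by simp)
  have hrG' : r ∈ IntermediateField.adjoin ℂ {m, r} :=
    IntermediateField.subset_adjoin _ _ (by simp)
  obtain ⟨G, hG⟩ : ∃ G : IntermediateField ℂ K, G = IntermediateField.adjoin ℂ {m, r} ⊔
    IntermediateField.adjoin ℂ {t} := ⟨_, rfl⟩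
  have hle : IntermediateField.adjoin ℂ {m, r} ≤ G := hG ▸ le_sup_left
  have hmG : m ∈ G := hle hmG'
  have hrG : r ∈ G := hle hrG'
  have htG : t ∈ G := by
    rw [hG]
    exact mem_sup_adjoin _ t
  have h1G := one_mem G
  have hpG : p ∈ G := by
    have h1 : p = -(nn1 C m r (t ^ 2)) / (dd1 C m r * t) := by
      rw [eq_div_iff (mul_ne_zero hd1 ht0), hN]
      ring
    rw [h1, hCdef]
    exact div_mem (neg_mem (nn1_mem G c hmG hrG (pow_mem htG 2)))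
      (mul_mem (dd1_mem G c hmG hrG) htG)
  have hl1 := idL1 hC x y z
  have hl2 := idL2 hC x y z
  have hl3 := idL3 hC x y z
  rw [← hR1, ← hR2, ← hR3, ← hR4, em, e1, e3, e4] at hl1 hl2 hl3
  rw [l1x_hom, l1y_hom, l1u_hom, l1v_hom] at hl1
  rw [l2x_hom, l2y_hom, l2u_hom, l2v_hom] at hl2
  rw [l3x_hom, l3y_hom, l3u_hom, l3v_hom] at hl3
  have hl1' : l1x C m 1 r 1 p t * (x + z) + l1y C m 1 r 1 p t * (y + 1) +
      (l1u C m 1 r 1 p t * (x - z) + l1v C m 1 r 1 p t * (y - 1)) = 0 := by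
    have h1 : (l1x C m 1 r 1 p t * (x + z) + l1y C m 1 r 1 p t * (y + 1) +
      (l1u C m 1 r 1 p t * (x - z) + l1v C m 1 r 1 p t * (y - 1))) * (y * R2) = 0 := by
      linear_combination hl1
    exact (mul_eq_zero.1 h1).resolve_right (mul_ne_zero hy0 hR20)
  have hl2' : l2x C m 1 r 1 p t * (x + z) + l2y C m 1 r 1 p t * (y + 1) +
      (l2u C m 1 r 1 p t * (x - z) + l2v C m 1 r 1 p t * (y - 1)) = 0 := by
    have h1 : (l2x C m 1 r 1 p t * (x + z) + l2y C m 1 r 1 p t * (y + 1) +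
      (l2u C m 1 r 1 p t * (x - z) + l2v C m 1 r 1 p t * (y - 1))) * (y * R2) = 0 := by
      linear_combination hl2
    exact (mul_eq_zero.1 h1).resolve_right (mul_ne_zero hy0 hR20)
  have hl3' : l3x C m 1 r 1 p t * (x + z) + l3y C m 1 r 1 p t * (y + 1) +
      (l3u C m 1 r 1 p t * (x - z) + l3v C m 1 r 1 p t * (y - 1)) = 0 := by
    have h1 : (l3x C m 1 r 1 p t * (x + z) + l3y C m 1 r 1 p t * (y + 1) +
      (l3u C m 1 r 1 p t * (x - z) + l3v C m 1 r 1 p t * (y - 1))) * (y ^ 4 * R2) = 0 := by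
      linear_combination hl3
    exact (mul_eq_zero.1 h1).resolve_right (mul_ne_zero (pow_ne_zero _ hy0) hR20)
  have hmem : ∀ F : K → K → K → K → K → K → K → K,
      (∀ (a b u v p t : K), a ∈ G → b ∈ G → u ∈ G → v ∈ G → p ∈ G → t ∈ G →
        F C a b u v p t ∈ G) → F C m 1 r 1 p t ∈ G :=
    fun F hFm => hFm m 1 r 1 p t hmG h1G hrG h1G hpG htG
  obtain ⟨hXG, hYG, hUG, hVG⟩ := cramer G _ _ _ _ _ _ _ _ _ _ _ _ _ _ _ _
    (hmem l1x fun a b u v p t ha hb hu hv hp ht => hCdef ▸ mem_of_map G _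
      (map_l1x (algebraMap G K) (algebraMap ℂ G c) ⟨a, ha⟩ ⟨b, hb⟩ ⟨u, hu⟩ ⟨v, hv⟩ ⟨p, hp⟩ ⟨t, ht⟩))
    (hmem l2x fun a b u v p t ha hb hu hv hp ht => hCdef ▸ mem_of_map G _
      (map_l2x (algebraMap G K) (algebraMap ℂ G c) ⟨a, ha⟩ ⟨b, hb⟩ ⟨u, hu⟩ ⟨v, hv⟩ ⟨p, hp⟩ ⟨t, ht⟩))
    (hmem l3x fun a b u v p t ha hb hu hv hp ht => hCdef ▸ mem_of_map G _
      (map_l3x (algebraMap G K) (algebraMap ℂ G c) ⟨a, ha⟩ ⟨b, hb⟩ ⟨u, hu⟩ ⟨v, hv⟩ ⟨p, hp⟩ ⟨t, ht⟩))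
    (hmem l1y fun a b u v p t ha hb hu hv hp ht => hCdef ▸ mem_of_map G _
      (map_l1y (algebraMap G K) (algebraMap ℂ G c) ⟨a, ha⟩ ⟨b, hb⟩ ⟨u, hu⟩ ⟨v, hv⟩ ⟨p, hp⟩ ⟨t, ht⟩))
    (hmem l2y fun a b u v p t ha hb hu hv hp ht => hCdef ▸ mem_of_map G _
      (map_l2y (algebraMap G K) (algebraMap ℂ G c) ⟨a, ha⟩ ⟨b, hb⟩ ⟨u, hu⟩ ⟨v, hv⟩ ⟨p, hp⟩ ⟨t, ht⟩))
    (hmem l3y fun a b u v p t ha hb hu hv hp ht => hCdef ▸ mem_of_map G _
      (map_l3y (algebraMap G K) (algebraMap ℂ G c) ⟨a, ha⟩ ⟨b, hb⟩ ⟨u, hu⟩ ⟨v, hv⟩ ⟨p, hp⟩ ⟨t, ht⟩))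
    (hmem l1u fun a b u v p t ha hb hu hv hp ht => hCdef ▸ mem_of_map G _
      (map_l1u (algebraMap G K) (algebraMap ℂ G c) ⟨a, ha⟩ ⟨b, hb⟩ ⟨u, hu⟩ ⟨v, hv⟩ ⟨p, hp⟩ ⟨t, ht⟩))
    (hmem l2u fun a b u v p t ha hb hu hv hp ht => hCdef ▸ mem_of_map G _
      (map_l2u (algebraMap G K) (algebraMap ℂ G c) ⟨a, ha⟩ ⟨b, hb⟩ ⟨u, hu⟩ ⟨v, hv⟩ ⟨p, hp⟩ ⟨t, ht⟩))
    (hmem l3u fun a b u v p t ha hb hu hv hp ht => hCdef ▸ mem_of_map G _
      (map_l3u (algebraMap G K) (algebraMap ℂ G c) ⟨a, ha⟩ ⟨b, hb⟩ ⟨u, hu⟩ ⟨v, hv⟩ ⟨p, hp⟩ ⟨t, ht⟩))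
    (hmem l1v fun a b u v p t ha hb hu hv hp ht => hCdef ▸ mem_of_map G _
      (map_l1v (algebraMap G K) (algebraMap ℂ G c) ⟨a, ha⟩ ⟨b, hb⟩ ⟨u, hu⟩ ⟨v, hv⟩ ⟨p, hp⟩ ⟨t, ht⟩))
    (hmem l2v fun a b u v p t ha hb hu hv hp ht => hCdef ▸ mem_of_map G _
      (map_l2v (algebraMap G K) (algebraMap ℂ G c) ⟨a, ha⟩ ⟨b, hb⟩ ⟨u, hu⟩ ⟨v, hv⟩ ⟨p, hp⟩ ⟨t, ht⟩))
    (hmem l3v fun a b u v p t ha hb hu hv hp ht => hCdef ▸ mem_of_map G _
      (map_l3v (algebraMap G K) (algebraMap ℂ G c) ⟨a, ha⟩ ⟨b, hb⟩ ⟨u, hu⟩ ⟨v, hv⟩ ⟨p, hp⟩ ⟨t, ht⟩))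
    hl1' hl2' hl3' hdet (by ring) two_ne
  have hGtop : G = ⊤ := by
    rw [eq_top_iff, ← htop, IntermediateField.adjoin_le_iff]
    have h2G : (2 : K) ∈ G := ofNat_mem G 2
    rintro a (ha | ha | ha)
    · have : a = ((x + z) + (x - z)) / 2 := by
        rw [ha, eq_div_iff two_ne]
        ring
      rw [this]
      exact div_mem (add_mem hXG hUG) h2G
    · have : a = ((y + 1) + (y - 1)) / 2 := by
        rw [ha, eq_div_iff two_ne]
        ring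
      rw [this]
      exact div_mem (add_mem hYG hVG) h2G
    · have : a = ((x + z) - (x - z)) / 2 := by
        rw [Set.mem_singleton_iff.1 ha, eq_div_iff two_ne]
        ring
      rw [this]
      exact div_mem (sub_mem hXG hUG) h2G
  -- independence
  have hmr : AlgebraicIndependent ℂ ![m, r] := by
    have htalg : IsAlgebraic (IntermediateField.adjoin ℂ {m, r}) t := by
      have hg := gam_mem (IntermediateField.adjoin ℂ {m, r}) c hmG' hrG'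
      have hp0 := pp0_mem (IntermediateField.adjoin ℂ {m, r}) c hmG' hrG'
      have hh0 := hh_mem (IntermediateField.adjoin ℂ {m, r}) c hmG' hrG'
      rw [← hCdef] at hg hp0 hh0
      have h1 : IsAlgebraic (IntermediateField.adjoin ℂ {m, r})
          (gam C m r * t ^ 2 - pp0 C m r) := by
        refine isAlgebraic_sq _ _ (isAlgebraic_mem _ _ ?_)
        have h2 : (gam C m r * t ^ 2 - pp0 C m r) ^ 2 =
            pp0 C m r ^ 2 - gam C m r * hh C m r ^ 2 := by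
          linear_combination gam C m r * hquart
        rw [h2]
        exact sub_mem (pow_mem hp0 2) (mul_mem hg (pow_mem hh0 2))
      refine isAlgebraic_sq _ _ ?_
      have h3 : t ^ 2 = (gam C m r * t ^ 2 - pp0 C m r + pp0 C m r) * (gam C m r)⁻¹ := by
        rw [sub_add_cancel, mul_comm (gam C m r) (t ^ 2), mul_assoc, mul_inv_cancel₀ hgam, mul_one]
      rw [h3]
      exact (h1.add (isAlgebraic_mem _ _ hp0)).mul (isAlgebraic_mem _ _ (inv_mem hg))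
    have hall : ∀ a : K, IsAlgebraic (IntermediateField.adjoin ℂ {m, r}) a := by
      intro a
      refine isAlgebraic_of_gens _ ({m, r} ∪ {t}) ?_ ?_ a
      · rw [IntermediateField.adjoin_union, ← hG, hGtop]
      · rintro b ((hb | hb) | hb)
        · rw [hb]
          exact isAlgebraic_mem _ _ hmG'
        · rw [Set.mem_singleton_iff.1 hb]
          exact isAlgebraic_mem _ _ hrG'
        · rw [Set.mem_singleton_iff.1 hb]
          exact htalg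
    refine indep_of_algebraic hxy fun i => ?_
    rw [range_pair]
    exact hall _
  refine cg_points hc m r t hmr ?_ ?_
  · rw [← hCdef]
    exact hquart
  · rw [← hG, hGtop]

end main

end Vale.Agent.P297.H212
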