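import Vale.Agent.P297.H212.Poly
import Vale.Agent.P297.H600.CGDefs
import Vale.Agent.P297.H109.Conic

/-!
Naturality, membership in subfields, and nonvanishing for the polynomials of the twin of the
Craighero-Gattazzo surface.
-/

set_option linter.unusedSimpArgs false

namespace Vale.Agent.P297.H212

open IntermediateField Vale.Agent.P297.H600 Vale.Agent.P297.H839

section nat

variable {A B : Type*} [CommRing A] [CommRing B] (φ : A →+* B) (c s t x y m r : A)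

theorem map_a0 : φ (a0 c m) = a0 (φ c) (φ m) := by simp [map_ofNat, a0]
theorem map_a1 : φ (a1 c m) = a1 (φ c) (φ m) := by simp [map_ofNat, a1]
theorem map_a2 : φ (a2 c m) = a2 (φ c) (φ m) := by simp [map_ofNat, a2]
theorem map_b0 : φ (b0 c m) = b0 (φ c) (φ m) := by simp [map_ofNat, b0]
theorem map_b1 : φ (b1 c m) = b1 (φ c) (φ m) := by simp [map_ofNat, b1]
theorem map_b2 : φ (b2 c m) = b2 (φ c) (φ m) := by simp [map_ofNat, b2]
theorem map_e0 : φ (e0 c m s) = e0 (φ c) (φ m) (φ s) := by simp [map_ofNat, e0, map_a0, map_a1, map_a2]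
theorem map_e1 : φ (e1 c m s) = e1 (φ c) (φ m) (φ s) := by simp [map_ofNat, e1, map_b0, map_b1, map_b2]
theorem map_qq : φ (qq c m s) = qq (φ c) (φ m) (φ s) := by simp [map_ofNat, qq]
theorem map_qd : φ (qd c m) = qd (φ c) (φ m) := by simp [map_ofNat, qd]
theorem map_m1 : φ (m1 c s t) = m1 (φ c) (φ s) (φ t) := by simp [map_ofNat, m1]
theorem map_m2 : φ (m2 c s t) = m2 (φ c) (φ s) (φ t) := by simp [map_ofNat, m2]
theorem map_gs : φ (gs c s) = gs (φ c) (φ s) := by simp [map_ofNat, gs]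
theorem map_c3 : φ (c3 c x y) = c3 (φ c) (φ x) (φ y) := by simp [map_ofNat, c3]
theorem map_bp0 : φ (bp0 c x y) = bp0 (φ c) (φ x) (φ y) := by simp [map_ofNat, bp0]
theorem map_bp1 : φ (bp1 c x y) = bp1 (φ c) (φ x) (φ y) := by simp [map_ofNat, bp1]
theorem map_bp2 : φ (bp2 c x y) = bp2 (φ c) (φ x) (φ y) := by simp [map_ofNat, bp2]
theorem map_gam : φ (gam c m r) = gam (φ c) (φ m) (φ r) := by simp [map_ofNat, gam]
theorem map_pp0 : φ (pp0 c m r) = pp0 (φ c) (φ m) (φ r) := by simp [map_ofNat, pp0]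
theorem map_hh : φ (hh c m r) = hh (φ c) (φ m) (φ r) := by simp [map_ofNat, hh]

end nat

/-- nonvanishing of `x + y c + z c²` -/
theorem lin_ne {c : ℂ} (hc : c ^ 3 - c ^ 2 + 1 = 0) (x y z : ℤ)
    (h : x * (x ^ 2 + x * y + x * z + y * z + z ^ 2) + z * (x * y + y ^ 2 + y * z + z ^ 2) -
      (y + z) * (y ^ 2 + y * z - x * z) ≠ 0) : (x : ℂ) + y * c + z * c ^ 2 ≠ 0 := by
  intro h0
  apply h
  have h1 : ((x * (x ^ 2 + x * y + x * z + y * z + z ^ 2) + z * (x * y + y ^ 2 + y * z + z ^ 2) -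
      (y + z) * (y ^ 2 + y * z - x * z) : ℤ) : ℂ) = 0 := by
    push_cast
    linear_combination ((x ^ 2 + x * y + x * z + y * z + z ^ 2) -
      (x * y + y ^ 2 + y * z + z ^ 2) * c + (y ^ 2 + y * z - x * z) * c ^ 2) * h0 -
      ((y : ℂ) * (y ^ 2 + y * z - x * z) - z * (x * y + y ^ 2 + y * z + z ^ 2) +
        z * (y ^ 2 + y * z - x * z) * (c + 1)) * hc
  exact_mod_cast h1

section field

variable {T : Type} [Field T] [Algebra ℂ T]

/-- nonvanishing of a polynomial in independent elements -/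
theorem nz2 {s t : T} (hst : AlgebraicIndependent ℂ ![s, t]) (p : MvPolynomial (Fin 2) ℂ)
    (a b : ℂ) {w : T} {w0 : ℂ}
    (h1 : ((MvPolynomial.aeval ![s, t] : MvPolynomial (Fin 2) ℂ →ₐ[ℂ] T) :
      MvPolynomial (Fin 2) ℂ →+* T) p = w)
    (h2 : MvPolynomial.eval ![a, b] p = w0) (h0 : w0 ≠ 0) : w ≠ 0 := by
  intro hw
  apply h0
  have h3 : MvPolynomial.aeval ![s, t] p = 0 := h1.trans hw
  rw [← h2, algebraicIndependent_iff.1 hst p h3, map_zero]

variable {c : ℂ} (hc : c ^ 3 - c ^ 2 + 1 = 0)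
include hc

theorem m2_ne {s t : T} (hst : AlgebraicIndependent ℂ ![s, t]) :
    m2 (algebraMap ℂ T c) s t ≠ 0 := by
  refine nz2 hst (m2 (MvPolynomial.C c) (MvPolynomial.X 0) (MvPolynomial.X 1)) 0 0
    (w0 := m2 c 0 0) (by rw [map_m2]; simp) (by rw [map_m2]; simp) ?_
  convert lin_ne hc 0 (-1) 1 (by norm_num) using 1
  unfold m2
  push_cast
  ring

theorem gs_ne {s t : T} (hst : AlgebraicIndependent ℂ ![s, t]) :
    gs (algebraMap ℂ T c) s ≠ 0 := by
  refine nz2 hst (gs (MvPolynomial.C c) (MvPolynomial.X 0)) 1 0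
    (w0 := gs c 1) (by rw [map_gs]; simp) (by rw [map_gs]; simp) ?_
  convert lin_ne hc (-11) 6 (-1) (by norm_num) using 1
  unfold gs
  push_cast
  ring

/-- the determinant of the fractional linear transformation -/
theorem det_ne {s t : T} (hst : AlgebraicIndependent ℂ ![s, t]) :
    m1 (algebraMap ℂ T c) s 0 * (m2 (algebraMap ℂ T c) s 1 - m2 (algebraMap ℂ T c) s 0) -
      m2 (algebraMap ℂ T c) s 0 * (m1 (algebraMap ℂ T c) s 1 - m1 (algebraMap ℂ T c) s 0) ≠ 0 := by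
  refine nz2 hst (m1 (MvPolynomial.C c) (MvPolynomial.X 0) 0 *
    (m2 (MvPolynomial.C c) (MvPolynomial.X 0) 1 - m2 (MvPolynomial.C c) (MvPolynomial.X 0) 0) -
    m2 (MvPolynomial.C c) (MvPolynomial.X 0) 0 *
    (m1 (MvPolynomial.C c) (MvPolynomial.X 0) 1 - m1 (MvPolynomial.C c) (MvPolynomial.X 0) 0)) 1 0
    (w0 := m1 c 1 0 * (m2 c 1 1 - m2 c 1 0) - m2 c 1 0 * (m1 c 1 1 - m1 c 1 0))
    (by simp only [map_sub, map_mul, map_m1, map_m2]; simp)
    (by simp only [map_sub, map_mul, map_m1, map_m2]; simp) ?_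
  convert lin_ne hc 9 2 23 (by norm_num) using 1
  unfold m1 m2
  push_cast
  linear_combination (8 * c - 10) * hc

theorem e1_ne {m s : T} (hms : AlgebraicIndependent ℂ ![m, s]) :
    e1 (algebraMap ℂ T c) m s ≠ 0 := by
  refine nz2 hms (e1 (MvPolynomial.C c) (MvPolynomial.X 0) (MvPolynomial.X 1)) 0 0
    (w0 := e1 c 0 0) (by rw [map_e1]; simp) (by rw [map_e1]; simp) ?_
  convert lin_ne hc (-3) (-1) 5 (by norm_num) using 1
  unfold e1 b0 b1 b2
  push_cast
  ring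

omit hc in
theorem qq_ne {m s : T} (hms : AlgebraicIndependent ℂ ![m, s]) :
    qq (algebraMap ℂ T c) m s ≠ 0 := by
  refine nz2 hms (qq (MvPolynomial.C c) (MvPolynomial.X 0) (MvPolynomial.X 1)) 0 0
    (w0 := qq c 0 0) (by rw [map_qq]; simp) (by rw [map_qq]; simp) ?_
  simp [qq]

omit hc in
theorem qd_ne {m s : T} (hms : AlgebraicIndependent ℂ ![m, s]) :
    qd (algebraMap ℂ T c) m ≠ 0 := by
  refine nz2 hms (qd (MvPolynomial.C c) (MvPolynomial.X 0)) 0 0
    (w0 := qd c 0) (by rw [map_qd]; simp) (by rw [map_qd]; simp) ?_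
  simp [qd]

theorem w2_ne {m s : T} (hms : AlgebraicIndependent ℂ ![m, s]) :
    a2 (algebraMap ℂ T c) m * e1 (algebraMap ℂ T c) m s -
      b2 (algebraMap ℂ T c) m * e0 (algebraMap ℂ T c) m s ≠ 0 := by
  refine nz2 hms (a2 (MvPolynomial.C c) (MvPolynomial.X 0) *
    e1 (MvPolynomial.C c) (MvPolynomial.X 0) (MvPolynomial.X 1) -
    b2 (MvPolynomial.C c) (MvPolynomial.X 0) *
    e0 (MvPolynomial.C c) (MvPolynomial.X 0) (MvPolynomial.X 1)) 0 0
    (w0 := a2 c 0 * e1 c 0 0 - b2 c 0 * e0 c 0 0)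
    (by simp only [map_sub, map_mul, map_a2, map_b2, map_e0, map_e1]; simp)
    (by simp only [map_sub, map_mul, map_a2, map_b2, map_e0, map_e1]; simp) ?_
  convert lin_ne hc (-3) 3 6 (by norm_num) using 1
  unfold e1 e0 a0 a1 a2 b0 b1 b2
  push_cast
  linear_combination (-11 * c + 1) * hc

omit hc in
theorem gam_ne {m r : T} (hmr : AlgebraicIndependent ℂ ![m, r]) :
    gam (algebraMap ℂ T c) m r ≠ 0 := by
  refine nz2 hmr (gam (MvPolynomial.C c) (MvPolynomial.X 0) (MvPolynomial.X 1)) 0 0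
    (w0 := gam c 0 0) (by rw [map_gam]; simp) (by rw [map_gam]; simp) ?_
  simp [gam]

omit hc in
theorem hh_ne {m r : T} (hmr : AlgebraicIndependent ℂ ![m, r]) :
    hh (algebraMap ℂ T c) m r ≠ 0 := by
  refine nz2 hmr (hh (MvPolynomial.C c) (MvPolynomial.X 0) (MvPolynomial.X 1)) 0 0
    (w0 := hh c 0 0) (by rw [map_hh]; simp) (by rw [map_hh]; simp) ?_
  simp [hh]

theorem disc_ne {v t : T} (hvt : AlgebraicIndependent ℂ ![v, t]) :
    (c3 (algebraMap ℂ T c) v 1 * bp1 (algebraMap ℂ T c) v 1) ^ 2 -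
      4 * (c3 (algebraMap ℂ T c) v 1 * bp2 (algebraMap ℂ T c) v 1) *
      (c3 (algebraMap ℂ T c) v 1 * bp0 (algebraMap ℂ T c) v 1) ≠ 0 := by
  refine nz2 hvt ((c3 (MvPolynomial.C c) (MvPolynomial.X 0) 1 *
      bp1 (MvPolynomial.C c) (MvPolynomial.X 0) 1) ^ 2 -
      4 * (c3 (MvPolynomial.C c) (MvPolynomial.X 0) 1 *
        bp2 (MvPolynomial.C c) (MvPolynomial.X 0) 1) *
      (c3 (MvPolynomial.C c) (MvPolynomial.X 0) 1 *
        bp0 (MvPolynomial.C c) (MvPolynomial.X 0) 1)) 0 0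
    (w0 := (c3 c 0 1 * bp1 c 0 1) ^ 2 - 4 * (c3 c 0 1 * bp2 c 0 1) * (c3 c 0 1 * bp0 c 0 1))
    (by simp only [map_sub, map_mul, map_pow, map_ofNat, map_c3, map_bp0, map_bp1, map_bp2]; simp)
    (by simp only [map_sub, map_mul, map_pow, map_ofNat, map_c3, map_bp0, map_bp1, map_bp2]; simp) ?_
  convert lin_ne hc (9 * -464) (9 * 288) (9 * 912) (by norm_num) using 1
  unfold c3 bp0 bp1 bp2
  push_cast
  linear_combination (-576 * c + 5616) * hc

end field

end Vale.Agent.P297.H212
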