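import Vale.Agent.P297.H600.CGDefs
import Mathlib

/-!
A valuation ring of residue characteristic `23` of the function field of the Craighero-Gattazzo
quintic, with centre `(8 : 1 : 1 : 1)` and `c ≡ 15`.
-/

open Polynomial

namespace Vale.Agent.P297.H212

/-- the minimal polynomial of `c` -/
noncomputable def qc : ℤ[X] := X ^ 3 - X ^ 2 + 1

theorem qc_monic : qc.Monic := by
  unfold qc
  monicity!

theorem qc_natDegree : qc.natDegree = 3 := by
  unfold qc
  compute_degree!

theorem qc_irreducible : Irreducible qc := by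
  refine Monic.irreducible_of_irreducible_map (Int.castRingHom (ZMod 2)) qc qc_monic ?_
  have hm : (qc.map (Int.castRingHom (ZMod 2))).Monic := qc_monic.map _
  have hd : (qc.map (Int.castRingHom (ZMod 2))).natDegree = 3 := by
    rw [qc_monic.natDegree_map, qc_natDegree]
  rw [hm.irreducible_iff_roots_eq_zero_of_degree_le_three (by omega) (by omega)]
  rw [Multiset.eq_zero_iff_forall_notMem]
  intro a ha
  rw [mem_roots hm.ne_zero, IsRoot.def, eval_map] at ha
  simp only [qc, eval₂_add, eval₂_sub, eval₂_pow, eval₂_X, eval₂_one] at ha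
  revert a
  decide

theorem qc_dvd {c : ℂ} (hc : c ^ 3 - c ^ 2 + 1 = 0) (f : ℤ[X]) (hf : aeval c f = 0) : qc ∣ f := by
  have h0 : aeval c qc = 0 := by
    simp [qc, hc]
  have hint : IsIntegral ℤ c := ⟨qc, qc_monic, by rw [← aeval_def]; exact h0⟩
  have h1 := minpoly.isIntegrallyClosed_dvd hint h0
  have h2 := minpoly.isIntegrallyClosed_dvd hint hf
  obtain ⟨g, hg⟩ := h1
  have h3 := (irreducible_mul_iff.1 (hg ▸ qc_irreducible))
  rcases h3 with ⟨_, hu⟩ | ⟨_, hu⟩
  · have h4 : Associated (minpoly ℤ c) qc := by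
      rw [hg]
      exact (associated_mul_unit_right (minpoly ℤ c) g hu)
    exact h4.symm.dvd.trans h2
  · exact absurd hu (minpoly.not_isUnit ℤ c)

theorem eval_zero {c : ℂ} (hc : c ^ 3 - c ^ 2 + 1 = 0) (f : ℤ[X]) (hf : aeval c f = 0) :
    aeval (15 : ZMod 23) f = 0 := by
  obtain ⟨g, rfl⟩ := qc_dvd hc f hf
  rw [map_mul]
  have : aeval (15 : ZMod 23) qc = 0 := by
    simp only [qc, map_add, map_sub, map_pow, aeval_X, map_one]
    decide
  rw [this, zero_mul]

/-- evaluation of integral polynomials at `c`, `x`, `y` -/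
noncomputable def evZ {K : Type} [Field K] [Algebra ℂ K] (c : ℂ) (x y : K) :
    MvPolynomial (Fin 2) ℤ[X] →+* K :=
  MvPolynomial.eval₂Hom ((algebraMap ℂ K).comp (aeval c : ℤ[X] →ₐ[ℤ] ℂ).toRingHom) ![x, y]

/-- evaluation of integral polynomials modulo `23` -/
noncomputable def evP : MvPolynomial (Fin 2) ℤ[X] →+* ZMod 23 :=
  MvPolynomial.eval₂Hom (aeval (15 : ZMod 23) : ℤ[X] →ₐ[ℤ] ZMod 23).toRingHom ![8, 1]

theorem ker_le {K : Type} [Field K] [Algebra ℂ K] {c : ℂ} (hc : c ^ 3 - c ^ 2 + 1 = 0) {x y : K}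
    (hxy : AlgebraicIndependent ℂ ![x, y]) (f : MvPolynomial (Fin 2) ℤ[X])
    (hf : evZ c x y f = 0) : evP f = 0 := by
  have h1 : MvPolynomial.aeval ![x, y]
      (MvPolynomial.map (aeval c : ℤ[X] →ₐ[ℤ] ℂ).toRingHom f) = 0 := by
    rw [← hf, evZ, MvPolynomial.coe_eval₂Hom, MvPolynomial.aeval_def, MvPolynomial.eval₂_map]
  have h2 := algebraicIndependent_iff.1 hxy _ h1
  have h3 : ∀ m, aeval (15 : ZMod 23) (f.coeff m) = 0 := by
    intro m
    refine eval_zero hc _ ?_
    have := congrArg (MvPolynomial.coeff m) h2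
    rwa [MvPolynomial.coeff_map, MvPolynomial.coeff_zero] at this
  rw [evP, MvPolynomial.coe_eval₂Hom, MvPolynomial.eval₂_eq]
  refine Finset.sum_eq_zero fun m _ => ?_
  have h4 : (aeval (15 : ZMod 23) : ℤ[X] →ₐ[ℤ] ZMod 23).toRingHom (f.coeff m) = 0 := h3 m
  rw [h4, zero_mul]

/-- the place -/
theorem exists_val {K : Type} [Field K] [Algebra ℂ K] {c : ℂ} (hc : c ^ 3 - c ^ 2 + 1 = 0)
    {x y : K} (hxy : AlgebraicIndependent ℂ ![x, y]) :
    ∃ V : ValuationSubring K, (algebraMap ℂ K c - 15 ∈ V.nonunits) ∧ (x - 8 ∈ V.nonunits) ∧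
      (y - 1 ∈ V.nonunits) ∧ ((23 : K) ∈ V.nonunits) := by
  let Φ := evZ c x y
  let I : Ideal Φ.range := (RingHom.ker evP).map Φ.rangeRestrict
  have hI : I ≠ ⊤ := by
    intro h
    have h1 : (1 : Φ.range) ∈ I := by rw [h]; trivial
    rw [Ideal.mem_map_iff_of_surjective _ Φ.rangeRestrict_surjective] at h1
    obtain ⟨f, hf, hf1⟩ := h1
    have h2 : Φ (f - 1) = 0 := by
      have := congrArg Subtype.val hf1
      rw [map_sub, map_one, sub_eq_zero]
      exact this
    have h3 := ker_le hc hxy (f - 1) h2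
    rw [map_sub, map_one, (show evP f = 0 from hf), zero_sub, neg_eq_zero] at h3
    exact absurd h3 (by decide)
  obtain ⟨V, hV, hIV⟩ := Ideal.image_subset_nonunits_valuationSubring I hI
  have key : ∀ f : MvPolynomial (Fin 2) ℤ[X], evP f = 0 → Φ f ∈ V.nonunits := by
    intro f hf
    apply hIV
    exact ⟨Φ.rangeRestrict f, Ideal.mem_map_of_mem _ hf, rfl⟩
  refine ⟨V, ?_, ?_, ?_, ?_⟩
  · have := key (MvPolynomial.C (X - 15)) (by
      rw [evP, MvPolynomial.eval₂Hom_C]
      change aeval (15 : ZMod 23) (X - 15 : ℤ[X]) = 0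
      rw [map_sub, aeval_X, map_ofNat, sub_self])
    have h2 : Φ (MvPolynomial.C (X - 15)) = algebraMap ℂ K c - 15 := by
      change evZ c x y _ = _
      rw [evZ, MvPolynomial.eval₂Hom_C]
      change algebraMap ℂ K (aeval c (X - 15 : ℤ[X])) = _
      rw [map_sub, aeval_X, map_ofNat, map_sub, map_ofNat]
    rwa [h2] at this
  · have := key (MvPolynomial.X 0 - 8) (by
      rw [evP, map_sub, MvPolynomial.eval₂Hom_X', map_ofNat]
      simp)
    have h2 : Φ (MvPolynomial.X 0 - 8) = x - 8 := by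
      change evZ c x y _ = _
      rw [evZ, map_sub, MvPolynomial.eval₂Hom_X', map_ofNat]
      rfl
    rwa [h2] at this
  · have := key (MvPolynomial.X 1 - 1) (by
      rw [evP, map_sub, MvPolynomial.eval₂Hom_X', map_one]
      simp)
    have h2 : Φ (MvPolynomial.X 1 - 1) = y - 1 := by
      change evZ c x y _ = _
      rw [evZ, map_sub, MvPolynomial.eval₂Hom_X', map_one]
      rfl
    rwa [h2] at this
  · have := key 23 (by
      rw [map_ofNat]
      rfl)
    rwa [map_ofNat] at this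

end Vale.Agent.P297.H212
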