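import Mathlib.Tactic.Ring

/-!
The polynomials of the twin of the Craighero-Gattazzo surface, over `ℤ[c]`, `c³ - c² + 1 = 0`.
-/

namespace Vale.Agent.P297.H212

variable {A : Type*} [CommRing A]

/-- coefficient -/
def a0 (c m : A) : A :=
  (-1 - 2 * c - c ^ 2) + (-3 - c + c ^ 2) * m + (-c + 3 * c ^ 2) * m ^ 2 +
  (2 - 2 * c + c ^ 2) * m ^ 3

/-- coefficient -/
def a1 (c m : A) : A :=
  (1 - 4 * c ^ 2) + (-17 - 8 * c + 21 * c ^ 2) * m + (17 + 14 * c - 12 * c ^ 2) * m ^ 2 +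
  (-3 - 2 * c + 2 * c ^ 2) * m ^ 3

/-- coefficient -/
def a2 (c m : A) : A :=
  (2 * c - 2 * c ^ 2) + (-1 - c + 5 * c ^ 2) * m + (2 - 2 * c + 2 * c ^ 2) * m ^ 2 +
  (3 + c - 5 * c ^ 2) * m ^ 3

/-- coefficient -/
def b0 (c m : A) : A :=
  (-3 - c + 5 * c ^ 2) + (-2 + 2 * c - 2 * c ^ 2) * m + (1 + c - 5 * c ^ 2) * m ^ 2 +
  (-2 * c + 2 * c ^ 2) * m ^ 3

/-- coefficient -/
def b1 (c m : A) : A :=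
  (-3 - 2 * c + 2 * c ^ 2) + (17 + 14 * c - 12 * c ^ 2) * m +
  (-17 - 8 * c + 21 * c ^ 2) * m ^ 2 + (1 - 4 * c ^ 2) * m ^ 3

/-- coefficient -/
def b2 (c m : A) : A :=
  (-2 + 2 * c - c ^ 2) + (c - 3 * c ^ 2) * m + (3 + c - c ^ 2) * m ^ 2 +
  (1 + 2 * c + c ^ 2) * m ^ 3

/-- the form in `s`, constant part in `ρ` -/
def e0 (c m s : A) : A :=
  a0 c m + a1 c m * s + a2 c m * s ^ 2

/-- the form in `s`, coefficient of `ρ` -/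
def e1 (c m s : A) : A :=
  b0 c m + b1 c m * s + b2 c m * s ^ 2

/-- the numerator of `-y` -/
def jj (c m s : A) : A :=
  (a1 c m + 2 * a2 c m * s) * e1 c m s - (b1 c m + 2 * b2 c m * s) * e0 c m s

/-- the homogenization of `P₀` in `ρ = x / y` -/
def ph (c m x y : A) : A :=
  ((1) + (26 - 90 * c - 26 * c ^ 2) * m + (-38 - 47 * c + 131 * c ^ 2) * m ^ 2 +
   (-106 + 200 * c + 104 * c ^ 2) * m ^ 3 + (123 + 196 * c - 418 * c ^ 2) * m ^ 4 +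
   (-132 - 76 * c + 116 * c ^ 2) * m ^ 5 + (13 + 4 * c) * m ^ 6) * y ^ 4 +
  ((-4 * c + 2 * c ^ 2) + (118 - 178 * c + 142 * c ^ 2) * m +
   (178 - 336 * c + 80 * c ^ 2) * m ^ 2 + (-196 + 374 * c - 224 * c ^ 2) * m ^ 3 +
   (-410 + 476 * c + 10 * c ^ 2) * m ^ 4 + (132 - 70 * c - 158 * c ^ 2) * m ^ 5 +
   (-2 - 8 * c + 4 * c ^ 2) * m ^ 6) * x * y ^ 3 +
  ((-11 - 16 * c + 24 * c ^ 2) + (28 - 558 * c + 118 * c ^ 2) * m +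
   (809 + 14 * c + 562 * c ^ 2) * m ^ 2 + (-430 - 136 * c - 364 * c ^ 2) * m ^ 3 +
   (-346 + 507 * c - 403 * c ^ 2) * m ^ 4 + (104 + 20 * c + 100 * c ^ 2) * m ^ 5 + (1) * m ^ 6) * x ^ 2 * y ^ 2 +
  ((42 + 26 * c + 4 * c ^ 2) + (-170 - 232 * c + 612 * c ^ 2) * m +
   (778 - 746 * c - 668 * c ^ 2) * m ^ 2 + (-82 + 238 * c + 426 * c ^ 2) * m ^ 3 +
   (-228 + 248 * c - 172 * c ^ 2) * m ^ 4 + (34 - 38 * c - 4 * c ^ 2) * m ^ 5) * x ^ 3 * y +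
  ((6 - 24 * c - 18 * c ^ 2) + (276 + 180 * c - 64 * c ^ 2) * m +
   (-584 - 616 * c + 726 * c ^ 2) * m ^ 2 + (592 + 120 * c - 732 * c ^ 2) * m ^ 3 +
   (-138 + 76 * c + 190 * c ^ 2) * m ^ 4 + (-4 * c + 8 * c ^ 2) * m ^ 5) * x ^ 4

/-- the homogenization of `h` in `ρ = x / y` -/
def hq (c m x y : A) : A :=
  ((1) + (-7 + 18 * c - 3 * c ^ 2) * m + (11 - 4 * c - 10 * c ^ 2) * m ^ 2 +
   (-1 - 4 * c + 2 * c ^ 2) * m ^ 3) * y ^ 3 +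
  ((1) + (-23 + 22 * c - 10 * c ^ 2) * m + (29 - 10 * c + 7 * c ^ 2) * m ^ 2 + (1) * m ^ 3) * x * y ^ 2 +
  ((6 + 6 * c - 8 * c ^ 2) + (-8 + 34 * c - 8 * c ^ 2) * m + (10 - 26 * c + 12 * c ^ 2) * m ^ 2) * x ^ 2 * y +
  ((-4 - 4 * c - 4 * c ^ 2) + (8 + 20 * c - 16 * c ^ 2) * m + (-4 * c + 8 * c ^ 2) * m ^ 2) * x ^ 3

/-- the cubic -/
def c3 (c x y : A) : A :=
  3 * x ^ 3 + (-3 - c + c ^ 2) * (x ^ 2 * y + x * y ^ 2) + 3 * y ^ 3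

/-- a quadratic polynomial -/
def qd (c m : A) : A :=
  m ^ 2 + (3 - 8 * c + 5 * c ^ 2) * m + 1

/-- a form of bidegree `(2, 1)` -/
def qq (c m s : A) : A :=
  ((1) + (-3 - 2 * c - 4 * c ^ 2) * m + (-2 + 2 * c + c ^ 2) * m ^ 2) +
  ((1 - c + c ^ 2) + (-c ^ 2) * m + (-3 - 2 * c + 5 * c ^ 2) * m ^ 2) * s

/-- a form of bidegree `(5, 6)` -/
def bb1 (c x y s : A) : A :=
  ((7 + 5 * c - 4 * c ^ 2) * y ^ 5 + (12 + 16 * c - 15 * c ^ 2) * x * y ^ 4 +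
   (9 - c - 9 * c ^ 2) * x ^ 2 * y ^ 3 + (25 - 49 * c + 23 * c ^ 2) * x ^ 3 * y ^ 2 +
   (36 - 56 * c + 33 * c ^ 2) * x ^ 4 * y + (15 - 19 * c + 12 * c ^ 2) * x ^ 5) +
  ((48 + 30 * c - 42 * c ^ 2) * y ^ 5 + (16 - 26 * c - 68 * c ^ 2) * x * y ^ 4 +
   (-100 - 94 * c + 14 * c ^ 2) * x ^ 2 * y ^ 3 + (-50 - 2 * c + 64 * c ^ 2) * x ^ 3 * y ^ 2 +
   (24 + 24 * c + 24 * c ^ 2) * x ^ 4 * y + (6 - 12 * c) * x ^ 5) * s +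
  ((81 + 84 * c - 36 * c ^ 2) * y ^ 5 + (-299 - 419 * c - 47 * c ^ 2) * x * y ^ 4 +
   (-55 - 81 * c + 308 * c ^ 2) * x ^ 2 * y ^ 3 + (381 + 227 * c + 195 * c ^ 2) * x ^ 3 * y ^ 2 +
   (56 - 177 * c - 103 * c ^ 2) * x ^ 4 * y + (18 * c + 21 * c ^ 2) * x ^ 5) * s ^ 2 +
  ((34 + 60 * c + 24 * c ^ 2) * y ^ 5 + (-80 - 326 * c - 372 * c ^ 2) * x * y ^ 4 +
   (-590 + 666 * c + 1882 * c ^ 2) * x ^ 2 * y ^ 3 +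
   (590 - 666 * c - 1882 * c ^ 2) * x ^ 3 * y ^ 2 + (80 + 326 * c + 372 * c ^ 2) * x ^ 4 * y +
   (-34 - 60 * c - 24 * c ^ 2) * x ^ 5) * s ^ 3 +
  ((18 * c + 21 * c ^ 2) * y ^ 5 + (56 - 177 * c - 103 * c ^ 2) * x * y ^ 4 +
   (381 + 227 * c + 195 * c ^ 2) * x ^ 2 * y ^ 3 + (-55 - 81 * c + 308 * c ^ 2) * x ^ 3 * y ^ 2 +
   (-299 - 419 * c - 47 * c ^ 2) * x ^ 4 * y + (81 + 84 * c - 36 * c ^ 2) * x ^ 5) * s ^ 4 +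
  ((-6 + 12 * c) * y ^ 5 + (-24 - 24 * c - 24 * c ^ 2) * x * y ^ 4 +
   (50 + 2 * c - 64 * c ^ 2) * x ^ 2 * y ^ 3 + (100 + 94 * c - 14 * c ^ 2) * x ^ 3 * y ^ 2 +
   (-16 + 26 * c + 68 * c ^ 2) * x ^ 4 * y + (-48 - 30 * c + 42 * c ^ 2) * x ^ 5) * s ^ 5 +
  ((15 - 19 * c + 12 * c ^ 2) * y ^ 5 + (36 - 56 * c + 33 * c ^ 2) * x * y ^ 4 +
   (25 - 49 * c + 23 * c ^ 2) * x ^ 2 * y ^ 3 + (9 - c - 9 * c ^ 2) * x ^ 3 * y ^ 2 +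
   (12 + 16 * c - 15 * c ^ 2) * x ^ 4 * y + (7 + 5 * c - 4 * c ^ 2) * x ^ 5) * s ^ 6

/-- numerator -/
def m1 (c s t : A) : A :=
  ((c - c ^ 2) + (1 + c) * s + (2 * c - 3 * c ^ 2) * s ^ 2) +
  ((2 + c - 4 * c ^ 2) * s + (-2 - 3 * c - c ^ 2) * s ^ 2 + (-c + c ^ 2) * s ^ 3) * t

/-- denominator -/
def m2 (c s t : A) : A :=
  ((-c + c ^ 2) + (2 + 3 * c + c ^ 2) * s + (2 + c - 4 * c ^ 2) * s ^ 2) +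
  ((2 * c - 3 * c ^ 2) * s + (-1 - c) * s ^ 2 + (c - c ^ 2) * s ^ 3) * t

/-- symmetric of bidegree `(3, 3)` -/
def aa (c s t : A) : A :=
  ((-1 - c + c ^ 2) + (-1 + 2 * c) * s) +
  ((-1 + 2 * c) + (-2 + 2 * c ^ 2) * s + (3 + 2 * c ^ 2) * s ^ 2) * t +
  ((3 + 2 * c ^ 2) * s + (2 - 2 * c ^ 2) * s ^ 2 + (-1 + 2 * c) * s ^ 3) * t ^ 2 +
  ((-1 + 2 * c) * s ^ 2 + (1 + c - c ^ 2) * s ^ 3) * t ^ 3

/-- a polynomial of bidegree `(3, 5)` -/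
def bb (c s t : A) : A :=
  ((c) + (-1 - 3 * c + c ^ 2) * s) +
  ((3 - c - 3 * c ^ 2) + (-8 + 2 * c + 14 * c ^ 2) * s + (1 - 7 * c + 7 * c ^ 2) * s ^ 2) * t +
  ((-6 - c + 2 * c ^ 2) + (32 + 6 * c - 4 * c ^ 2) * s + (10 * c + 10 * c ^ 2) * s ^ 2 +
   (7 - 7 * c + 5 * c ^ 2) * s ^ 3) * t ^ 2 +
  ((7 - 7 * c + 5 * c ^ 2) + (-10 * c - 10 * c ^ 2) * s + (32 + 6 * c - 4 * c ^ 2) * s ^ 2 +
   (6 + c - 2 * c ^ 2) * s ^ 3) * t ^ 3 +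
  ((1 - 7 * c + 7 * c ^ 2) * s + (8 - 2 * c - 14 * c ^ 2) * s ^ 2 + (3 - c - 3 * c ^ 2) * s ^ 3) * t ^ 4 +
  ((-1 - 3 * c + c ^ 2) * s ^ 2 + (-c) * s ^ 3) * t ^ 5

/-- a cubic form -/
def bp0 (c x y : A) : A :=
  ((-5 - 7 * c + 4 * c ^ 2) * y ^ 3 + (10 - 6 * c + c ^ 2) * x * y ^ 2 +
   (18 - 10 * c + 5 * c ^ 2) * x ^ 2 * y + (3 - 11 * c + 8 * c ^ 2) * x ^ 3)

/-- a cubic form -/
def bp1 (c x y : A) : A :=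
  ((-10 - 18 * c - 8 * c ^ 2) * y ^ 3 + (20 + 60 * c + 38 * c ^ 2) * x * y ^ 2 +
   (-20 - 60 * c - 38 * c ^ 2) * x ^ 2 * y + (10 + 18 * c + 8 * c ^ 2) * x ^ 3)

/-- a cubic form -/
def bp2 (c x y : A) : A :=
  ((3 - 11 * c + 8 * c ^ 2) * y ^ 3 + (18 - 10 * c + 5 * c ^ 2) * x * y ^ 2 +
   (10 - 6 * c + c ^ 2) * x ^ 2 * y + (-5 - 7 * c + 4 * c ^ 2) * x ^ 3)

/-- a polynomial of bidegree `(3, 2)` -/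
def bp (c x y t : A) : A :=
  bp0 c x y + bp1 c x y * t + bp2 c x y * t ^ 2

/-- a quintic polynomial -/
def gs (c s : A) : A :=
  (-1 + 3 * c - 2 * c ^ 2) * s + (-2 * c - 3 * c ^ 2) * s ^ 2 + (-9 + 3 * c ^ 2) * s ^ 3 +
  (2 * c + 3 * c ^ 2) * s ^ 4 + (-1 + 3 * c - 2 * c ^ 2) * s ^ 5

end Vale.Agent.P297.H212
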