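import Vale.Agent.P297.H212.Nat
import Vale.Agent.P297.H212.Ids

/-!
The twin of the Craighero-Gattazzo surface is rational.
-/

set_option linter.unusedSectionVars false

open IntermediateField

namespace Vale.Agent.P297.H212

open Vale.Agent.P297 Vale.Agent.P297.H600 Vale.Agent.P297.H839 Vale.Agent.P297.H109

variable {T : Type} [Field T] [Algebra ℂ T]

section mem

variable (F : IntermediateField ℂ T) (c : ℂ)

theorem mem_of_map {x : T} (y : F) (h : algebraMap F T y = x) : x ∈ F := h ▸ y.2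

theorem m1_mem {s t : T} (hs : s ∈ F) (ht : t ∈ F) : m1 (algebraMap ℂ T c) s t ∈ F :=
  mem_of_map F _ (map_m1 (algebraMap F T) (algebraMap ℂ F c) ⟨s, hs⟩ ⟨t, ht⟩)

theorem m2_mem {s t : T} (hs : s ∈ F) (ht : t ∈ F) : m2 (algebraMap ℂ T c) s t ∈ F :=
  mem_of_map F _ (map_m2 (algebraMap F T) (algebraMap ℂ F c) ⟨s, hs⟩ ⟨t, ht⟩)

theorem e0_mem {s t : T} (hs : s ∈ F) (ht : t ∈ F) : e0 (algebraMap ℂ T c) s t ∈ F :=
  mem_of_map F _ (map_e0 (algebraMap F T) (algebraMap ℂ F c) ⟨t, ht⟩ ⟨s, hs⟩)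

theorem e1_mem {s t : T} (hs : s ∈ F) (ht : t ∈ F) : e1 (algebraMap ℂ T c) s t ∈ F :=
  mem_of_map F _ (map_e1 (algebraMap F T) (algebraMap ℂ F c) ⟨t, ht⟩ ⟨s, hs⟩)

theorem a1_mem {m : T} (hm : m ∈ F) : a1 (algebraMap ℂ T c) m ∈ F :=
  mem_of_map F _ (map_a1 (algebraMap F T) (algebraMap ℂ F c) ⟨m, hm⟩)

theorem a2_mem {m : T} (hm : m ∈ F) : a2 (algebraMap ℂ T c) m ∈ F :=
  mem_of_map F _ (map_a2 (algebraMap F T) (algebraMap ℂ F c) ⟨m, hm⟩)

theorem b1_mem {m : T} (hm : m ∈ F) : b1 (algebraMap ℂ T c) m ∈ F :=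
  mem_of_map F _ (map_b1 (algebraMap F T) (algebraMap ℂ F c) ⟨m, hm⟩)

theorem b2_mem {m : T} (hm : m ∈ F) : b2 (algebraMap ℂ T c) m ∈ F :=
  mem_of_map F _ (map_b2 (algebraMap F T) (algebraMap ℂ F c) ⟨m, hm⟩)

theorem qq_mem {s t : T} (hs : s ∈ F) (ht : t ∈ F) : qq (algebraMap ℂ T c) s t ∈ F :=
  mem_of_map F _ (map_qq (algebraMap F T) (algebraMap ℂ F c) ⟨t, ht⟩ ⟨s, hs⟩)

theorem qd_mem {m : T} (hm : m ∈ F) : qd (algebraMap ℂ T c) m ∈ F :=
  mem_of_map F _ (map_qd (algebraMap F T) (algebraMap ℂ F c) ⟨m, hm⟩)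

theorem gs_mem {m : T} (hm : m ∈ F) : gs (algebraMap ℂ T c) m ∈ F :=
  mem_of_map F _ (map_gs (algebraMap F T) (algebraMap ℂ F c) ⟨m, hm⟩)

theorem gam_mem {s t : T} (hs : s ∈ F) (ht : t ∈ F) : gam (algebraMap ℂ T c) s t ∈ F :=
  mem_of_map F _ (map_gam (algebraMap F T) (algebraMap ℂ F c) ⟨s, hs⟩ ⟨t, ht⟩)

theorem pp0_mem {s t : T} (hs : s ∈ F) (ht : t ∈ F) : pp0 (algebraMap ℂ T c) s t ∈ F :=
  mem_of_map F _ (map_pp0 (algebraMap F T) (algebraMap ℂ F c) ⟨s, hs⟩ ⟨t, ht⟩)

theorem hh_mem {s t : T} (hs : s ∈ F) (ht : t ∈ F) : hh (algebraMap ℂ T c) s t ∈ F :=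
  mem_of_map F _ (map_hh (algebraMap F T) (algebraMap ℂ F c) ⟨s, hs⟩ ⟨t, ht⟩)

theorem c3_mem {v : T} (hv : v ∈ F) : c3 (algebraMap ℂ T c) v 1 ∈ F :=
  mem_of_map F _ ((map_c3 (algebraMap F T) (algebraMap ℂ F c) ⟨v, hv⟩ 1).trans (by
    rw [map_one]; rfl))

theorem bp0_mem {v : T} (hv : v ∈ F) : bp0 (algebraMap ℂ T c) v 1 ∈ F :=
  mem_of_map F _ ((map_bp0 (algebraMap F T) (algebraMap ℂ F c) ⟨v, hv⟩ 1).trans (by
    rw [map_one]; rfl))

theorem bp1_mem {v : T} (hv : v ∈ F) : bp1 (algebraMap ℂ T c) v 1 ∈ F :=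
  mem_of_map F _ ((map_bp1 (algebraMap F T) (algebraMap ℂ F c) ⟨v, hv⟩ 1).trans (by
    rw [map_one]; rfl))

theorem bp2_mem {v : T} (hv : v ∈ F) : bp2 (algebraMap ℂ T c) v 1 ∈ F :=
  mem_of_map F _ ((map_bp2 (algebraMap F T) (algebraMap ℂ F c) ⟨v, hv⟩ 1).trans (by
    rw [map_one]; rfl))

end mem

theorem m1_lin {A : Type*} [CommRing A] (c s t : A) :
    m1 c s t = m1 c s 0 + (m1 c s 1 - m1 c s 0) * t := by
  unfold m1
  ring

theorem m2_lin {A : Type*} [CommRing A] (c s t : A) :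
    m2 c s t = m2 c s 0 + (m2 c s 1 - m2 c s 0) * t := by
  unfold m2
  ring

section

variable {c : ℂ} (hc : c ^ 3 - c ^ 2 + 1 = 0)
include hc

/-- the fractional linear transformation -/
theorem mob {s t : T} (hst : AlgebraicIndependent ℂ ![s, t]) (m : T)
    (hm : m = m1 (algebraMap ℂ T c) s t / m2 (algebraMap ℂ T c) s t) :
    IntermediateField.adjoin ℂ {m, s} = IntermediateField.adjoin ℂ {s, t} ∧
      AlgebraicIndependent ℂ ![m, s] := by
  have h2 := m2_ne hc hst
  have hd := det_ne hc hst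
  have hle : IntermediateField.adjoin ℂ {m, s} ≤ IntermediateField.adjoin ℂ {s, t} := by
    have hs : s ∈ IntermediateField.adjoin ℂ {s, t} := IntermediateField.subset_adjoin _ _ (by simp)
    have ht : t ∈ IntermediateField.adjoin ℂ {s, t} := IntermediateField.subset_adjoin _ _ (by simp)
    rw [IntermediateField.adjoin_le_iff]
    rintro x (rfl | hx)
    · rw [hm]
      exact div_mem (m1_mem _ c hs ht) (m2_mem _ c hs ht)
    · rw [Set.mem_singleton_iff.1 hx]
      exact hs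
  have hmF : m ∈ IntermediateField.adjoin ℂ {m, s} :=
    IntermediateField.subset_adjoin _ _ (by simp)
  have hsF : s ∈ IntermediateField.adjoin ℂ {m, s} :=
    IntermediateField.subset_adjoin _ _ (by simp)
  have htF : t ∈ IntermediateField.adjoin ℂ {m, s} := by
    set C := algebraMap ℂ T c with hC
    have h3 : m * m2 C s t = m1 C s t := by
      rw [hm, div_mul_cancel₀ _ h2]
    rw [m1_lin C s t, m2_lin C s t] at h3
    have h4 : m * (m2 C s 1 - m2 C s 0) - (m1 C s 1 - m1 C s 0) ≠ 0 := by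
      intro h0
      apply hd
      have h5 : m * m2 C s 0 = m1 C s 0 := by linear_combination h3 - t * h0
      linear_combination -(m2 C s 1 - m2 C s 0) * h5 + m2 C s 0 * h0
    have h5 : t = (m1 C s 0 - m * m2 C s 0) /
        (m * (m2 C s 1 - m2 C s 0) - (m1 C s 1 - m1 C s 0)) := by
      rw [eq_div_iff h4]
      linear_combination h3
    rw [h5]
    have h0F : (0 : T) ∈ IntermediateField.adjoin ℂ {m, s} := zero_mem _
    have h1F : (1 : T) ∈ IntermediateField.adjoin ℂ {m, s} := one_mem _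
    exact div_mem (sub_mem (m1_mem _ c hsF h0F) (mul_mem hmF (m2_mem _ c hsF h0F)))
      (sub_mem (mul_mem hmF (sub_mem (m2_mem _ c hsF h1F) (m2_mem _ c hsF h0F)))
        (sub_mem (m1_mem _ c hsF h1F) (m1_mem _ c hsF h0F)))
  refine ⟨le_antisymm hle ?_, ?_⟩
  · rw [IntermediateField.adjoin_le_iff]
    rintro x (rfl | hx)
    · exact hsF
    · rw [Set.mem_singleton_iff.1 hx]
      exact htF
  · refine indep_of_algebraic hst fun i => ?_
    rw [range_pair]
    fin_cases i
    · exact isAlgebraic_mem _ _ hsF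
    · exact isAlgebraic_mem _ _ htF

theorem map_rel : algebraMap ℂ T c ^ 3 = algebraMap ℂ T c ^ 2 - 1 := by
  have h := congrArg (algebraMap ℂ T) hc
  simp only [map_add, map_sub, map_pow, map_one, map_zero] at h
  linear_combination h

theorem k0_ne : (4 * algebraMap ℂ T c ^ 2 - algebraMap ℂ T c - 4) *
    (2 + 3 * algebraMap ℂ T c) ≠ 0 := by
  have h1 := lin_ne hc (-4) (-1) 4 (by norm_num)
  have h2 := lin_ne hc 2 3 0 (by norm_num)
  have h3 : algebraMap ℂ T ((4 * c ^ 2 - c - 4) * (2 + 3 * c)) ≠ 0 := by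
    rw [Ne, FaithfulSMul.algebraMap_eq_zero_iff]
    refine mul_ne_zero ?_ ?_
    · convert h1 using 1
      push_cast
      ring
    · convert h2 using 1
      push_cast
      ring
  simpa [map_ofNat] using h3

/-- The algebra of the twin. -/
theorem side_alg {s t z : T} (hst : AlgebraicIndependent ℂ ![s, t]) (m v : T)
    (hm : m = m1 (algebraMap ℂ T c) s t / m2 (algebraMap ℂ T c) s t)
    (hv : v = m1 (algebraMap ℂ T c) t s / m2 (algebraMap ℂ T c) t s)
    (hz : z ^ 2 = c3 (algebraMap ℂ T c) v 1 * bp (algebraMap ℂ T c) v 1 t)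
    (hE1 : e1 (algebraMap ℂ T c) m s ≠ 0) (r y X : T)
    (hr : r = -e0 (algebraMap ℂ T c) m s / e1 (algebraMap ℂ T c) m s)
    (hy : y = -jj (algebraMap ℂ T c) m s / e1 (algebraMap ℂ T c) m s)
    (hX : X = (4 * algebraMap ℂ T c ^ 2 - algebraMap ℂ T c - 4) * (2 + 3 * algebraMap ℂ T c) *
      (qq (algebraMap ℂ T c) m s * qd (algebraMap ℂ T c) m) * gs (algebraMap ℂ T c) s ^ 2 *
      m2 (algebraMap ℂ T c) t s ^ 3 / (e1 (algebraMap ℂ T c) m s ^ 2 *
      m2 (algebraMap ℂ T c) s t ^ 4 * gs (algebraMap ℂ T c) t)) :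
    2 * (z * X) ^ 2 = pp0 (algebraMap ℂ T c) m r + hh (algebraMap ℂ T c) m r * y ∧
      y ^ 2 = gam (algebraMap ℂ T c) m r ∧
      y = -((a1 (algebraMap ℂ T c) m + r * b1 (algebraMap ℂ T c) m) +
        2 * (a2 (algebraMap ℂ T c) m + r * b2 (algebraMap ℂ T c) m) * s) := by
  have h2 := m2_ne hc hst
  have h2' := m2_ne hc (indep_swap hst)
  have hg := gs_ne hc hst
  have hg' := gs_ne hc (indep_swap hst)
  have hC := map_rel (T := T) hc
  set C := algebraMap ℂ T c with hCdef
  have hrE : r * e1 C m s = -e0 C m s := by rw [hr, div_mul_cancel₀ _ hE1]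
  have hyE : y * e1 C m s = -jj C m s := by rw [hy, div_mul_cancel₀ _ hE1]
  -- the quadratic equation
  have hE0 : e0 C m s = a0 C m + a1 C m * s + a2 C m * s ^ 2 := rfl
  have hE1' : e1 C m s = b0 C m + b1 C m * s + b2 C m * s ^ 2 := rfl
  have hq0 : (a0 C m + r * b0 C m) + (a1 C m + r * b1 C m) * s +
      (a2 C m + r * b2 C m) * s ^ 2 = 0 := by
    rw [hE0, hE1'] at hrE
    linear_combination hrE
  have hylin : y = -((a1 C m + r * b1 C m) + 2 * (a2 C m + r * b2 C m) * s) := by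
    apply mul_right_cancel₀ hE1
    rw [hyE]
    unfold jj
    linear_combination (b1 C m + 2 * b2 C m * s) * hrE
  have hysq : y ^ 2 = gam C m r := by
    rw [← id6 hC, hylin]
    linear_combination 4 * (a2 C m + r * b2 C m) * hq0
  refine ⟨?_, hysq, hylin⟩
  -- the main identity
  have h5 := id5 hC m s
  have hm' : m1 C s t = m * m2 C s t := by rw [hm, div_mul_cancel₀ _ h2]
  have hv' : m1 C t s = v * m2 C t s := by rw [hv, div_mul_cancel₀ _ h2']
  have hA := idA hC s t
  have hB := idB hC s t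
  have hA' := idA hC t s
  have hD := idD hC s t
  rw [hm'] at hA hB
  rw [hv'] at hA' hD
  have hA1 : c3 C m 1 * m2 C s t ^ 3 = (-25 - 13 * C + 14 * C ^ 2) * (gs C s * aa C s t) := by
    rw [← hA, ← c3_hom, one_mul]
  have hB1 : bb1 C m 1 s * m2 C s t ^ 5 =
      (-656 - 65 * C + 1074 * C ^ 2) * (gs C s ^ 3 * bb C s t) := by
    rw [← hB, ← bb1_hom, one_mul]
  have hA2 : c3 C v 1 * m2 C t s ^ 3 = (-25 - 13 * C + 14 * C ^ 2) * (gs C t * aa C s t) := by
    rw [aa_symm, ← hA', ← c3_hom, one_mul]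
  have hD1 : bp C v 1 t * m2 C t s ^ 3 = (-14 - 25 * C + C ^ 2) * (gs C t * bb C s t) := by
    rw [← hD, ← bp_hom, one_mul]
  have hk : (-656 - 65 * C + 1074 * C ^ 2) =
      (4 * C ^ 2 - C - 4) ^ 2 * (-14 - 25 * C + C ^ 2) := by
    linear_combination (-16 * C ^ 3 + 392 * C ^ 2 + 447 * C - 432) * hC
  have hz6 : z ^ 2 * m2 C t s ^ 6 = (-25 - 13 * C + 14 * C ^ 2) * (-14 - 25 * C + C ^ 2) *
      (gs C t ^ 2 * aa C s t * bb C s t) := by
    rw [hz]
    linear_combination (bp C v 1 t * m2 C t s ^ 3) * hA2 +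
      ((-25 - 13 * C + 14 * C ^ 2) * (gs C t * aa C s t)) * hD1
  have hP : ph C m (-e0 C m s) (e1 C m s) = pp0 C m r * e1 C m s ^ 4 := by
    rw [← hrE]
    have := ph_hom C m r 1 (e1 C m s)
    rw [one_mul] at this
    rw [this, ph_one]
  have hH : hq C m (-e0 C m s) (e1 C m s) = hh C m r * e1 C m s ^ 3 := by
    rw [← hrE]
    have := hq_hom C m r 1 (e1 C m s)
    rw [one_mul] at this
    rw [this, hq_one]
  rw [hP, hH] at h5
  have h6 : (pp0 C m r + hh C m r * y) * e1 C m s ^ 4 =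
      2 * (c3 C m 1 * bb1 C m 1 s) * ((2 + 3 * C) * (qq C m s * qd C m)) ^ 2 := by
    rw [← h5]
    linear_combination (hh C m r * e1 C m s ^ 3) * hyE
  have h7 : (pp0 C m r + hh C m r * y) * (e1 C m s ^ 4 * m2 C s t ^ 8 * gs C t ^ 2) =
      2 * ((4 * C ^ 2 - C - 4) * (2 + 3 * C) * (qq C m s * qd C m) * gs C s ^ 2 *
        m2 C t s ^ 3) ^ 2 * z ^ 2 := by
    have h8 : (pp0 C m r + hh C m r * y) * (e1 C m s ^ 4 * m2 C s t ^ 8 * gs C t ^ 2) =
        2 * ((2 + 3 * C) * (qq C m s * qd C m)) ^ 2 * gs C t ^ 2 *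
          ((c3 C m 1 * m2 C s t ^ 3) * (bb1 C m 1 s * m2 C s t ^ 5)) := by
      linear_combination (m2 C s t ^ 8 * gs C t ^ 2) * h6
    rw [h8, hA1, hB1, hk]
    linear_combination (-2 * ((4 * C ^ 2 - C - 4) * (2 + 3 * C) * (qq C m s * qd C m) *
      gs C s ^ 2) ^ 2) * hz6
  have hne : e1 C m s ^ 2 * m2 C s t ^ 4 * gs C t ≠ 0 :=
    mul_ne_zero (mul_ne_zero (pow_ne_zero _ hE1) (pow_ne_zero _ h2)) hg'
  have hXm : X * (e1 C m s ^ 2 * m2 C s t ^ 4 * gs C t) =
      (4 * C ^ 2 - C - 4) * (2 + 3 * C) * (qq C m s * qd C m) * gs C s ^ 2 * m2 C t s ^ 3 := by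
    rw [hX, div_mul_cancel₀ _ hne]
  apply mul_right_cancel₀ (pow_ne_zero 2 hne)
  rw [← hXm] at h7
  linear_combination -h7

end

/-- a field with two independent elements and all square roots -/
theorem exists_field : ∃ (T : Type) (_ : Field T) (_ : Algebra ℂ T) (s t : T),
    AlgebraicIndependent ℂ ![s, t] ∧ ∀ a : T, ∃ z : T, z ^ 2 = a := by
  let R := MvPolynomial (Fin 2) ℂ
  let K := FractionRing R
  let T := AlgebraicClosure K
  refine ⟨T, inferInstance, inferInstance, algebraMap K T (algebraMap R K (MvPolynomial.X 0)),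
    algebraMap K T (algebraMap R K (MvPolynomial.X 1)), ?_, fun a =>
      IsAlgClosed.exists_pow_nat_eq a two_pos⟩
  have h0 := MvPolynomial.algebraicIndependent_X (Fin 2) ℂ
  have h1 := h0.map' (f := IsScalarTower.toAlgHom ℂ R K) (IsFractionRing.injective R K)
  have h2 := h1.map' (f := IsScalarTower.toAlgHom ℂ K T) (algebraMap K T).injective
  have h3 : ⇑(IsScalarTower.toAlgHom ℂ K T) ∘ ⇑(IsScalarTower.toAlgHom ℂ R K) ∘
      (MvPolynomial.X : Fin 2 → R) = ![algebraMap K T (algebraMap R K (MvPolynomial.X 0)),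
        algebraMap K T (algebraMap R K (MvPolynomial.X 1))] := by
    ext i
    fin_cases i <;> rfl
  rw [h3] at h2
  exact h2

/-- **The twin.** -/
theorem twin_side (c : ℂ) (hc : c ^ 3 - c ^ 2 + 1 = 0) :
    ∃ (T : Type) (_ : Field T) (_ : Algebra ℂ T) (m r ζ : T),
      AlgebraicIndependent ℂ ![m, r] ∧
      (2 * ζ ^ 2 - pp0 (algebraMap ℂ T c) m r / gam (algebraMap ℂ T c) m r) ^ 2 =
        hh (algebraMap ℂ T c) m r ^ 2 / gam (algebraMap ℂ T c) m r ∧
      IsRational (IntermediateField.adjoin ℂ {m, r} ⊔ IntermediateField.adjoin ℂ {ζ} :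
        IntermediateField ℂ T) := by
  obtain ⟨T, _, _, s, t, hst, hsq⟩ := exists_field
  obtain ⟨m, hm⟩ : ∃ m : T, m = m1 (algebraMap ℂ T c) s t / m2 (algebraMap ℂ T c) s t := ⟨_, rfl⟩
  obtain ⟨v, hv⟩ : ∃ v : T, v = m1 (algebraMap ℂ T c) t s / m2 (algebraMap ℂ T c) t s := ⟨_, rfl⟩
  obtain ⟨z, hz⟩ := hsq (c3 (algebraMap ℂ T c) v 1 * bp (algebraMap ℂ T c) v 1 t)
  obtain ⟨hF1, hms⟩ := mob hc hst m hm
  obtain ⟨hF2, hvt⟩ := mob hc (indep_swap hst) v hv
  have hE1 := e1_ne hc hms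
  obtain ⟨r, hr⟩ : ∃ r : T, r = -e0 (algebraMap ℂ T c) m s / e1 (algebraMap ℂ T c) m s :=
    ⟨_, rfl⟩
  obtain ⟨y, hy⟩ : ∃ y : T, y = -jj (algebraMap ℂ T c) m s / e1 (algebraMap ℂ T c) m s :=
    ⟨_, rfl⟩
  obtain ⟨X, hX⟩ : ∃ X : T, X = (4 * algebraMap ℂ T c ^ 2 - algebraMap ℂ T c - 4) *
      (2 + 3 * algebraMap ℂ T c) *
      (qq (algebraMap ℂ T c) m s * qd (algebraMap ℂ T c) m) * gs (algebraMap ℂ T c) s ^ 2 *
      m2 (algebraMap ℂ T c) t s ^ 3 / (e1 (algebraMap ℂ T c) m s ^ 2 *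
      m2 (algebraMap ℂ T c) s t ^ 4 * gs (algebraMap ℂ T c) t) := ⟨_, rfl⟩
  obtain ⟨hmain, hysq, hylin⟩ := side_alg hc hst m v hm hv hz hE1 r y X hr hy hX
  have hw2 : a2 (algebraMap ℂ T c) m + r * b2 (algebraMap ℂ T c) m ≠ 0 := by
    intro h0
    apply w2_ne hc hms
    have hrE : r * e1 (algebraMap ℂ T c) m s = -e0 (algebraMap ℂ T c) m s := by
      rw [hr, div_mul_cancel₀ _ hE1]
    linear_combination e1 (algebraMap ℂ T c) m s * h0 - b2 (algebraMap ℂ T c) m * hrE
  have htwo : (2 : T) ≠ 0 := by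
    have : algebraMap ℂ T 2 ≠ 0 := by
      rw [Ne, FaithfulSMul.algebraMap_eq_zero_iff]
      exact two_ne_zero
    simpa [map_ofNat] using this
  have hs : s = -(y + (a1 (algebraMap ℂ T c) m + r * b1 (algebraMap ℂ T c) m)) /
      (2 * (a2 (algebraMap ℂ T c) m + r * b2 (algebraMap ℂ T c) m)) := by
    rw [eq_div_iff (mul_ne_zero htwo hw2)]
    linear_combination hylin
  -- independence
  have hmr : AlgebraicIndependent ℂ ![m, r] := by
    refine indep_of_algebraic hms fun i => ?_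
    rw [range_pair]
    have hmG : m ∈ IntermediateField.adjoin ℂ {m, r} :=
      IntermediateField.subset_adjoin _ _ (by simp)
    have hrG : r ∈ IntermediateField.adjoin ℂ {m, r} :=
      IntermediateField.subset_adjoin _ _ (by simp)
    have hya : IsAlgebraic (IntermediateField.adjoin ℂ {m, r}) y :=
      isAlgebraic_sq _ _ (isAlgebraic_mem _ _ (by rw [hysq]; exact gam_mem _ c hmG hrG))
    fin_cases i
    · exact isAlgebraic_mem _ _ hmG
    · change IsAlgebraic _ s
      rw [hs, div_eq_mul_inv]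
      refine (((hya.add (isAlgebraic_mem _ _ ?_)).neg).mul (isAlgebraic_mem _ _ ?_))
      · exact add_mem (a1_mem _ c hmG) (mul_mem hrG (b1_mem _ c hmG))
      · exact inv_mem (mul_mem (ofNat_mem _ 2)
          (add_mem (a2_mem _ c hmG) (mul_mem hrG (b2_mem _ c hmG))))
  have hgam := gam_ne (c := c) hmr
  have hhh := hh_ne (c := c) hmr
  have hy0 : y ≠ 0 := by
    intro h0
    apply hgam
    rw [← hysq, h0]
    ring
  have hX0 : X ≠ 0 := by
    rw [hX]
    refine div_ne_zero (mul_ne_zero (mul_ne_zero (mul_ne_zero (k0_ne hc) (mul_ne_zero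
      (qq_ne hms) (qd_ne hms))) (pow_ne_zero _ (gs_ne hc hst)))
      (pow_ne_zero _ (m2_ne hc (indep_swap hst)))) (mul_ne_zero (mul_ne_zero
      (pow_ne_zero _ hE1) (pow_ne_zero _ (m2_ne hc hst))) (gs_ne hc (indep_swap hst)))
  refine ⟨T, inferInstance, inferInstance, m, r, z * X / y, hmr, ?_, ?_⟩
  · have h1 : 2 * (z * X / y) ^ 2 = (pp0 (algebraMap ℂ T c) m r +
        hh (algebraMap ℂ T c) m r * y) / gam (algebraMap ℂ T c) m r := by
      rw [← hmain, ← hysq]
      field_simp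
    rw [h1, ← hysq]
    field_simp
    ring
  · have hconic : IsConicType (IntermediateField.adjoin ℂ {v, t}) z := by
      refine ⟨v, t, c3 (algebraMap ℂ T c) v 1 * bp2 (algebraMap ℂ T c) v 1,
        c3 (algebraMap ℂ T c) v 1 * bp1 (algebraMap ℂ T c) v 1,
        c3 (algebraMap ℂ T c) v 1 * bp0 (algebraMap ℂ T c) v 1, 1, hvt, rfl, ?_, ?_, ?_,
        disc_ne hc hvt, one_mem _, one_ne_zero, ?_⟩
      · have hv := IntermediateField.mem_adjoin_simple_self ℂ v
        exact mul_mem (c3_mem _ c hv) (bp2_mem _ c hv)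
      · have hv := IntermediateField.mem_adjoin_simple_self ℂ v
        exact mul_mem (c3_mem _ c hv) (bp1_mem _ c hv)
      · have hv := IntermediateField.mem_adjoin_simple_self ℂ v
        exact mul_mem (c3_mem _ c hv) (bp0_mem _ c hv)
      · rw [one_mul, hz]
        unfold bp
        ring
    have hrat := conic_rational hconic
    have hEq : (IntermediateField.adjoin ℂ {m, r} ⊔ IntermediateField.adjoin ℂ {z * X / y} :
        IntermediateField ℂ T) =
        IntermediateField.adjoin ℂ {v, t} ⊔ IntermediateField.adjoin ℂ {z} := by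
      rw [hF2, Set.pair_comm t s, ← hF1]
      have hmF : m ∈ IntermediateField.adjoin ℂ {m, s} :=
        IntermediateField.subset_adjoin _ _ (by simp)
      have hsF : s ∈ IntermediateField.adjoin ℂ {m, s} :=
        IntermediateField.subset_adjoin _ _ (by simp)
      have htF : t ∈ IntermediateField.adjoin ℂ {m, s} := by
        rw [hF1]
        exact IntermediateField.subset_adjoin _ _ (by simp)
      have hrF : r ∈ IntermediateField.adjoin ℂ {m, s} := by
        rw [hr]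
        exact div_mem (neg_mem (e0_mem _ c hmF hsF)) (e1_mem _ c hmF hsF)
      have hyF : y ∈ IntermediateField.adjoin ℂ {m, s} := by
        rw [hylin]
        exact neg_mem (add_mem (add_mem (a1_mem _ c hmF) (mul_mem hrF (b1_mem _ c hmF)))
          (mul_mem (mul_mem (ofNat_mem _ 2)
            (add_mem (a2_mem _ c hmF) (mul_mem hrF (b2_mem _ c hmF)))) hsF))
      have hXF : X ∈ IntermediateField.adjoin ℂ {m, s} := by
        have h2 : (4 * algebraMap ℂ T c ^ 2 - algebraMap ℂ T c - 4) *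
            (2 + 3 * algebraMap ℂ T c) ∈ IntermediateField.adjoin ℂ {m, s} := by
          have hcF := IntermediateField.algebraMap_mem (IntermediateField.adjoin ℂ {m, s}) c
          exact mul_mem (sub_mem (sub_mem (mul_mem (ofNat_mem _ 4) (pow_mem hcF 2)) hcF)
            (ofNat_mem _ 4)) (add_mem (ofNat_mem _ 2) (mul_mem (ofNat_mem _ 3) hcF))
        rw [hX]
        exact div_mem (mul_mem (mul_mem (mul_mem h2 (mul_mem (qq_mem _ c hmF hsF)
          (qd_mem _ c hmF))) (pow_mem (gs_mem _ c hsF) 2)) (pow_mem (m2_mem _ c htF hsF) 3))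
          (mul_mem (mul_mem (pow_mem (e1_mem _ c hmF hsF) 2) (pow_mem (m2_mem _ c hsF htF) 4))
            (gs_mem _ c htF))
      apply le_antisymm
      · refine sup_le ?_ ?_
        · refine le_trans ?_ le_sup_left
          rw [IntermediateField.adjoin_le_iff]
          rintro x (rfl | hx)
          · exact hmF
          · rw [Set.mem_singleton_iff.1 hx]
            exact hrF
        · rw [IntermediateField.adjoin_le_iff]
          rintro x hx
          rw [Set.mem_singleton_iff.1 hx]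
          exact div_mem (mul_mem ((le_sup_right : IntermediateField.adjoin ℂ {z} ≤ _)
            (IntermediateField.mem_adjoin_simple_self ℂ z))
            ((le_sup_left : IntermediateField.adjoin ℂ {m, s} ≤ _) hXF))
            ((le_sup_left : IntermediateField.adjoin ℂ {m, s} ≤ _) hyF)
      · set G : IntermediateField ℂ T :=
          IntermediateField.adjoin ℂ {m, r} ⊔ IntermediateField.adjoin ℂ {z * X / y} with hG
        have hmG : m ∈ G := (le_sup_left : IntermediateField.adjoin ℂ {m, r} ≤ _)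
          (IntermediateField.subset_adjoin _ _ (by simp))
        have hrG : r ∈ G := (le_sup_left : IntermediateField.adjoin ℂ {m, r} ≤ _)
          (IntermediateField.subset_adjoin _ _ (by simp))
        have hζG : z * X / y ∈ G :=
          (le_sup_right : IntermediateField.adjoin ℂ {z * X / y} ≤ _)
            (IntermediateField.mem_adjoin_simple_self ℂ _)
        have hyG : y ∈ G := by
          have h1 : y = (2 * (z * X / y) ^ 2 * gam (algebraMap ℂ T c) m r -
              pp0 (algebraMap ℂ T c) m r) / hh (algebraMap ℂ T c) m r := by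
            rw [eq_div_iff hhh]
            have h2 : 2 * (z * X / y) ^ 2 * gam (algebraMap ℂ T c) m r = 2 * (z * X) ^ 2 := by
              rw [← hysq]
              field_simp
            rw [h2, hmain]
            ring
          rw [h1]
          exact div_mem (sub_mem (mul_mem (mul_mem (ofNat_mem _ 2) (pow_mem hζG 2))
            (gam_mem _ c hmG hrG)) (pp0_mem _ c hmG hrG)) (hh_mem _ c hmG hrG)
        have hsG : s ∈ G := by
          rw [hs]
          exact div_mem (neg_mem (add_mem hyG (add_mem (a1_mem _ c hmG)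
            (mul_mem hrG (b1_mem _ c hmG))))) (mul_mem (ofNat_mem _ 2)
            (add_mem (a2_mem _ c hmG) (mul_mem hrG (b2_mem _ c hmG))))
        have hle : IntermediateField.adjoin ℂ {m, s} ≤ G := by
          rw [IntermediateField.adjoin_le_iff]
          rintro x (rfl | hx)
          · exact hmG
          · rw [Set.mem_singleton_iff.1 hx]
            exact hsG
        refine sup_le hle ?_
        rw [IntermediateField.adjoin_le_iff]
        rintro x hx
        rw [Set.mem_singleton_iff.1 hx]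
        have h1 : z = z * X / y * y / X := by
          field_simp
        rw [h1]
        exact div_mem (mul_mem hζG hyG) (hle hXF)
    rw [hEq]
    exact hrat

end Vale.Agent.P297.H212
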