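import Vale.Agent.P297.H212.Poly
import Vale.Agent.P297.H160.Kron
import Vale.Agent.P297.H600.CGDefs

/-!
Tables of coefficients for the polynomials of the twin of the Craighero-Gattazzo surface.
-/

set_option linter.unusedSimpArgs false

namespace Vale.Agent.P297.H212

open Vale.Agent.P297.H160

/-- two values -/
def two {A : Type*} (x y : A) : ℕ → A
  | 0 => x
  | _ + 1 => y

/-- one -/
def k1 : Ex := .k 1 0 0

/-- table -/
def tE0 : List (List Co) :=
   [[(-1, -2, -1), (-3, -1, 1), (0, -1, 3), (2, -2, 1)],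
    [(1, 0, -4), (-17, -8, 21), (17, 14, -12), (-3, -2, 2)],
    [(0, 2, -2), (-1, -1, 5), (2, -2, 2), (3, 1, -5)]]

/-- table -/
def tE1 : List (List Co) :=
   [[(-3, -1, 5), (-2, 2, -2), (1, 1, -5), (0, -2, 2)],
    [(-3, -2, 2), (17, 14, -12), (-17, -8, 21), (1, 0, -4)],
    [(-2, 2, -1), (0, 1, -3), (3, 1, -1), (1, 2, 1)]]

/-- table -/
def tJ0 : List (List Co) :=
   [[(1, 0, -4), (-17, -8, 21), (17, 14, -12), (-3, -2, 2)],
    [(0, 4, -4), (-2, -2, 10), (4, -4, 4), (6, 2, -10)]]

/-- table -/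
def tJ1 : List (List Co) :=
   [[(-3, -2, 2), (17, 14, -12), (-17, -8, 21), (1, 0, -4)],
    [(-4, 4, -2), (0, 2, -6), (6, 2, -2), (2, 4, 2)]]

/-- table -/
def tP : List (List Co) :=
   [[(1, 0, 0), (26, -90, -26), (-38, -47, 131), (-106, 200, 104), (123, 196, -418), (-132, -76, 116), (13, 4, 0)],
    [(0, -4, 2), (118, -178, 142), (178, -336, 80), (-196, 374, -224), (-410, 476, 10), (132, -70, -158), (-2, -8, 4)],
    [(-11, -16, 24), (28, -558, 118), (809, 14, 562), (-430, -136, -364), (-346, 507, -403), (104, 20, 100), (1, 0, 0)],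
    [(42, 26, 4), (-170, -232, 612), (778, -746, -668), (-82, 238, 426), (-228, 248, -172), (34, -38, -4), (0, 0, 0)],
    [(6, -24, -18), (276, 180, -64), (-584, -616, 726), (592, 120, -732), (-138, 76, 190), (0, -4, 8), (0, 0, 0)]]

/-- table -/
def tH : List (List Co) :=
   [[(1, 0, 0), (-7, 18, -3), (11, -4, -10), (-1, -4, 2)],
    [(1, 0, 0), (-23, 22, -10), (29, -10, 7), (1, 0, 0)],
    [(6, 6, -8), (-8, 34, -8), (10, -26, 12), (0, 0, 0)],
    [(-4, -4, -4), (8, 20, -16), (0, -4, 8), (0, 0, 0)]]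

/-- table -/
def tC3 : List (List Co) :=
   [[(3, 0, 0), (-3, -1, 1), (-3, -1, 1), (3, 0, 0)]]

/-- table -/
def tQd : List (List Co) :=
   [[(1, 0, 0), (3, -8, 5), (1, 0, 0)]]

/-- table -/
def tQ : List (List Co) :=
   [[(1, 0, 0), (-3, -2, -4), (-2, 2, 1)],
    [(1, -1, 1), (0, 0, -1), (-3, -2, 5)]]

/-- table -/
def tB1 : List (List Co) :=
   [[(7, 5, -4), (12, 16, -15), (9, -1, -9), (25, -49, 23), (36, -56, 33), (15, -19, 12)],
    [(48, 30, -42), (16, -26, -68), (-100, -94, 14), (-50, -2, 64), (24, 24, 24), (6, -12, 0)],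
    [(81, 84, -36), (-299, -419, -47), (-55, -81, 308), (381, 227, 195), (56, -177, -103), (0, 18, 21)],
    [(34, 60, 24), (-80, -326, -372), (-590, 666, 1882), (590, -666, -1882), (80, 326, 372), (-34, -60, -24)],
    [(0, 18, 21), (56, -177, -103), (381, 227, 195), (-55, -81, 308), (-299, -419, -47), (81, 84, -36)],
    [(-6, 12, 0), (-24, -24, -24), (50, 2, -64), (100, 94, -14), (-16, 26, 68), (-48, -30, 42)],
    [(15, -19, 12), (36, -56, 33), (25, -49, 23), (9, -1, -9), (12, 16, -15), (7, 5, -4)]]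

/-- table -/
def tM1 : List (List Co) :=
   [[(0, 1, -1), (1, 1, 0), (0, 2, -3), (0, 0, 0)],
    [(0, 0, 0), (2, 1, -4), (-2, -3, -1), (0, -1, 1)]]

/-- table -/
def tM2 : List (List Co) :=
   [[(0, -1, 1), (2, 3, 1), (2, 1, -4), (0, 0, 0)],
    [(0, 0, 0), (0, 2, -3), (-1, -1, 0), (0, 1, -1)]]

/-- table -/
def tAA : List (List Co) :=
   [[(-1, -1, 1), (-1, 2, 0), (0, 0, 0), (0, 0, 0)],
    [(-1, 2, 0), (-2, 0, 2), (3, 0, 2), (0, 0, 0)],
    [(0, 0, 0), (3, 0, 2), (2, 0, -2), (-1, 2, 0)],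
    [(0, 0, 0), (0, 0, 0), (-1, 2, 0), (1, 1, -1)]]

/-- table -/
def tBB : List (List Co) :=
   [[(0, 1, 0), (-1, -3, 1), (0, 0, 0), (0, 0, 0)],
    [(3, -1, -3), (-8, 2, 14), (1, -7, 7), (0, 0, 0)],
    [(-6, -1, 2), (32, 6, -4), (0, 10, 10), (7, -7, 5)],
    [(7, -7, 5), (0, -10, -10), (32, 6, -4), (6, 1, -2)],
    [(0, 0, 0), (1, -7, 7), (8, -2, -14), (3, -1, -3)],
    [(0, 0, 0), (0, 0, 0), (-1, -3, 1), (0, -1, 0)]]

/-- table -/
def tBp : List (List Co) :=
   [[(-5, -7, 4), (10, -6, 1), (18, -10, 5), (3, -11, 8)],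
    [(-10, -18, -8), (20, 60, 38), (-20, -60, -38), (10, 18, 8)],
    [(3, -11, 8), (18, -10, 5), (10, -6, 1), (-5, -7, 4)]]

/-- table -/
def tG : List (List Co) :=
   [[(0, 0, 0), (-1, 3, -2), (0, -2, -3), (-9, 0, 3), (0, 2, 3), (-1, 3, -2)]]

/-- table -/
def tGam : List (List Co) :=
   [[(1, 0, 0), (18, 136, 114), (218, -257, -641), (-732, -160, 1158), (631, 420, -714), (-218, -112, 112), (13, 4, 0)],
    [(-2, -8, 4), (232, 108, -410), (-894, -168, 1400), (1334, 38, -1850), (-894, -168, 1400), (232, 108, -410), (-2, -8, 4)],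
    [(13, 4, 0), (-218, -112, 112), (631, 420, -714), (-732, -160, 1158), (218, -257, -641), (18, 136, 114), (1, 0, 0)]]

/-- table -/
def tW0 : List (List Co) :=
   [[(-1, -2, -1), (-3, -1, 1), (0, -1, 3), (2, -2, 1)],
    [(-3, -1, 5), (-2, 2, -2), (1, 1, -5), (0, -2, 2)]]

/-- table -/
def tW1 : List (List Co) :=
   [[(1, 0, -4), (-17, -8, 21), (17, 14, -12), (-3, -2, 2)],
    [(-3, -2, 2), (17, 14, -12), (-17, -8, 21), (1, 0, -4)]]

/-- table -/
def tW2 : List (List Co) :=
   [[(0, 2, -2), (-1, -1, 5), (2, -2, 2), (3, 1, -5)],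
    [(-2, 2, -1), (0, 1, -3), (3, 1, -1), (1, 2, 1)]]

section

variable {A : Type*} [CommRing A]

/-- run one instruction -/
theorem run_cons (s q : A) (f : ℕ → A) (m : ℕ) (st : List A) (e : Ex) (es : List Ex) :
    (rg s q f m).run st (e :: es) = (rg s q f m).run ((rg s q f m).ev st e :: st) es := rfl

/-- run nothing -/
theorem run_nil (s q : A) (f : ℕ → A) (m : ℕ) (st : List A) :
    (rg s q f m).run st [] = st := rfl

/-- soundness without a quadratic extension -/
theorem check0 {es : List Ex} {L : List ℕ} (h : check (.k 0 0 0) (.k 0 0 0) es L = true)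
    {s : A} (f : ℕ → A) (hs : s ^ 3 = s ^ 2 - 1) :
    ∃ l, (rg s 0 f L.length).run [] es = 0 :: l :=
  check_sound h f hs (by simp [Al.ev, rg])

variable (c q x x' y y' : A) (f : ℕ → A) (k : ℕ) (st : List A)

/-- evaluation of a table -/
theorem ev_app (n : ℕ) (d : List (List Co)) (a b e e' : Ex) :
    (rg c q f k).ev st (.app n d a b e e') =
      (rg c q f k).bih n d ((rg c q f k).ev st a) ((rg c q f k).ev st b)
        ((rg c q f k).ev st e) ((rg c q f k).ev st e') := rfl

/-- evaluation of a sum -/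
theorem ev_add (a b : Ex) :
    (rg c q f k).ev st (.add a b) = (rg c q f k).ev st a + (rg c q f k).ev st b := rfl

/-- evaluation of a difference -/
theorem ev_sub (a b : Ex) :
    (rg c q f k).ev st (.sub a b) = (rg c q f k).ev st a - (rg c q f k).ev st b := rfl

/-- evaluation of a product -/
theorem ev_mul (a b : Ex) :
    (rg c q f k).ev st (.mul a b) = (rg c q f k).ev st a * (rg c q f k).ev st b := rfl

theorem pw_eq (a : A) : ∀ n, (rg c q f k).pw a n = a ^ n
  | 0 => by simp [Al.pw, rg]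
  | 1 => by simp [Al.pw]
  | n + 2 => by
    unfold Al.pw
    rw [pw_eq a (n + 1), pow_succ a (n + 1)]
    rfl

/-- evaluation of a power -/
theorem ev_pow (a : Ex) (n : ℕ) :
    (rg c q f k).ev st (.pow a n) = (rg c q f k).ev st a ^ n := pw_eq c q f k _ n

/-- evaluation of a constant -/
theorem ev_k (i j l : ℤ) :
    (rg c q f k).ev st (.k i j l) = (i : A) + (j : A) * c + (l : A) * c ^ 2 := rfl

/-- evaluation of one -/
theorem ev_k1 : (rg c q f k).ev st k1 = 1 := by
  simp [k1, ev_k]

/-- evaluation of zero -/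
theorem ev_k0 : (rg c q f k).ev st (.k 0 0 0) = 0 := by
  simp [ev_k]

/-- evaluation of a variable -/
theorem ev_v0 : (rg c q (two x y) 2).ev st (.v 0) = x := rfl

/-- evaluation of a variable -/
theorem ev_v1 : (rg c q (two x y) 2).ev st (.v 1) = y := rfl

/-- evaluation of a register -/
theorem ev_r0 (a : A) : (rg c q f k).ev (a :: st) (.r 0) = a := rfl

/-- evaluation of a register -/
theorem ev_r1 (a b : A) : (rg c q f k).ev (a :: b :: st) (.r 1) = b := rfl

/-- evaluation of a register -/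
theorem ev_r2 (a b e : A) : (rg c q f k).ev (a :: b :: e :: st) (.r 2) = e := rfl

/-- evaluation of a register -/
theorem ev_r3 (a b e g : A) : (rg c q f k).ev (a :: b :: e :: g :: st) (.r 3) = g := rfl

theorem bE0 : (rg c q f k).bih 3 tE0 x 1 y 1 = e0 c x y := by
  simp only [Al.bih, Al.dot, Al.lin, Al.monos, Al.powers, rg, tE0, List.map, List.zipWith,
    List.length, List.reverse, List.reverseAux, zero_add, Nat.reduceAdd, Nat.reduceSub, e0, a0, a1, a2]
  push_cast
  ring

theorem bE1 : (rg c q f k).bih 3 tE1 x 1 y 1 = e1 c x y := by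
  simp only [Al.bih, Al.dot, Al.lin, Al.monos, Al.powers, rg, tE1, List.map, List.zipWith,
    List.length, List.reverse, List.reverseAux, zero_add, Nat.reduceAdd, Nat.reduceSub, e1, b0, b1, b2]
  push_cast
  ring

theorem bJ0 : (rg c q f k).bih 3 tJ0 x 1 y 1 = a1 c x + 2 * a2 c x * y := by
  simp only [Al.bih, Al.dot, Al.lin, Al.monos, Al.powers, rg, tJ0, List.map, List.zipWith,
    List.length, List.reverse, List.reverseAux, zero_add, Nat.reduceAdd, Nat.reduceSub, a1, a2]
  push_cast
  ring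

theorem bJ1 : (rg c q f k).bih 3 tJ1 x 1 y 1 = b1 c x + 2 * b2 c x * y := by
  simp only [Al.bih, Al.dot, Al.lin, Al.monos, Al.powers, rg, tJ1, List.map, List.zipWith,
    List.length, List.reverse, List.reverseAux, zero_add, Nat.reduceAdd, Nat.reduceSub, b1, b2]
  push_cast
  ring

theorem bP : (rg c q f k).bih 6 tP x 1 y y' = ph c x y y' := by
  simp only [Al.bih, Al.dot, Al.lin, Al.monos, Al.powers, rg, tP, List.map, List.zipWith,
    List.length, List.reverse, List.reverseAux, zero_add, Nat.reduceAdd, Nat.reduceSub, ph]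
  push_cast
  ring

theorem bH : (rg c q f k).bih 3 tH x 1 y y' = hq c x y y' := by
  simp only [Al.bih, Al.dot, Al.lin, Al.monos, Al.powers, rg, tH, List.map, List.zipWith,
    List.length, List.reverse, List.reverseAux, zero_add, Nat.reduceAdd, Nat.reduceSub, hq]
  push_cast
  ring

theorem bC3 : (rg c q f k).bih 3 tC3 x x' 1 1 = c3 c x x' := by
  simp only [Al.bih, Al.dot, Al.lin, Al.monos, Al.powers, rg, tC3, List.map, List.zipWith,
    List.length, List.reverse, List.reverseAux, zero_add, Nat.reduceAdd, Nat.reduceSub, c3]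
  push_cast
  ring

theorem bQd : (rg c q f k).bih 2 tQd x 1 1 1 = qd c x := by
  simp only [Al.bih, Al.dot, Al.lin, Al.monos, Al.powers, rg, tQd, List.map, List.zipWith,
    List.length, List.reverse, List.reverseAux, zero_add, Nat.reduceAdd, Nat.reduceSub, qd]
  push_cast
  ring

theorem bQ : (rg c q f k).bih 2 tQ x 1 y 1 = qq c x y := by
  simp only [Al.bih, Al.dot, Al.lin, Al.monos, Al.powers, rg, tQ, List.map, List.zipWith,
    List.length, List.reverse, List.reverseAux, zero_add, Nat.reduceAdd, Nat.reduceSub, qq]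
  push_cast
  ring

theorem bB1 : (rg c q f k).bih 5 tB1 x x' y 1 = bb1 c x x' y := by
  simp only [Al.bih, Al.dot, Al.lin, Al.monos, Al.powers, rg, tB1, List.map, List.zipWith,
    List.length, List.reverse, List.reverseAux, zero_add, Nat.reduceAdd, Nat.reduceSub, bb1]
  push_cast
  ring

theorem bM1 : (rg c q f k).bih 3 tM1 x 1 y 1 = m1 c x y := by
  simp only [Al.bih, Al.dot, Al.lin, Al.monos, Al.powers, rg, tM1, List.map, List.zipWith,
    List.length, List.reverse, List.reverseAux, zero_add, Nat.reduceAdd, Nat.reduceSub, m1]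
  push_cast
  ring

theorem bM2 : (rg c q f k).bih 3 tM2 x 1 y 1 = m2 c x y := by
  simp only [Al.bih, Al.dot, Al.lin, Al.monos, Al.powers, rg, tM2, List.map, List.zipWith,
    List.length, List.reverse, List.reverseAux, zero_add, Nat.reduceAdd, Nat.reduceSub, m2]
  push_cast
  ring

theorem bAA : (rg c q f k).bih 3 tAA x 1 y 1 = aa c x y := by
  simp only [Al.bih, Al.dot, Al.lin, Al.monos, Al.powers, rg, tAA, List.map, List.zipWith,
    List.length, List.reverse, List.reverseAux, zero_add, Nat.reduceAdd, Nat.reduceSub, aa]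
  push_cast
  ring

theorem bBB : (rg c q f k).bih 3 tBB x 1 y 1 = bb c x y := by
  simp only [Al.bih, Al.dot, Al.lin, Al.monos, Al.powers, rg, tBB, List.map, List.zipWith,
    List.length, List.reverse, List.reverseAux, zero_add, Nat.reduceAdd, Nat.reduceSub, bb]
  push_cast
  ring

theorem bBp : (rg c q f k).bih 3 tBp x x' y 1 = bp c x x' y := by
  simp only [Al.bih, Al.dot, Al.lin, Al.monos, Al.powers, rg, tBp, List.map, List.zipWith,
    List.length, List.reverse, List.reverseAux, zero_add, Nat.reduceAdd, Nat.reduceSub, bp, bp0, bp1, bp2]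
  push_cast
  ring

theorem bG : (rg c q f k).bih 5 tG x 1 1 1 = gs c x := by
  simp only [Al.bih, Al.dot, Al.lin, Al.monos, Al.powers, rg, tG, List.map, List.zipWith,
    List.length, List.reverse, List.reverseAux, zero_add, Nat.reduceAdd, Nat.reduceSub, gs]
  push_cast
  ring

theorem bGam : (rg c q f k).bih 6 tGam x 1 y 1 = Vale.Agent.P297.H600.gam c x y := by
  simp only [Al.bih, Al.dot, Al.lin, Al.monos, Al.powers, rg, tGam, List.map, List.zipWith,
    List.length, List.reverse, List.reverseAux, zero_add, Nat.reduceAdd, Nat.reduceSub, Vale.Agent.P297.H600.gam]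
  push_cast
  ring

theorem bW0 : (rg c q f k).bih 3 tW0 x 1 y 1 = a0 c x + y * b0 c x := by
  simp only [Al.bih, Al.dot, Al.lin, Al.monos, Al.powers, rg, tW0, List.map, List.zipWith,
    List.length, List.reverse, List.reverseAux, zero_add, Nat.reduceAdd, Nat.reduceSub, a0, b0]
  push_cast
  ring

theorem bW1 : (rg c q f k).bih 3 tW1 x 1 y 1 = a1 c x + y * b1 c x := by
  simp only [Al.bih, Al.dot, Al.lin, Al.monos, Al.powers, rg, tW1, List.map, List.zipWith,
    List.length, List.reverse, List.reverseAux, zero_add, Nat.reduceAdd, Nat.reduceSub, a1, b1]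
  push_cast
  ring

theorem bW2 : (rg c q f k).bih 3 tW2 x 1 y 1 = a2 c x + y * b2 c x := by
  simp only [Al.bih, Al.dot, Al.lin, Al.monos, Al.powers, rg, tW2, List.map, List.zipWith,
    List.length, List.reverse, List.reverseAux, zero_add, Nat.reduceAdd, Nat.reduceSub, a2, b2]
  push_cast
  ring

end

end Vale.Agent.P297.H212
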