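import Vale.Agent.P297.H212.ZInv

/-!
The existence of a base point of the pencil in general position.
-/

set_option linter.unusedVariables false

open Polynomial

namespace Vale.Agent.P297.H212.Z

/-- Parameters with a base point in general position. -/
def Good (c d1 d2 e g : ℂ) : Prop :=
  ∃ v l t k : ℂ, d2 = v - l - k ∧ d1 = dd v l c t k ∧ e = ee v l c t ∧ g = gg v l c t ∧
    l ^ 2 + c ≠ 0 ∧ c + t ^ 2 ≠ 0 ∧ l + t - k ≠ 0 ∧ v ≠ l

theorem param {c d1 d2 e g v l : ℂ} (hW : v ^ 2 + c ≠ 0) (hphi : zphi c d1 d2 e g v = 0)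
    (hD : zD c e g v l = 0) :
    ∃ t, g = gg v l c t ∧ e = ee v l c t ∧ d1 = dd v l c t (v - l - d2) := by
  obtain ⟨t, ht⟩ : ∃ t, t = l + (g * v - e) / (v ^ 2 + c) := ⟨_, rfl⟩
  have h1 : (t - l) * (v ^ 2 + c) = g * v - e := by
    rw [ht]
    field_simp
    ring
  unfold zD at hD
  have h2 : (l * t + c) * (v ^ 2 + c) = e * v + c * g := by
    linear_combination hD + l * h1
  have hg : g = gg v l c t := by
    apply mul_left_cancel₀ hW
    unfold gg
    linear_combination (-v) * h1 - h2
  have he : e = ee v l c t := by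
    apply mul_left_cancel₀ hW
    unfold ee
    linear_combination c * h1 - v * h2
  refine ⟨t, hg, he, ?_⟩
  apply mul_left_cancel₀ hW
  unfold zphi at hphi
  unfold gg at hg
  unfold ee at he
  unfold dd
  linear_combination (-1 : ℂ) * hphi + (v ^ 2 - c) * hg - 2 * v * he

theorem exists_l {c e g v : ℂ} (hW : v ^ 2 + c ≠ 0) : ∃ l, zD c e g v l = 0 := by
  obtain ⟨s, hs⟩ := IsAlgClosed.exists_eq_mul_self ((g * v - e) ^ 2 -
    4 * (v ^ 2 + c) * (c * v ^ 2 - e * v + c ^ 2 - c * g))
  refine ⟨(-(g * v - e) + s) / (2 * (v ^ 2 + c)), ?_⟩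
  unfold zD
  field_simp
  linear_combination (-1 : ℂ) * hs

theorem root_sq {c d1 d2 e g v : ℂ} (hA : c * g ^ 2 + e ^ 2 ≠ 0) (hphi : zphi c d1 d2 e g v = 0)
    (hv : v ^ 2 + c = 0) : c = 0 := by
  have hc : c = -v ^ 2 := by linear_combination hv
  have h1 : v * (-v * g + e) = 0 := by
    unfold zphi at hphi
    rw [hc] at hphi
    linear_combination (-1 / 2 : ℂ) * hphi
  rcases mul_eq_zero.1 h1 with h2 | h2
  · rw [hc, h2]
    ring
  · exfalso
    apply hA
    rw [hc]
    linear_combination (v * g + e) * h2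

/-- The roots of `φ` if there is no base point in general position. -/
theorem root_cases {c d1 d2 e g v : ℂ} (hA : c * g ^ 2 + e ^ 2 ≠ 0)
    (hng : ¬ Good c d1 d2 e g) (hphi : zphi c d1 d2 e g v = 0) (hW : v ^ 2 + c ≠ 0) :
    d2 * v = 2 * c - d1 ∨ ∃ l, d2 = v - l ∧ d2 * l = 2 * c - d1 ∧ e = ee v l c (-l) ∧
      g = gg v l c (-l) := by
  obtain ⟨l, hl⟩ := exists_l (c := c) (e := e) (g := g) hW
  obtain ⟨t, hg, he, hd⟩ := param hW hphi hl
  have hnorm := base_norm v l c t
  rw [← hg, ← he] at hnorm
  have hN : l ^ 2 + c ≠ 0 := by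
    intro h0
    apply hA
    rw [hnorm, h0, mul_zero]
  have hS : c + t ^ 2 ≠ 0 := by
    intro h0
    apply hA
    rw [hnorm, h0, zero_mul, zero_mul]
  have h1 : v = l ∨ l + t - (v - l - d2) = 0 := by
    by_contra hcon
    push Not at hcon
    exact hng ⟨v, l, t, v - l - d2, by ring, hd, he, hg, hN, hS, hcon.2, hcon.1⟩
  have h2 : v = -t ∨ -t + -l - (v - -t - d2) = 0 := by
    by_contra hcon
    push Not at hcon
    refine hng ⟨v, -t, -l, v - -t - d2, by ring, ?_, ?_, ?_, ?_, ?_, hcon.2, hcon.1⟩
    · rw [hd]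
      unfold dd
      ring
    · rw [he]
      unfold ee
      ring
    · rw [hg]
      unfold gg
      ring
    · intro h0
      apply hS
      linear_combination h0
    · intro h0
      apply hN
      linear_combination h0
  rcases h1 with h1 | h1
  · left
    rw [hd, ← h1]
    unfold dd
    ring
  rcases h2 with h2 | h2
  · left
    have ht : t = -v := by rw [h2]; ring
    rw [hd, ht]
    unfold dd
    ring
  · right
    have h3 : t = -l := by
      have h4 : (3 : ℂ) * (t + l) = 0 := by linear_combination h1 - h2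
      have h5 := (mul_eq_zero.1 h4).resolve_left (by norm_num)
      linear_combination h5
    refine ⟨l, ?_, ?_, ?_, ?_⟩
    · rw [h3] at h1
      linear_combination h1
    · have h6 : d2 = v - l := by
        rw [h3] at h1
        linear_combination h1
      rw [hd, h3, h6]
      unfold dd
      ring
    · rw [← h3]
      exact he
    · rw [← h3]
      exact hg

theorem pow_of_roots (P : ℂ[X]) (hm : P.Monic) (v0 : ℂ) (h : ∀ r, P.eval r = 0 → r = v0)
    (V : ℂ) : P.eval V = (V - v0) ^ P.natDegree := by
  have hs := IsAlgClosed.splits P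
  rw [hs.eval_eq_prod_roots_of_monic hm]
  have h1 : P.roots = Multiset.replicate P.natDegree v0 := by
    rw [Multiset.eq_replicate]
    refine ⟨hs.natDegree_eq_card_roots.symm, ?_⟩
    intro b hb
    exact h b (Polynomial.isRoot_of_mem_roots hb)
  rw [h1, Multiset.map_replicate, Multiset.prod_replicate]

/-- **Existence of a base point in general position.** -/
theorem exists_base (c d1 d2 e g : ℂ) (hA : c * g ^ 2 + e ^ 2 ≠ 0) (hE : d2 ≠ 0)
    (hC : d1 ^ 2 - 4 * c * d1 - 3 * c * d2 ^ 2 + 4 * c ^ 2 ≠ 0)
    (hD : zI c d1 d2 e g ≠ 0 ∨ zJ c d1 d2 e g ≠ 0) : Good c d1 d2 e g := by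
  by_contra hng
  obtain ⟨v0, hv0⟩ : ∃ v0, d1 = 2 * c - d2 * v0 := ⟨(2 * c - d1) / d2, by field_simp; ring⟩
  have hroot : ∀ r, zphi c d1 d2 e g r = 0 → r ^ 2 + c ≠ 0 → r = v0 ∨ (r = v0 + d2 ∧
      e = ee (v0 + d2) v0 c (-v0) ∧ g = gg (v0 + d2) v0 c (-v0)) := by
    intro r hr hr2
    rcases root_cases hA hng hr hr2 with h1 | ⟨l, h1, h2, h3, h4⟩
    · left
      apply mul_left_cancel₀ hE
      linear_combination h1 - hv0
    · right
      have hl : l = v0 := by
        apply mul_left_cancel₀ hE
        linear_combination h2 - hv0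
      rw [hl] at h1 h3 h4
      have hr' : r = v0 + d2 := by linear_combination (-1 : ℂ) * h1
      refine ⟨hr', ?_, ?_⟩
      · rw [← hr']
        exact h3
      · rw [← hr']
        exact h4
  by_cases hb : e = ee (v0 + d2) v0 c (-v0) ∧ g = gg (v0 + d2) v0 c (-v0)
  · obtain ⟨he, hg⟩ := hb
    have hfac : ∀ r, zphi c d1 d2 e g r =
        (r - v0 - d2) * (r - v0) * (r ^ 2 + 2 * v0 * r + 3 * c) := by
      intro r
      rw [he, hg, hv0]
      unfold zphi ee gg
      ring
    by_cases hc : c = 0
    · have he2 : e = -(v0 + d2) * v0 ^ 2 := by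
        rw [he, hc]
        unfold ee
        ring
      have he0 : e ≠ 0 := by
        intro h0
        apply hA
        rw [h0, hc]
        ring
      have hv00 : v0 ≠ 0 := by
        intro h0
        apply he0
        rw [he2, h0]
        ring
      have h1 : zphi c d1 d2 e g (-2 * v0) = 0 := by
        rw [hfac, hc]
        ring
      have h2 : (-2 * v0) ^ 2 + c ≠ 0 := by
        rw [hc, add_zero]
        exact pow_ne_zero 2 (mul_ne_zero (by norm_num) hv00)
      rcases hroot _ h1 h2 with h3 | ⟨h3, -, -⟩
      · apply hv00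
        linear_combination (-1 / 3 : ℂ) * h3
      · have hd2 : d2 = -3 * v0 := by linear_combination (-1 : ℂ) * h3
        apply hng
        refine ⟨v0, -2 * v0, -v0, 6 * v0, ?_, ?_, ?_, ?_, ?_, ?_, ?_, ?_⟩
        · rw [hd2]
          ring
        · rw [hv0, hd2, hc]
          unfold dd
          ring
        · rw [he, hd2, hc]
          unfold ee
          ring
        · rw [hg, hd2, hc]
          unfold gg
          ring
        · rw [hc, add_zero]
          exact pow_ne_zero 2 (mul_ne_zero (by norm_num) hv00)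
        · rw [hc, zero_add]
          exact pow_ne_zero 2 (neg_ne_zero.2 hv00)
        · intro h0
          apply hv00
          linear_combination (-1 / 9 : ℂ) * h0
        · intro h0
          apply hv00
          linear_combination (1 / 3 : ℂ) * h0
    · have hA' : v0 ^ 2 + c ≠ 0 := by
        intro h0
        apply hA
        rw [he, hg, base_norm]
        have h1 : c + (-v0) ^ 2 = 0 := by linear_combination h0
        rw [h1]
        ring
      have hkey : ∀ r, r ^ 2 + 2 * v0 * r + 3 * c = 0 → r = v0 + d2 := by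
        intro r hr
        have h1 : zphi c d1 d2 e g r = 0 := by
          rw [hfac, hr, mul_zero]
        have h2 : r ^ 2 + c ≠ 0 := fun h0 => hc (root_sq hA h1 h0)
        rcases hroot r h1 h2 with h3 | ⟨h3, -, -⟩
        · exfalso
          apply hA'
          rw [h3] at hr
          linear_combination (1 / 3 : ℂ) * hr
        · exact h3
      obtain ⟨s, hs⟩ := IsAlgClosed.exists_eq_mul_self (v0 ^ 2 - 3 * c)
      have h1 := hkey (-v0 + s) (by linear_combination (-1 : ℂ) * hs)
      have h2 := hkey (-v0 - s) (by linear_combination (-1 : ℂ) * hs)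
      have h3 : d2 = -2 * v0 := by linear_combination (-1 / 2 : ℂ) * h1 - (1 / 2 : ℂ) * h2
      have h4 : s = 0 := by linear_combination (1 / 2 : ℂ) * h1 - (1 / 2 : ℂ) * h2
      apply hC
      rw [h4, mul_zero] at hs
      rw [hv0, h3]
      linear_combination (4 * v0 ^ 2) * hs
  · have hroot' : ∀ r, zphi c d1 d2 e g r = 0 → r ^ 2 + c ≠ 0 → r = v0 := by
      intro r h1 h2
      rcases hroot r h1 h2 with h3 | ⟨-, h3⟩
      · exact h3
      · exact absurd h3 hb
    by_cases hc : c = 0
    · have he0 : e ≠ 0 := by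
        intro h0
        apply hA
        rw [h0, hc]
        ring
      have hm : (X ^ 3 + C (-d2) * X ^ 2 + C (g - d1) * X + C (-2 * e) : ℂ[X]).Monic := by
        monicity!
      have hdeg : (X ^ 3 + C (-d2) * X ^ 2 + C (g - d1) * X + C (-2 * e) : ℂ[X]).natDegree =
          3 := by
        compute_degree!
      have h1 := pow_of_roots _ hm v0 (by
        intro r hr
        simp only [eval_add, eval_mul, eval_pow, eval_X, eval_C] at hr
        apply hroot' r
        · unfold zphi
          rw [hc]
          linear_combination r * hr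
        · rw [hc, add_zero]
          apply pow_ne_zero 2
          intro h0
          apply he0
          rw [h0] at hr
          linear_combination (-1 / 2 : ℂ) * hr)
      rw [hdeg] at h1
      simp only [eval_add, eval_mul, eval_pow, eval_X, eval_C] at h1
      have k0 := h1 0
      have k1 := h1 1
      have k2 := h1 (-1)
      have hd2 : d2 = 3 * v0 := by
        linear_combination (-1 / 2 : ℂ) * k1 - (1 / 2 : ℂ) * k2 + k0
      have hgd : g - d1 = 3 * v0 ^ 2 := by
        linear_combination (1 / 2 : ℂ) * k1 - (1 / 2 : ℂ) * k2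
      have he2 : e = v0 ^ 3 / 2 := by
        linear_combination (-1 / 2 : ℂ) * k0
      have hd1 : d1 = -3 * v0 ^ 2 := by
        rw [hv0, hc, hd2]
        ring
      have hg0 : g = 0 := by
        rw [hd1] at hgd
        linear_combination hgd
      rcases hD with h5 | h5
      · apply h5
        rw [hc, hd1, hd2, he2, hg0]
        unfold zI ps4 ps3 ps2 ps1 ps0
        ring
      · apply h5
        rw [hc, hd1, hd2, he2, hg0]
        unfold zJ ps4 ps3 ps2 ps1 ps0
        ring
    · have hm : (X ^ 4 + C (-d2) * X ^ 3 + C (g - d1 + 4 * c) * X ^ 2 +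
          C (-(2 * e + c * d2)) * X + C (c * (3 * c - d1 - g)) : ℂ[X]).Monic := by
        monicity!
      have hdeg : (X ^ 4 + C (-d2) * X ^ 3 + C (g - d1 + 4 * c) * X ^ 2 +
          C (-(2 * e + c * d2)) * X + C (c * (3 * c - d1 - g)) : ℂ[X]).natDegree = 4 := by
        compute_degree!
      have h1 := pow_of_roots _ hm v0 (by
        intro r hr
        simp only [eval_add, eval_mul, eval_pow, eval_X, eval_C] at hr
        have h2 : zphi c d1 d2 e g r = 0 := by
          unfold zphi
          linear_combination hr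
        exact hroot' r h2 (fun h0 => hc (root_sq hA h2 h0)))
      rw [hdeg] at h1
      simp only [eval_add, eval_mul, eval_pow, eval_X, eval_C] at h1
      have k0 := h1 0
      have k1 := h1 1
      have k2 := h1 (-1)
      have k3 := h1 2
      have hd2 : d2 = 4 * v0 := by
        linear_combination (1 / 2 : ℂ) * k1 + (1 / 6 : ℂ) * k2 - (1 / 6 : ℂ) * k3 -
          (1 / 2 : ℂ) * k0
      have hgd : g - d1 + 4 * c = 6 * v0 ^ 2 := by
        linear_combination (1 / 2 : ℂ) * k1 + (1 / 2 : ℂ) * k2 - k0
      have hb1 : 2 * e + c * d2 = 4 * v0 ^ 3 := by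
        linear_combination (-1 : ℂ) * k1 + k0 + hgd - hd2
      have hb0 : c * (3 * c - d1 - g) = v0 ^ 4 := by
        linear_combination k0
      have hg0 : g = 2 * v0 ^ 2 - 2 * c := by
        rw [hv0, hd2] at hgd
        linear_combination hgd
      have he2 : e = 2 * v0 * (v0 ^ 2 - c) := by
        rw [hd2] at hb1
        linear_combination (1 / 2 : ℂ) * hb1
      have h5 : (3 * c - v0 ^ 2) * (c + v0 ^ 2) = 0 := by
        rw [hv0, hd2, hg0] at hb0
        linear_combination hb0
      rcases mul_eq_zero.1 h5 with h6 | h6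
      · apply hC
        rw [hv0, hd2]
        linear_combination (-16 * v0 ^ 2) * h6
      · apply hA
        have h7 : c = -v0 ^ 2 := by linear_combination h6
        rw [he2, hg0, h7]
        ring

end Vale.Agent.P297.H212.Z
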