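import Mathlib

/-!
The pencil `D³ = s φ C²` on a rational surface: quadratic relations between six functions and the
plane cubic attached to a base point.
-/

namespace Vale.Agent.P297.H212.Z

section ring

variable {R : Type} [CommRing R]

/-- the quartic `φ` -/
def zphi (c d1 d2 e g v : R) : R :=
  v ^ 4 - d2 * v ^ 3 + (g - d1 + 4 * c) * v ^ 2 - (2 * e + c * d2) * v + c * (3 * c - d1 - g)

/-- the form `D` of bidegree `(2,2)` -/
def zD (c e g v l : R) : R :=
  (v ^ 2 + c) * l ^ 2 + (g * v - e) * l + (c * v ^ 2 - e * v + c ^ 2 - c * g)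

/-- the form `2 C` of bidegree `(1,3)` -/
def zCC (c d1 d2 e g v l : R) : R :=
  2 * v * l ^ 3 + (d2 * v + g + d1) * l ^ 2 + ((g + 2 * c) * v - 3 * e) * l +
    ((c * d2 - e) * v + c * d1 - 2 * c * g)

/-- an auxiliary quadratic polynomial -/
def zkap (c d1 d2 g v : R) : R := v ^ 2 - d2 * v + g - d1 + 4 * c

theorem syz4 (c d1 d2 e g v l : R) : (v ^ 2 + c) * zCC c d1 d2 e g v l =
    (v ^ 2 + 2 * v * l + 3 * c) * zD c e g v l - (l ^ 2 + c) * zphi c d1 d2 e g v := by
  unfold zCC zD zphi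
  ring

theorem syz5 (c d1 d2 e g v l : R) :
    (l - v) * (zkap c d1 d2 g v * zD c e g v l - (l ^ 2 + c) * zphi c d1 d2 e g v) +
      (g * l - e) * zphi c d1 d2 e g v +
      (3 * e - (g - c) * v - (2 * g + c) * l) * zD c e g v l +
      (g * v - e) * zCC c d1 d2 e g v l = 0 := by
  unfold zCC zD zphi zkap
  ring

theorem syz6 (c d1 d2 e g v l : R) :
    l * (v * (zkap c d1 d2 g v * zD c e g v l - (l ^ 2 + c) * zphi c d1 d2 e g v) -
      (g * l - e) * zphi c d1 d2 e g v - (2 * e + c * d2) * zD c e g v l) +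
      (-(3 * c * v * l) + (e - c * d2) * v + (2 * e + c * d2) * l + (2 * c * g - c * d1)) *
        zD c e g v l +
      (c * v ^ 2 - e * v - c * (g - c)) * zCC c d1 d2 e g v l = 0 := by
  unfold zCC zD zphi zkap
  ring

end ring

section quads

variable {N : Type} [Field N] {c d1 d2 e g V L m w Q r : N}

/-- The six functions `1, V, m, L m, Q, r` on the fibres of the pencil `w = φ C² / D³`. -/
structure Six (c d1 d2 e g V L m w Q r : N) : Prop where
  hD : zD c e g V L ≠ 0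
  hm : m * (2 * zD c e g V L ^ 2) = zphi c d1 d2 e g V * zCC c d1 d2 e g V L
  hw : w * (4 * zD c e g V L ^ 3) = zphi c d1 d2 e g V * zCC c d1 d2 e g V L ^ 2
  hQ : Q * zD c e g V L =
    zkap c d1 d2 g V * zD c e g V L - (L ^ 2 + c) * zphi c d1 d2 e g V
  hr : r * zD c e g V L = V * (Q * zD c e g V L) - (g * L - e) * zphi c d1 d2 e g V -
    (2 * e + c * d2) * zD c e g V L

variable [CharZero N]

theorem Six.q1 (h : Six c d1 d2 e g V L m w Q r) :
    (L * m) ^ 2 + c * m ^ 2 + w * Q - w * zkap c d1 d2 g V = 0 := by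
  have hD := h.hD
  have h4 : (4 * zD c e g V L ^ 4 : N) ≠ 0 := mul_ne_zero (by norm_num) (pow_ne_zero 4 hD)
  apply mul_left_cancel₀ h4
  linear_combination (L ^ 2 + c) * (m * (2 * zD c e g V L ^ 2) +
    zphi c d1 d2 e g V * zCC c d1 d2 e g V L) * h.hm + (Q * zD c e g V L -
    zkap c d1 d2 g V * zD c e g V L) * h.hw +
    zphi c d1 d2 e g V * zCC c d1 d2 e g V L ^ 2 * h.hQ

theorem Six.q2 (h : Six c d1 d2 e g V L m w Q r) :
    g * (L * m) * m - e * m ^ 2 + w * r - w * V * Q + w * (2 * e + c * d2) = 0 := by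
  have hD := h.hD
  have h4 : (4 * zD c e g V L ^ 4 : N) ≠ 0 := mul_ne_zero (by norm_num) (pow_ne_zero 4 hD)
  apply mul_left_cancel₀ h4
  linear_combination (g * L - e) * (m * (2 * zD c e g V L ^ 2) +
    zphi c d1 d2 e g V * zCC c d1 d2 e g V L) * h.hm +
    (r * zD c e g V L - V * (Q * zD c e g V L) + (2 * e + c * d2) * zD c e g V L) * h.hw +
    zphi c d1 d2 e g V * zCC c d1 d2 e g V L ^ 2 * h.hr

theorem Six.q3 (h : Six c d1 d2 e g V L m w Q r) :
    c * (L * m) ^ 2 - e * (L * m) * m + c * (c - g) * m ^ 2 - w * V * r -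
      w * c * (3 * c - d1 - g) = 0 := by
  have hD := h.hD
  have h4 : (4 * zD c e g V L ^ 4 : N) ≠ 0 := mul_ne_zero (by norm_num) (pow_ne_zero 4 hD)
  apply mul_left_cancel₀ h4
  have h5 : zD c e g V L = (V ^ 2 + c) * L ^ 2 + (g * V - e) * L +
    (c * V ^ 2 - e * V + c ^ 2 - c * g) := rfl
  have h6 : zphi c d1 d2 e g V = V ^ 2 * zkap c d1 d2 g V - (2 * e + c * d2) * V +
    c * (3 * c - d1 - g) := by
    unfold zphi zkap
    ring
  linear_combination (c * L ^ 2 - e * L + c * (c - g)) * (m * (2 * zD c e g V L ^ 2) +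
    zphi c d1 d2 e g V * zCC c d1 d2 e g V L) * h.hm -
    (V * (r * zD c e g V L) + c * (3 * c - d1 - g) * zD c e g V L) * h.hw -
    zphi c d1 d2 e g V * zCC c d1 d2 e g V L ^ 2 * (V * h.hr + V ^ 2 * h.hQ) -
    zphi c d1 d2 e g V ^ 2 * zCC c d1 d2 e g V L ^ 2 * h5 +
    zphi c d1 d2 e g V * zCC c d1 d2 e g V L ^ 2 * zD c e g V L * h6

theorem Six.q4 (h : Six c d1 d2 e g V L m w Q r) :
    m * Q + 2 * V * (L * m) + d2 * V * m + (d1 - g - c) * m - 2 * w * (V ^ 2 + c) = 0 := by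
  have hD := h.hD
  have h4 : (2 * zD c e g V L ^ 3 : N) ≠ 0 := mul_ne_zero (by norm_num) (pow_ne_zero 3 hD)
  apply mul_left_cancel₀ h4
  have h5 : zkap c d1 d2 g V = V ^ 2 - d2 * V + g - d1 + 4 * c := rfl
  linear_combination (Q * zD c e g V L + (2 * V * L + d2 * V + (d1 - g - c)) *
    zD c e g V L) * h.hm - (V ^ 2 + c) * h.hw +
    zphi c d1 d2 e g V * zCC c d1 d2 e g V L * h.hQ -
    zphi c d1 d2 e g V * zCC c d1 d2 e g V L * syz4 c d1 d2 e g V L +
    zphi c d1 d2 e g V * zCC c d1 d2 e g V L * zD c e g V L * h5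

theorem Six.q5 (h : Six c d1 d2 e g V L m w Q r) :
    L * m * Q - m * r - (g - c) * V * m - (2 * g + c) * (L * m) + (e - c * d2) * m +
      2 * g * w * V - 2 * e * w = 0 := by
  have hD := h.hD
  have h4 : (2 * zD c e g V L ^ 3 : N) ≠ 0 := mul_ne_zero (by norm_num) (pow_ne_zero 3 hD)
  apply mul_left_cancel₀ h4
  linear_combination (L * (Q * zD c e g V L) - r * zD c e g V L +
    (-(g - c) * V - (2 * g + c) * L + (e - c * d2)) * zD c e g V L) * h.hm +
    (g * V - e) * h.hw +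
    zphi c d1 d2 e g V * zCC c d1 d2 e g V L * (L * h.hQ - h.hr - V * h.hQ) +
    zphi c d1 d2 e g V * zCC c d1 d2 e g V L * syz5 c d1 d2 e g V L

theorem Six.q6 (h : Six c d1 d2 e g V L m w Q r) :
    L * m * r - 3 * c * V * (L * m) + (e - c * d2) * V * m + (2 * e + c * d2) * (L * m) +
      (2 * c * g - c * d1) * m + 2 * c * w * V ^ 2 - 2 * e * w * V - 2 * c * (g - c) * w = 0 := by
  have hD := h.hD
  have h4 : (2 * zD c e g V L ^ 3 : N) ≠ 0 := mul_ne_zero (by norm_num) (pow_ne_zero 3 hD)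
  apply mul_left_cancel₀ h4
  linear_combination (L * (r * zD c e g V L) + (-(3 * c * V * L) + (e - c * d2) * V +
    (2 * e + c * d2) * L + (2 * c * g - c * d1)) * zD c e g V L) * h.hm +
    (c * V ^ 2 - e * V - c * (g - c)) * h.hw +
    zphi c d1 d2 e g V * zCC c d1 d2 e g V L * (L * h.hr + L * V * h.hQ) +
    zphi c d1 d2 e g V * zCC c d1 d2 e g V L * syz6 c d1 d2 e g V L

end quads

section base

variable {R : Type} [CommRing R]

/-- the parameter `g` -/
def gg (v l c t : R) : R := -(v * l - c) + (v + l) * t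

/-- the parameter `e` -/
def ee (v l c t : R) : R := c * (v + l) + (v * l - c) * t

/-- the parameter `d₁` -/
def dd (v l c t k : R) : R := v ^ 2 - v * l + 2 * c - (v - l - k) * v + t * (v - l)

/-- the coefficients of the plane cubic in the order `x³, x²y, x²z, xy², xyz, xz², y³, y²z, yz²,
z³`, divided by `w`; `s = 1 / w`. -/
def zf (v l c t k s u : R) : Fin 10 → R :=
  ![s * (-2 * (c + t ^ 2) ^ 2 * (v ^ 2 + c)),
    s * (-(c + t ^ 2) * (v ^ 2 - 2 * v * t + 3 * c)),
    s * ((c + t ^ 2) ^ 2 * (3 * v ^ 2 + 4 * v * l - 2 * v * t + 2 * v * k + 9 * c)),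
    0,
    2 * (c + t ^ 2) * (v * l - v * t - l * t + 3 * c),
    2 * (c + t ^ 2) ^ 2 * (-3 * v * l + v * t - v * k - l ^ 2 + l * t - l * k - 6 * c),
    1,
    2 * t * k - 3 * (c + t ^ 2),
    (c + t ^ 2) * (k ^ 2 - l ^ 2 + 2 * l * t + 3 * t ^ 2 - 4 * t * k),
    -(c + t ^ 2) ^ 2 * (l + t - k) ^ 2 + 4 * (c + t ^ 2) ^ 2 * (l ^ 2 + c) * u]

end base

section elim

variable {N : Type} [Field N] {v l c t k V L m w Q r X y : N}

/-- The two functions attached to the base point `(v, l)`. -/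
structure Pt (v l c t k V L m w Q r X y : N) : Prop where
  six : Six c (dd v l c t k) (v - l - k) (ee v l c t) (gg v l c t) V L m w Q r
  hV : V ≠ v
  hX : X * (V - v) = L * m - l * m
  hy : (y - t ^ 2) * (V - v) = r - t * Q + (2 * ee v l c t + c * (v - l - k)) +
    (t - v) * (3 * c + 2 * l * t)

variable [CharZero N]

theorem Pt.e3 (h : Pt v l c t k V L m w Q r X y) :
    m * ((l + t) * y + (c + t ^ 2) * (k - l - t)) + (V - v) * X * (y - 3 * (c + t ^ 2)) +
      2 * (c + t ^ 2) * (V - l) * w = 0 := by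
  have hV : V - v ≠ 0 := sub_ne_zero.2 h.hV
  have hL : L * m = l * m + X * (V - v) := by linear_combination (-1 : N) * h.hX
  have hr : r = (y - t ^ 2) * (V - v) + t * Q - (2 * ee v l c t + c * (v - l - k)) -
    (t - v) * (3 * c + 2 * l * t) := by linear_combination (-1 : N) * h.hy
  have q4 := h.six.q4
  have q5 := h.six.q5
  have q6 := h.six.q6
  rw [hL] at q4 q5 q6
  rw [hr] at q5 q6
  apply mul_left_cancel₀ hV
  unfold dd ee gg at *
  linear_combination q6 - t * q5 - t ^ 2 * q4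

theorem Pt.e5 (h : Pt v l c t k V L m w Q r X y) :
    (c + t ^ 2) * (l - v) * X * m + (c + t ^ 2) * (V - v) * X ^ 2 - w * (V + t) * y +
      w * (c + t ^ 2) * (t + l - k) = 0 := by
  have hV : V - v ≠ 0 := sub_ne_zero.2 h.hV
  have hL : L * m = l * m + X * (V - v) := by linear_combination (-1 : N) * h.hX
  have hr : r = (y - t ^ 2) * (V - v) + t * Q - (2 * ee v l c t + c * (v - l - k)) -
    (t - v) * (3 * c + 2 * l * t) := by linear_combination (-1 : N) * h.hy
  have q1 := h.six.q1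
  have q2 := h.six.q2
  have q3 := h.six.q3
  rw [hL] at q1 q2 q3
  rw [hr] at q2 q3
  apply mul_left_cancel₀ hV
  unfold dd ee gg zkap at *
  linear_combination q3 - t * q2 + t ^ 2 * q1

theorem Pt.e1 (h : Pt v l c t k V L m w Q r X y) :
    m * ((c + v * l + v * t - l * t) * X ^ 2 - w * (y + (l - t) * (l + t - k))) +
      V * (w * (t - v) * X - (t - v) * X ^ 3 - 2 * (l - t) * w * X + 2 * (l - t) * w ^ 2) +
      (w * X * (y - t ^ 2 + (t - v) * (l + k)) + (t - v) * v * X ^ 3 -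
        w * (2 * gg v l c t + c) * X + 2 * gg v l c t * w ^ 2 + 2 * (l - t) * v * w ^ 2) = 0 := by
  have hV : V - v ≠ 0 := sub_ne_zero.2 h.hV
  have hL : L * m = l * m + X * (V - v) := by linear_combination (-1 : N) * h.hX
  have hr : r = (y - t ^ 2) * (V - v) + t * Q - (2 * ee v l c t + c * (v - l - k)) -
    (t - v) * (3 * c + 2 * l * t) := by linear_combination (-1 : N) * h.hy
  have q1 := h.six.q1
  have q2 := h.six.q2
  have q4 := h.six.q4
  have q5 := h.six.q5
  rw [hL] at q1 q2 q4 q5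
  rw [hr] at q2 q5
  apply mul_left_cancel₀ hV
  unfold dd ee gg zkap at *
  linear_combination w * (q5 - (l - t) * q4) + X * (q2 - (t - v) * q1)

/-- the cubic relation -/
theorem Pt.cubic (h : Pt v l c t k V L m w Q r X y) (hX : X ≠ 0) (hw : w ≠ 0) (hvl : v ≠ l) :
    -2 * (c + t ^ 2) ^ 2 * (v ^ 2 + c) * X ^ 3 -
      (c + t ^ 2) * (v ^ 2 - 2 * v * t + 3 * c) * X ^ 2 * y +
      (c + t ^ 2) ^ 2 * (3 * v ^ 2 + 4 * v * l - 2 * v * t + 2 * v * k + 9 * c) * X ^ 2 +
      w * (2 * (c + t ^ 2) * (v * l - v * t - l * t + 3 * c) * X * y +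
        2 * (c + t ^ 2) ^ 2 * (-3 * v * l + v * t - v * k - l ^ 2 + l * t - l * k - 6 * c) * X +
        y ^ 3 + (2 * t * k - 3 * (c + t ^ 2)) * y ^ 2 +
        (c + t ^ 2) * (k ^ 2 - l ^ 2 + 2 * l * t + 3 * t ^ 2 - 4 * t * k) * y -
        (c + t ^ 2) ^ 2 * (l + t - k) ^ 2) + 4 * (c + t ^ 2) ^ 2 * (l ^ 2 + c) * w ^ 2 = 0 := by
  have hne : X * w * (v - l) ≠ 0 := mul_ne_zero (mul_ne_zero hX hw) (sub_ne_zero.2 hvl)
  apply mul_left_cancel₀ hne
  have e1 := h.e1
  have e3 := h.e3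
  have e5 := h.e5
  unfold gg at e1
  set S := c + t ^ 2 with hS
  have hc : c = S - t ^ 2 := by rw [hS]; ring
  linear_combination (exp := 1)
    (((c + v * l + v * t - l * t) * X ^ 2 - w * (y + (l - t) * (l + t - k))) *
      (X * (y - 3 * S) + 2 * S * w) -
      (w * (t - v) * X - (t - v) * X ^ 3 - 2 * (l - t) * w * X + 2 * (l - t) * w ^ 2) *
      ((l + t) * y + S * (k - l - t))) * e5 -
    ((S * (l - v) * X) * (X * (y - 3 * S) + 2 * S * w) -
      (S * X ^ 2 - w * y) * ((l + t) * y + S * (k - l - t))) * e1 +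
    ((S * (l - v) * X) *
      (w * (t - v) * X - (t - v) * X ^ 3 - 2 * (l - t) * w * X + 2 * (l - t) * w ^ 2) -
      (S * X ^ 2 - w * y) *
      ((c + v * l + v * t - l * t) * X ^ 2 - w * (y + (l - t) * (l + t - k)))) * e3

end elim

end Vale.Agent.P297.H212.Z
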