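import Vale.Agent.P297.H212.ZGen

/-!
The plane cubic attached to a base point of the pencil: the polynomial form and its invariants.
-/

set_option linter.unusedSectionVars false
set_option linter.unusedVariables false

open IntermediateField Polynomial

namespace Vale.Agent.P297.H212.Z

open Vale.Agent.P297 Vale.Agent.P297.H839 Vale.Agent.P297.H160 Vale.Agent.P297.Z3

section ring

variable {R : Type} [CommRing R]

/-- a coefficient of the invariant of degree four -/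
def zP0 (a b b2 f4 f5 f7 f8 h h1 : R) : R :=
  -216 * a * f4 * h1 + f4 ^ 4

/-- a coefficient of the invariant of degree four -/
def zP1 (a b b2 f4 f5 f7 f8 h h1 : R) : R :=
  24 * a * f4 * f7 * f8 - 216 * a * f4 * h - 48 * a * f5 * f7 ^ 2 + 144 * a * f5 * f8 -
  48 * b ^ 2 * f7 * h1 + 144 * b * b2 * h1 - 8 * b * f4 ^ 2 * f8 + 24 * b * f4 * f5 * f7 -
  48 * b * f5 ^ 2 - 8 * b2 * f4 ^ 2 * f7 + 24 * b2 * f4 * f5

/-- a coefficient of the invariant of degree four -/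
def zP2 (a b b2 f4 f5 f7 f8 h h1 : R) : R :=
  -48 * b ^ 2 * f7 * h + 16 * b ^ 2 * f8 ^ 2 - 16 * b * b2 * f7 * f8 + 144 * b * b2 * h +
  16 * b2 ^ 2 * f7 ^ 2 - 48 * b2 ^ 2 * f8

/-- a coefficient of the invariant of degree six -/
def zQ0 (a b b2 f4 f5 f7 f8 h h1 : R) : R :=
  5832 * a ^ 2 * h1 ^ 2 - 540 * a * f4 ^ 3 * h1 - f4 ^ 6

/-- a coefficient of the invariant of degree six -/
def zQ1 (a b b2 f4 f5 f7 f8 h h1 : R) : R :=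
  864 * a ^ 2 * f7 ^ 3 * h1 - 3888 * a ^ 2 * f7 * f8 * h1 + 11664 * a ^ 2 * h * h1 -
  864 * a * b * f4 * f7 ^ 2 * h1 + 1296 * a * b * f4 * f8 * h1 + 1296 * a * b * f5 * f7 * h1 +
  1296 * a * b2 * f4 * f7 * h1 - 3888 * a * b2 * f5 * h1 - 36 * a * f4 ^ 3 * f7 * f8 -
  540 * a * f4 ^ 3 * h + 72 * a * f4 ^ 2 * f5 * f7 ^ 2 + 648 * a * f4 ^ 2 * f5 * f8 -
  864 * a * f4 * f5 ^ 2 * f7 + 864 * a * f5 ^ 3 + 864 * b ^ 3 * h1 ^ 2 +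
  72 * b ^ 2 * f4 ^ 2 * f7 * h1 - 864 * b ^ 2 * f4 * f5 * h1 + 648 * b * b2 * f4 ^ 2 * h1 +
  12 * b * f4 ^ 4 * f8 - 36 * b * f4 ^ 3 * f5 * f7 + 72 * b * f4 ^ 2 * f5 ^ 2 +
  12 * b2 * f4 ^ 4 * f7 - 36 * b2 * f4 ^ 3 * f5

/-- a coefficient of the invariant of degree six -/
def zQ2 (a b b2 f4 f5 f7 f8 h h1 : R) : R :=
  864 * a ^ 2 * f7 ^ 3 * h - 216 * a ^ 2 * f7 ^ 2 * f8 ^ 2 - 3888 * a ^ 2 * f7 * f8 * h +
  864 * a ^ 2 * f8 ^ 3 + 5832 * a ^ 2 * h ^ 2 - 864 * a * b * f4 * f7 ^ 2 * h +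
  144 * a * b * f4 * f7 * f8 ^ 2 + 1296 * a * b * f4 * f8 * h + 144 * a * b * f5 * f7 ^ 2 * f8 +
  1296 * a * b * f5 * f7 * h - 864 * a * b * f5 * f8 ^ 2 + 144 * a * b2 * f4 * f7 ^ 2 * f8 +
  1296 * a * b2 * f4 * f7 * h - 864 * a * b2 * f4 * f8 ^ 2 - 288 * a * b2 * f5 * f7 ^ 3 +
  1296 * a * b2 * f5 * f7 * f8 - 3888 * a * b2 * f5 * h - 288 * b ^ 3 * f7 * f8 * h1 +
  1728 * b ^ 3 * h * h1 + 576 * b ^ 2 * b2 * f7 ^ 2 * h1 - 864 * b ^ 2 * b2 * f8 * h1 +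
  72 * b ^ 2 * f4 ^ 2 * f7 * h - 48 * b ^ 2 * f4 ^ 2 * f8 ^ 2 + 144 * b ^ 2 * f4 * f5 * f7 * f8 -
  864 * b ^ 2 * f4 * f5 * h - 216 * b ^ 2 * f5 ^ 2 * f7 ^ 2 + 576 * b ^ 2 * f5 ^ 2 * f8 -
  864 * b * b2 ^ 2 * f7 * h1 - 24 * b * b2 * f4 ^ 2 * f7 * f8 + 648 * b * b2 * f4 ^ 2 * h +
  144 * b * b2 * f4 * f5 * f7 ^ 2 - 720 * b * b2 * f4 * f5 * f8 + 144 * b * b2 * f5 ^ 2 * f7 +
  864 * b2 ^ 3 * h1 - 48 * b2 ^ 2 * f4 ^ 2 * f7 ^ 2 + 72 * b2 ^ 2 * f4 ^ 2 * f8 +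
  144 * b2 ^ 2 * f4 * f5 * f7 - 216 * b2 ^ 2 * f5 ^ 2

/-- a coefficient of the invariant of degree six -/
def zQ3 (a b b2 f4 f5 f7 f8 h h1 : R) : R :=
  -288 * b ^ 3 * f7 * f8 * h + 64 * b ^ 3 * f8 ^ 3 + 864 * b ^ 3 * h ^ 2 +
  576 * b ^ 2 * b2 * f7 ^ 2 * h - 96 * b ^ 2 * b2 * f7 * f8 ^ 2 - 864 * b ^ 2 * b2 * f8 * h -
  96 * b * b2 ^ 2 * f7 ^ 2 * f8 - 864 * b * b2 ^ 2 * f7 * h + 576 * b * b2 ^ 2 * f8 ^ 2 +
  64 * b2 ^ 3 * f7 ^ 3 - 288 * b2 ^ 3 * f7 * f8 + 864 * b2 ^ 3 * h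

/-- the coefficient of `x³` -/
def zfa (v c t : R) : R := -2 * (c + t ^ 2) ^ 2 * (v ^ 2 + c)

/-- the coefficient of `x² y` -/
def zfb (v c t : R) : R := -(c + t ^ 2) * (v ^ 2 - 2 * v * t + 3 * c)

/-- the coefficient of `x² z` -/
def zfb2 (v l c t k : R) : R :=
  (c + t ^ 2) ^ 2 * (3 * v ^ 2 + 4 * v * l - 2 * v * t + 2 * v * k + 9 * c)

/-- the coefficient of `x y z` -/
def zf4 (v l c t : R) : R := 2 * (c + t ^ 2) * (v * l - v * t - l * t + 3 * c)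

/-- the coefficient of `x z²` -/
def zf5 (v l c t k : R) : R :=
  2 * (c + t ^ 2) ^ 2 * (-3 * v * l + v * t - v * k - l ^ 2 + l * t - l * k - 6 * c)

/-- the coefficient of `y² z` -/
def zf7 (c t k : R) : R := 2 * t * k - 3 * (c + t ^ 2)

/-- the coefficient of `y z²` -/
def zf8 (l c t k : R) : R := (c + t ^ 2) * (k ^ 2 - l ^ 2 + 2 * l * t + 3 * t ^ 2 - 4 * t * k)

/-- the coefficient of `z³` -/
def zfh (l c t k : R) : R := -(c + t ^ 2) ^ 2 * (l + t - k) ^ 2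

/-- the second coefficient of `z³` -/
def zfh1 (l c t : R) : R := 4 * (c + t ^ 2) ^ 2 * (l ^ 2 + c)

/-- `s` times the plane cubic -/
def zg (v l c t k s : R) : Fin 10 → R :=
  ![s ^ 2 * zfa v c t, s ^ 2 * zfb v c t, s ^ 2 * zfb2 v l c t k, 0, s * zf4 v l c t,
    s * zf5 v l c t k, s, s * zf7 c t k, s * zf8 l c t k, s * zfh l c t k + zfh1 l c t]

theorem zg_eq (v l c t k s u : R) (h : s * u = 1) (i : Fin 10) :
    zg v l c t k s i = s * zf v l c t k s u i := by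
  fin_cases i
  · simp only [zg, zf, zfa, Matrix.cons_val, Fin.zero_eta]; ring
  · simp only [zg, zf, zfb, Matrix.cons_val, Fin.mk_one]; ring
  · simp only [zg, zf, zfb2, Matrix.cons_val, Fin.reduceFinMk]; ring
  · simp only [zg, zf, Matrix.cons_val, Fin.reduceFinMk]; ring
  · simp only [zg, zf, zf4, Matrix.cons_val, Fin.reduceFinMk]
  · simp only [zg, zf, zf5, Matrix.cons_val, Fin.reduceFinMk]
  · simp only [zg, zf, Matrix.cons_val, Fin.reduceFinMk]; ring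
  · simp only [zg, zf, zf7, Matrix.cons_val, Fin.reduceFinMk]
  · simp only [zg, zf, zf8, Matrix.cons_val, Fin.reduceFinMk]
  · simp only [zg, zf, zfh, zfh1, Matrix.cons_val, Fin.reduceFinMk]
    linear_combination (-(4 * (c + t ^ 2) ^ 2 * (l ^ 2 + c))) * h

/-- the general form -/
def zgen (a b b2 f4 f5 f7 f8 h h1 s : R) : Fin 10 → R :=
  ![s ^ 2 * a, s ^ 2 * b, s ^ 2 * b2, 0, s * f4, s * f5, s, s * f7, s * f8, s * h + h1]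

theorem zgen_c4 (a b b2 f4 f5 f7 f8 h h1 s : R) : c4 (zgen a b b2 f4 f5 f7 f8 h h1 s) =
    s ^ 4 * (zP0 a b b2 f4 f5 f7 f8 h h1 + zP1 a b b2 f4 f5 f7 f8 h h1 * s +
      zP2 a b b2 f4 f5 f7 f8 h h1 * s ^ 2) := by
  simp only [c4, zgen, Matrix.cons_val, zP0, zP1, zP2]
  ring

theorem zgen_c6 (a b b2 f4 f5 f7 f8 h h1 s : R) : c6 (zgen a b b2 f4 f5 f7 f8 h h1 s) =
    s ^ 6 * (zQ0 a b b2 f4 f5 f7 f8 h h1 + zQ1 a b b2 f4 f5 f7 f8 h h1 * s +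
      zQ2 a b b2 f4 f5 f7 f8 h h1 * s ^ 2 + zQ3 a b b2 f4 f5 f7 f8 h h1 * s ^ 3) := by
  simp only [c6, zgen, Matrix.cons_val, zQ0, zQ1, zQ2, zQ3]
  ring

end ring

end Vale.Agent.P297.H212.Z
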