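import Vale.Agent.P297.H212.ZForm

/-!
The invariants of the plane cubic in terms of the parameters of the family.
-/

set_option linter.unusedVariables false

namespace Vale.Agent.P297.H212.Z

variable {R : Type} [CommRing R]

/-- the leading coefficient of the quartic `Ψ` -/
def ps4 (c d1 d2 e g : R) : R := 12 * c - 4 * d1 - 4 * g

/-- a coefficient of `Ψ` -/
def ps3 (c d1 d2 e g : R) : R := 12 * c * d2 - 2 * d1 * d2 - 2 * d2 * g + 12 * e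

/-- a coefficient of `Ψ` -/
def ps2 (c d1 d2 e g : R) : R :=
  12 * c ^ 2 - 4 * c * d1 + 3 * c * d2 ^ 2 + 20 * c * g + d1 ^ 2 + 6 * d2 * e - g ^ 2

/-- a coefficient of `Ψ` -/
def ps1 (c d1 d2 e g : R) : R :=
  12 * c ^ 2 * d2 - 2 * c * d1 * d2 + 10 * c * d2 * g - 12 * c * e - 4 * d1 * e + 2 * e * g

/-- a coefficient of `Ψ` -/
def ps0 (c d1 d2 e g : R) : R :=
  3 * c ^ 2 * d2 ^ 2 + c * d1 ^ 2 - 4 * c * d1 * g - 6 * c * d2 * e + 4 * c * g ^ 2 + 3 * e ^ 2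

/-- the first invariant of `Ψ` -/
def zI (c d1 d2 e g : R) : R :=
  12 * ps4 c d1 d2 e g * ps0 c d1 d2 e g - 3 * ps3 c d1 d2 e g * ps1 c d1 d2 e g +
    ps2 c d1 d2 e g ^ 2

/-- the second invariant of `Ψ` -/
def zJ (c d1 d2 e g : R) : R :=
  72 * ps4 c d1 d2 e g * ps2 c d1 d2 e g * ps0 c d1 d2 e g +
    9 * ps3 c d1 d2 e g * ps2 c d1 d2 e g * ps1 c d1 d2 e g -
    27 * ps4 c d1 d2 e g * ps1 c d1 d2 e g ^ 2 - 27 * ps3 c d1 d2 e g ^ 2 * ps0 c d1 d2 e g -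
    2 * ps2 c d1 d2 e g ^ 3

/-- `P₂` without the powers of `S` -/
def rP2 (S b b2 f7 f8 h : R) : R :=
  -48 * b ^ 2 * f7 * h + 16 * b ^ 2 * f8 ^ 2 - 16 * b * b2 * f7 * f8 + 144 * S * b * b2 * h +
    16 * b2 ^ 2 * f7 ^ 2 - 48 * S * b2 ^ 2 * f8

/-- `Q₃` without the powers of `S` -/
def rQ3 (S b b2 f7 f8 h : R) : R :=
  -288 * b ^ 3 * f7 * f8 * h + 64 * b ^ 3 * f8 ^ 3 + 864 * S * b ^ 3 * h ^ 2 +
    576 * b ^ 2 * b2 * f7 ^ 2 * h - 96 * b ^ 2 * b2 * f7 * f8 ^ 2 -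
    864 * S * b ^ 2 * b2 * f8 * h - 96 * b * b2 ^ 2 * f7 ^ 2 * f8 -
    864 * S * b * b2 ^ 2 * f7 * h + 576 * S * b * b2 ^ 2 * f8 ^ 2 + 64 * b2 ^ 3 * f7 ^ 3 -
    288 * S * b2 ^ 3 * f7 * f8 + 864 * S ^ 2 * b2 ^ 3 * h

theorem zP2_scale (S a b b2 f4 f5 f7 f8 h h1 : R) :
    zP2 a (S * b) (S ^ 2 * b2) f4 f5 f7 (S * f8) (S ^ 2 * h) h1 =
      S ^ 4 * rP2 S b b2 f7 f8 h := by
  unfold zP2 rP2
  ring

theorem zQ3_scale (S a b b2 f4 f5 f7 f8 h h1 : R) :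
    zQ3 a (S * b) (S ^ 2 * b2) f4 f5 f7 (S * f8) (S ^ 2 * h) h1 =
      S ^ 6 * rQ3 S b b2 f7 f8 h := by
  unfold zQ3 rQ3
  ring

theorem rP2_eq (v l c t k : R) :
    rP2 (c + t ^ 2) (-(v ^ 2 - 2 * v * t + 3 * c))
      (3 * v ^ 2 + 4 * v * l - 2 * v * t + 2 * v * k + 9 * c) (2 * t * k - 3 * (c + t ^ 2))
      (k ^ 2 - l ^ 2 + 2 * l * t + 3 * t ^ 2 - 4 * t * k) (-(l + t - k) ^ 2) =
      16 * zI c (dd v l c t k) (v - l - k) (ee v l c t) (gg v l c t) := by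
  simp only [rP2, zI, ps4, ps3, ps2, ps1, ps0, dd, ee, gg]
  ring

theorem rQ3_eq (v l c t k : R) :
    rQ3 (c + t ^ 2) (-(v ^ 2 - 2 * v * t + 3 * c))
      (3 * v ^ 2 + 4 * v * l - 2 * v * t + 2 * v * k + 9 * c) (2 * t * k - 3 * (c + t ^ 2))
      (k ^ 2 - l ^ 2 + 2 * l * t + 3 * t ^ 2 - 4 * t * k) (-(l + t - k) ^ 2) =
      32 * zJ c (dd v l c t k) (v - l - k) (ee v l c t) (gg v l c t) := by
  simp only [rQ3, zJ, ps4, ps3, ps2, ps1, ps0, dd, ee, gg]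
  ring

/-- `P₀` without the powers of `S` -/
def rP0 (S a f4 h1 : R) : R := f4 ^ 4 - 216 * S * a * f4 * h1

/-- `Q₀` without the powers of `S` -/
def rQ0 (S a f4 h1 : R) : R :=
  5832 * S ^ 2 * a ^ 2 * h1 ^ 2 - 540 * S * a * f4 ^ 3 * h1 - f4 ^ 6

/-- `P₁` without the powers of `S` -/
def rP1 (S a b b2 f4 f5 f7 f8 h h1 : R) : R :=
  24 * a * f4 * f7 * f8 - 216 * S * a * f4 * h - 48 * a * f5 * f7 ^ 2 + 144 * S * a * f5 * f8 -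
  48 * b ^ 2 * f7 * h1 + 144 * S * b * b2 * h1 - 8 * b * f4 ^ 2 * f8 + 24 * b * f4 * f5 * f7 -
  48 * S * b * f5 ^ 2 - 8 * b2 * f4 ^ 2 * f7 + 24 * S * b2 * f4 * f5

theorem zP0_scale (S a b b2 f4 f5 f7 f8 h h1 : R) :
    zP0 (S ^ 2 * a) (S * b) (S ^ 2 * b2) (S * f4) (S ^ 2 * f5) f7 (S * f8) (S ^ 2 * h)
      (S ^ 2 * h1) = S ^ 4 * rP0 S a f4 h1 := by
  unfold zP0 rP0
  ring

theorem zQ0_scale (S a b b2 f4 f5 f7 f8 h h1 : R) :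
    zQ0 (S ^ 2 * a) (S * b) (S ^ 2 * b2) (S * f4) (S ^ 2 * f5) f7 (S * f8) (S ^ 2 * h)
      (S ^ 2 * h1) = S ^ 6 * rQ0 S a f4 h1 := by
  unfold zQ0 rQ0
  ring

theorem zP1_scale (S a b b2 f4 f5 f7 f8 h h1 : R) :
    zP1 (S ^ 2 * a) (S * b) (S ^ 2 * b2) (S * f4) (S ^ 2 * f5) f7 (S * f8) (S ^ 2 * h)
      (S ^ 2 * h1) = S ^ 4 * rP1 S a b b2 f4 f5 f7 f8 h h1 := by
  unfold zP1 rP1
  ring

theorem rP_sum (v l c t k : R) :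
    rP0 (c + t ^ 2) (-2 * (v ^ 2 + c)) (2 * (v * l - v * t - l * t + 3 * c))
      (4 * (l ^ 2 + c)) +
    rP1 (c + t ^ 2) (-2 * (v ^ 2 + c)) (-(v ^ 2 - 2 * v * t + 3 * c))
      (3 * v ^ 2 + 4 * v * l - 2 * v * t + 2 * v * k + 9 * c)
      (2 * (v * l - v * t - l * t + 3 * c))
      (2 * (-3 * v * l + v * t - v * k - l ^ 2 + l * t - l * k - 6 * c))
      (2 * t * k - 3 * (c + t ^ 2))
      (k ^ 2 - l ^ 2 + 2 * l * t + 3 * t ^ 2 - 4 * t * k) (-(l + t - k) ^ 2)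
      (4 * (l ^ 2 + c)) +
    rP2 (c + t ^ 2) (-(v ^ 2 - 2 * v * t + 3 * c))
      (3 * v ^ 2 + 4 * v * l - 2 * v * t + 2 * v * k + 9 * c) (2 * t * k - 3 * (c + t ^ 2))
      (k ^ 2 - l ^ 2 + 2 * l * t + 3 * t ^ 2 - 4 * t * k) (-(l + t - k) ^ 2) =
      16 * (dd v l c t k ^ 2 - 4 * c * dd v l c t k - 3 * c * (v - l - k) ^ 2 +
        4 * c ^ 2) ^ 2 := by
  simp only [rP0, rP1, rP2, dd]
  ring

theorem r0_disc (S a f4 h1 : R) : rP0 S a f4 h1 ^ 3 - rQ0 S a f4 h1 ^ 2 =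
    -1728 * (S * a * h1) * (f4 ^ 3 + 27 * (S * a * h1)) ^ 3 := by
  unfold rP0 rQ0
  ring

theorem base_norm (v l c t : R) : c * gg v l c t ^ 2 + ee v l c t ^ 2 =
    (c + t ^ 2) * (v ^ 2 + c) * (l ^ 2 + c) := by
  unfold gg ee
  ring

end Vale.Agent.P297.H212.Z
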